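import Vale.Agent.P195.CE.Modules

/-!
# Homomorphisms from columns into `R`: basic definitions

A homomorphism from the column module of the vertex `v` into `R` is given by a linear map
`μ : Z × k → V` (the weight one row of an element of `J`, and an element of `Z`), modulo `NR v`.
-/

namespace Vale.Agent.P195.CE

variable {k : Type} [Field k]

variable (k) in
/-- The parameter space. -/
abbrev Par := (Zc k × k) →ₗ[k] V k

/-- The element of `R` with weight `w`, vertex `v` row given by `μ`. -/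
noncomputable def tW (w : Fin 2) (v : W) : Par k →ₗ[k] Rt k where
  toFun μ := ⟨0, mkJ ((LinearMap.single k (fun _ : Ix => V k) (w, v)).comp
    (μ.comp (LinearMap.inl k (Zc k) k))), Pi.single (w, v) (μ (0, 1)), 0, 0⟩
  map_add' μ ν := by
    ext1
    · simp
    · simp [LinearMap.add_comp, LinearMap.comp_add]
    · simp [Pi.single_add]
    · simp
    · simp
  map_smul' c μ := by
    ext1
    · simp
    · simp [LinearMap.smul_comp, LinearMap.comp_smul]
    · simp [Pi.single_smul]
    · simp
    · simp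

@[simp] theorem tW_a (w : Fin 2) (v : W) (μ : Par k) : (tW w v μ).a = 0 := rfl
@[simp] theorem tW_j (w : Fin 2) (v : W) (μ : Par k) : (tW w v μ).j =
    mkJ ((LinearMap.single k (fun _ : Ix => V k) (w, v)).comp
      (μ.comp (LinearMap.inl k (Zc k) k))) := rfl
@[simp] theorem tW_x (w : Fin 2) (v : W) (μ : Par k) :
    (tW w v μ).x = Pi.single (w, v) (μ (0, 1)) := rfl
@[simp] theorem tW_y (w : Fin 2) (v : W) (μ : Par k) : (tW w v μ).y = 0 := rfl
@[simp] theorem tW_c (w : Fin 2) (v : W) (μ : Par k) : (tW w v μ).c = 0 := rfl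

theorem mul_tW (r : Rt k) (w : Fin 2) (v : W) (μ : Par k) :
    r * tW w v μ = ∑ i : Ix, tW i.1 i.2 ((vRep k (r.a.1 i (w, v))).comp μ) := by
  have hsum : ∀ (f : Ix → Rt k), (∑ i, f i).a = ∑ i, (f i).a ∧ (∑ i, f i).j = ∑ i, (f i).j ∧
      (∑ i, f i).x = ∑ i, (f i).x ∧ (∑ i, f i).y = ∑ i, (f i).y ∧ (∑ i, f i).c = ∑ i, (f i).c :=
    fun f => ⟨map_sum (⟨⟨fun s : Rt k => s.a, rfl⟩, fun _ _ => rfl⟩ : Rt k →+ Alg k) f Finset.univ,
      map_sum (⟨⟨fun s : Rt k => s.j, rfl⟩, fun _ _ => rfl⟩ : Rt k →+ Jc k) f Finset.univ,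
      map_sum (⟨⟨fun s : Rt k => s.x, rfl⟩, fun _ _ => rfl⟩ : Rt k →+ Zc k) f Finset.univ,
      map_sum (⟨⟨fun s : Rt k => s.y, rfl⟩, fun _ _ => rfl⟩ : Rt k →+ DZ k) f Finset.univ,
      map_sum (⟨⟨fun s : Rt k => s.c, rfl⟩, fun _ _ => rfl⟩ : Rt k →+ k) f Finset.univ⟩
  obtain ⟨h1, h2, h3, h4, h5⟩ := hsum fun i => tW i.1 i.2 ((vRep k (r.a.1 i (w, v))).comp μ)
  have key : ∀ u : V k, rhoZ k r.a (Pi.single (w, v) u) =
      ∑ i : Ix, Pi.single i (vRep k (r.a.1 i (w, v)) u) := by
    intro u
    funext i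
    rw [rhoZ_apply, Finset.sum_apply, Finset.sum_eq_single (w, v) (fun j _ hj => by simp [hj])
      (by simp), Finset.sum_eq_single i (fun j _ hj => by simp [hj.symm]) (by simp)]
    simp
  ext1
  · simp [h1]
  · rw [h2]
    simp only [Rt.mul_j, tW_j, tW_a, tW_y, rJ_zero, map_zero, outer_zero_right, add_zero, lJ_mk,
      ← map_sum]
    congr 1
    refine LinearMap.ext fun z => ?_
    simp only [Module.End.mul_apply, LinearMap.comp_apply, LinearMap.sum_apply]
    exact key _
  · rw [h3]
    simp only [Rt.mul_x, tW_x, tW_c, zero_smul, add_zero, key]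
    rfl
  · simp [h4]
  · simp [h5]

/-- A row of weight zero columns, as a parameter. -/
noncomputable def nrow : (W → Weyl k) →ₗ[k] Par k where
  toFun f := (∑ q, (vRep k (f q)).comp (LinearMap.proj ((0 : Fin 2), q))).comp
    (LinearMap.fst k (Zc k) k)
  map_add' f g := by simp [Finset.sum_add_distrib, LinearMap.add_comp]
  map_smul' c f := by simp [Finset.smul_sum, LinearMap.smul_comp, ← Finset.smul_sum]

theorem nrow_apply (f : W → Weyl k) (z : Zc k) (c : k) :
    nrow f (z, c) = ∑ q, vRep k (f q) (z (0, q)) := by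
  simp [nrow]

variable (k) in
/-- The parameters giving zero. -/
noncomputable def NR (v : W) : Submodule k (Par k) :=
  (Submodule.pi Set.univ fun q => Piece k (pos v + (1, 0) - pos q)).map nrow

theorem mem_NR {v : W} {μ : Par k} :
    μ ∈ NR k v ↔ ∃ f : W → Weyl k, (∀ q, f q ∈ Piece k (pos v + (1, 0) - pos q)) ∧ nrow f = μ := by
  simp [NR]

/-- The generator of a column module. -/
noncomputable def cdelta (v : W) : Col k (pos v) :=
  ⟨Pi.single v 1, mem_Colsub.2 fun q => by
    rcases eq_or_ne q v with rfl | h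
    · simpa using one_mem_piece
    · simp [h]⟩

/-- The homomorphism given by a parameter. -/
noncomputable def homCol (v : W) (μ : Par k) : Col k (pos v) →ₗ[Rt k] Rt k where
  toFun c := ∑ q, tW 1 q ((vRep k (c.1 q)).comp μ)
  map_add' c d := by
    simp only [Submodule.coe_add, Pi.add_apply, map_add, LinearMap.add_comp, Finset.sum_add_distrib]
  map_smul' r c := by
    rw [RingHom.id_apply, smul_eq_mul, Finset.mul_sum]
    simp only [mul_tW]
    refine Eq.trans ?_ Finset.sum_comm
    rw [sum_ix, eq_comm]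
    simp only [alg_upper, alg_diag, map_zero, LinearMap.zero_comp, Finset.sum_const_zero,
      zero_add]
    refine Finset.sum_congr rfl fun p _ => ?_
    show _ = tW 1 p ((vRep k ((blk r.a).mulVec c.1 p)).comp μ)
    simp only [Matrix.mulVec, dotProduct, map_sum, map_mul]
    rw [← map_sum]
    congr 1

theorem homCol_apply (v : W) (μ : Par k) (c : Col k (pos v)) :
    homCol v μ c = ∑ q, tW 1 q ((vRep k (c.1 q)).comp μ) := rfl

variable (k) in
/-- The idempotent of the vertex (0, 0) in `R`. -/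
noncomputable def e00 : Rt k := hat (eV k (0, 0))

end Vale.Agent.P195.CE
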