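import Mathlib.LinearAlgebra.Dual.Lemmas
import Vale.Agent.P195.CE.HomR

/-!
# Homomorphisms from the column modules into `R`: classification
-/

namespace Vale.Agent.P195.CE

open MvPolynomial

variable {k : Type} [Field k]

theorem acy_rhoZ_single (a : Alg k) (j : Ix) (u : V k) (i : Ix) :
    rhoZ k a (Pi.single j u) i = vRep k (a.1 i j) u := by
  rw [rhoZ_apply, Finset.sum_eq_single j (fun l _ hl => by simp [hl]) (by simp)]
  simp

/-- A row of `ρ a` vanishes only if the row of `a` does. -/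
theorem acy_row_zero (a : Alg k) (i : Ix) (h : ∀ z, rhoZ k a z i = 0) (j : Ix) : a.1 i j = 0 := by
  refine vRep_injOn ?_ ?_ (a.2.1 i j) (LinearMap.ext fun u => ?_)
  · have := tgt_bounds i; have := tgt_bounds j; simp only [Prod.fst_sub]; omega
  · have := tgt_bounds i; have := tgt_bounds j; simp only [Prod.snd_sub]; omega
  · rw [← acy_rhoZ_single]; exact h _

/-- The off diagonal matrix with given entries. -/
noncomputable def offMat (n : W → W → Weyl k) : Matrix Ix Ix (Weyl k) := fun i j =>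
  if i.1 = 1 ∧ j.1 = 0 then n i.2 j.2 else 0

theorem offMat_mem (n : W → W → Weyl k) (h : ∀ p q, n p q ∈ Piece k (pos p + (1, 0) - pos q)) :
    offMat n ∈ ALG k := by
  refine ⟨fun i j => ?_, (commute_shift_iff _).2 ⟨fun p q => ?_, fun p q => ?_⟩⟩
  · unfold offMat
    split_ifs with hw
    · obtain ⟨w, p⟩ := i; obtain ⟨u, q⟩ := j
      obtain ⟨rfl, rfl⟩ : w = 1 ∧ u = 0 := hw
      rw [tgt_one, tgt_zero]; exact h p q
    · exact zero_mem _
  · simp [offMat]
  · simp [offMat]

/-- The element of the off diagonal part with given entries. -/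
noncomputable def offA (n : W → W → Weyl k)
    (h : ∀ p q, n p q ∈ Piece k (pos p + (1, 0) - pos q)) : Alg k :=
  ⟨offMat n, offMat_mem n h⟩

theorem offA_rho_one (n : W → W → Weyl k) (h : ∀ p q, n p q ∈ Piece k (pos p + (1, 0) - pos q))
    (z : Zc k) (p : W) : rhoZ k (offA n h) z (1, p) = ∑ q, vRep k (n p q) (z (0, q)) := by
  rw [rhoZ_apply, sum_ix]
  simp [offA, offMat]

theorem offA_rho_zero (n : W → W → Weyl k) (h : ∀ p q, n p q ∈ Piece k (pos p + (1, 0) - pos q))
    (z : Zc k) (p : W) : rhoZ k (offA n h) z (0, p) = 0 := by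
  rw [rhoZ_apply]
  simp [offA, offMat]

theorem offA_blk (n : W → W → Weyl k) (h : ∀ p q, n p q ∈ Piece k (pos p + (1, 0) - pos q)) :
    blk (offA n h) = 0 := by
  refine Matrix.ext fun p q => ?_
  simp [blk, offA, offMat]

theorem acy_par_ext {μ ν : Par k} (h1 : ∀ z, μ (z, 0) = ν (z, 0)) (h2 : μ (0, 1) = ν (0, 1)) :
    μ = ν :=
  LinearMap.prod_ext (LinearMap.ext fun z => h1 z) (LinearMap.ext_ring h2)

theorem tW_one_eq_zero (v : W) (μ : Par k) : tW 1 v μ = 0 ↔ μ ∈ NR k v := by
  constructor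
  · intro h
    have hx := congrArg Rt.x h
    rw [tW_x, Rt.zero_x, Pi.single_eq_zero_iff] at hx
    have hj := congrArg Rt.j h
    rw [tW_j, Rt.zero_j, mkJ_eq_zero] at hj
    obtain ⟨a, ha⟩ := hj
    have hz : ∀ z i, rhoZ k a z i = (Pi.single (1, v) (μ (z, 0)) : Zc k) i := fun z i => by
      rw [ha]; rfl
    have h0 : ∀ p j, a.1 (0, p) j = 0 := fun p j =>
      acy_row_zero a (0, p) (fun z => by rw [hz]; simp) j
    refine mem_NR.2 ⟨fun q => a.1 (1, v) (0, q), fun q => ?_, acy_par_ext (fun z => ?_) ?_⟩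
    · have := a.2.1 (1, v) (0, q); rwa [tgt_one, tgt_zero] at this
    · have := hz z (1, v)
      rw [Pi.single_eq_same, rhoZ_apply, sum_ix] at this
      rw [nrow_apply, ← this]
      simp [alg_diag, blk, h0]
    · rw [nrow_apply, hx]; simp
  · rw [mem_NR]
    rintro ⟨f, hf, rfl⟩
    have hn : ∀ p q, (if p = v then f q else 0) ∈ Piece k (pos p + (1, 0) - pos q) := fun p q => by
      split_ifs with h
      · subst h; exact hf q
      · exact zero_mem _
    ext1
    · rfl
    · rw [tW_j, Rt.zero_j, mkJ_eq_zero]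
      refine ⟨offA _ hn, LinearMap.ext fun z => funext ?_⟩
      rintro ⟨w, p⟩
      fin_cases w
      · exact (offA_rho_zero _ hn z p).trans (by simp)
      · refine (offA_rho_one _ hn z p).trans ?_
        by_cases hp : p = v
        · subst hp; simp [nrow_apply]
        · simp [hp]
    · rw [tW_x, nrow_apply]; simp
    · rfl
    · rfl

variable (k) in
/-- The scalar idempotent. -/
noncomputable def fScal : Rt k := ⟨0, 0, 0, 0, 1⟩

/-- An element killed on the left by everything with zero component in `A`. -/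
theorem acy_pure {t : Rt k} (h : ∀ r : Rt k, r.a = 0 → r * t = 0) :
    t.a = 0 ∧ t.y = 0 ∧ t.c = 0 := by
  have h1 := h (fScal k) rfl
  refine ⟨?_, ?_, ?_⟩
  · apply rhoZ_injective
    rw [map_zero]
    refine LinearMap.ext fun z => ?_
    rw [LinearMap.zero_apply, ← Module.forall_dual_apply_eq_zero_iff k]
    intro φ
    simpa using congrArg (fun s : Rt k => s.y z) (h ⟨0, 0, 0, φ, 0⟩ rfl)
  · simpa [fScal] using congrArg Rt.y h1
  · simpa [fScal] using congrArg Rt.c h1

theorem acy_mul_pure (r : Rt k) {t : Rt k} (ha : t.a = 0) (hy : t.y = 0) (hc : t.c = 0) :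
    r * t = ⟨0, lJ r.a t.j, rhoZ k r.a t.x, 0, 0⟩ := by
  ext1 <;> simp [ha, hy, hc]

theorem acy_eV_rho (v : W) (z : Zc k) (i : Ix) :
    rhoZ k (eV k v) z i = if i.2 = v then z i else 0 := by
  obtain ⟨w, p⟩ := i
  rw [rhoZ_apply, Finset.sum_eq_single (w, p)]
  · simp only [eV, slot_apply]
    by_cases h : p = v <;> simp [h]
  · rintro ⟨u, q⟩ _ hne
    simp only [eV, slot_apply]
    rw [if_neg]
    · simp
    · rintro ⟨rfl, rfl, rfl⟩; exact hne rfl
  · simp

/-- `x₁` and `x₂` have no common left multiples but the obvious ones. -/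
theorem acy_left_common {d : ℤ × ℤ} {f g : Weyl k} (hf : f ∈ Piece k d)
    (h : gen 1 * f = gen 0 * g) : ∃ b ∈ Piece k (d - (1, 0)), f = gen 0 * b := by
  have h' := congrArg sym h
  rw [show (gen 1 : Weyl k) = gen (if (1 : Fin 2) = 0 then 0 else 1) from rfl, sym_x_mul,
    show (gen 0 : Weyl k) = gen (if (0 : Fin 2) = 0 then 0 else 1) from rfl, sym_x_mul] at h'
  simp only [if_true, if_false, one_ne_zero] at h'
  have hdvd : (X 0 : Sym k) ∣ X 1 * sym f := ⟨_, h'⟩
  obtain ⟨B, hB⟩ := ((X_prime (σ := Fin 5) (R := k) (i := 0)).dvd_or_dvd hdvd).resolve_left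
    (by rw [X_dvd_X]; simp)
  refine ⟨ofSym B, ?_, ?_⟩
  · rw [mem_piece, sym_ofSym]
    intro s hs
    have hf' : sym f ∈ Deg k d := hf
    have h2 : coeff (s + Finsupp.single 0 1) (sym f) ≠ 0 := by
      rw [hB, mul_comm, coeff_mul_X]; exact hs
    have := hf' h2
    rw [map_add, Finsupp.weight_single, one_smul] at this
    rw [← this]
    simp [wt]
  · apply sym_injective
    rw [hB, show (gen 0 : Weyl k) = gen (if (0 : Fin 2) = 0 then 0 else 1) from rfl, sym_x_mul,
      sym_ofSym]
    simp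

/-- A row whose product with a homogeneous element lies in the image has entries in the image. -/
theorem acy_off_row {v p : W} {g : Weyl k} (hg : g ∈ Piece k (pos p + (1, 0) - pos v))
    (M : EZ k) (x : Zc k)
    (H : ∀ n : Alg k, blk n = 0 → rhoZ k n x = 0 ∧ ∃ f : Alg k, rhoZ k f = rhoZ k n * M) :
    vRep k g (x (0, v)) = 0 ∧ ∃ f : W → Weyl k, (∀ q, f q ∈ Piece k (pos p + (1, 0) - pos q)) ∧
      ∀ z, vRep k g (M z (0, v)) = ∑ q, vRep k (f q) (z (0, q)) := by
  let n : W → W → Weyl k := fun a b => if a = p ∧ b = v then g else 0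
  have hn : ∀ a b, n a b ∈ Piece k (pos a + (1, 0) - pos b) := fun a b => by
    simp only [n]; split_ifs with h
    · rw [h.1, h.2]; exact hg
    · exact zero_mem _
  obtain ⟨h1, f, hf⟩ := H (offA n hn) (offA_blk n hn)
  have hrow : ∀ z, rhoZ k (offA n hn) z (1, p) = vRep k g (z (0, v)) := fun z => by
    rw [offA_rho_one, Finset.sum_eq_single v (fun b _ hb => by simp [n, hb]) (by simp)]
    simp [n]
  refine ⟨by rw [← hrow, h1]; rfl, fun q => f.1 (1, p) (0, q), fun q => ?_, fun z => ?_⟩
  · have := f.2.1 (1, p) (0, q); rwa [tgt_one, tgt_zero] at this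
  · have h0 : ∀ a j, f.1 (0, a) j = 0 := fun a j =>
      acy_row_zero f (0, a) (fun w => by rw [hf]; exact offA_rho_zero n hn _ a) j
    rw [← hrow]
    show (rhoZ k (offA n hn) * M) z (1, p) = _
    rw [← hf, rhoZ_apply, sum_ix]
    simp [alg_diag, blk, h0]

theorem acy_cdelta_smul (v : W) (c : Col k (pos v)) :
    ∃ r : Rt k, r • cdelta (k := k) v = c := by
  obtain ⟨c', rfl⟩ := Aproj_surjective v c
  refine ⟨hat (ofCol v c'), Subtype.ext (funext fun q => ?_)⟩
  rw [rt_smul_C, Col_smul, hat_a]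
  simp [cdelta, blk, ofCol, colMat, Aproj]

theorem homCol_cdelta (v : W) (μ : Par k) : homCol v μ (cdelta v) = tW 1 v μ := by
  rw [homCol_apply, Finset.sum_eq_single v]
  · simp [cdelta, Module.End.one_eq_id]
  · intro q _ hq; simp [cdelta, hq]
  · simp

theorem acy_hom_ext {v : W} {f g : Col k (pos v) →ₗ[Rt k] Rt k}
    (h : f (cdelta v) = g (cdelta v)) : f = g := by
  refine LinearMap.ext fun c => ?_
  obtain ⟨r, rfl⟩ := acy_cdelta_smul v c
  rw [map_smul, map_smul, h]

theorem exists_homCol (v : W) (ψ : Col k (pos v) →ₗ[Rt k] Rt k) : ∃ μ, ψ = homCol v μ := by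
  set t := ψ (cdelta v) with ht
  have hsm : ∀ r : Rt k, r * t = ψ (r • cdelta v) := fun r => (map_smul ψ r _).symm
  have hblk : ∀ r : Rt k, blk r.a = 0 → r * t = 0 := fun r hr => by
    rw [hsm]
    have : r • cdelta (k := k) v = 0 := Subtype.ext (by
      rw [rt_smul_C, Col_smul, hr, Matrix.zero_mulVec]; rfl)
    rw [this, map_zero]
  obtain ⟨ha, hy, hc⟩ := acy_pure fun r hr => hblk r (by rw [hr, blk_zero])
  have he : hat (eV k v) * t = t := by
    rw [hsm]
    have : hat (eV k v) • cdelta (k := k) v = cdelta v := Subtype.ext (funext fun q => by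
      rw [rt_smul_C, Col_smul, hat_a]
      by_cases hq : q = v <;> simp [cdelta, blk, eV, slot_apply, hq])
    rw [this]
  rw [acy_mul_pure _ ha hy hc, hat_a] at he
  obtain ⟨M', hM'⟩ := mkJ_surjective t.j
  set M := rhoZ k (eV k v) * M' with hMdef
  have hM : mkJ M = t.j := by rw [hMdef, ← lJ_mk, hM']; exact congrArg Rt.j he
  have hx : rhoZ k (eV k v) t.x = t.x := congrArg Rt.x he
  have H : ∀ n : Alg k, blk n = 0 → rhoZ k n t.x = 0 ∧ ∃ f : Alg k, rhoZ k f = rhoZ k n * M := by
    intro n hn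
    have := hblk (hat n) hn
    rw [acy_mul_pure _ ha hy hc, hat_a] at this
    refine ⟨congrArg Rt.x this, mkJ_eq_zero.1 ?_⟩
    rw [← lJ_mk, hM]; exact congrArg Rt.j this
  -- the row of weight zero
  have main : t.x (0, v) = 0 ∧ ∃ b : W → Weyl k, (∀ q, b q ∈ Piece k (pos v - pos q)) ∧
      ∀ z, M z (0, v) = ∑ q, vRep k (b q) (z (0, q)) := by
    obtain ⟨a, i⟩ := v
    fin_cases a
    · have hpos : ∀ e : Fin 5, e = 0 ∨ e = 1 → (gen e : Weyl k) ∈
          Piece k (pos ((0 : Fin 2), i) + (1, 0) - pos ((0 : Fin 2), i)) := fun e he => by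
        rw [add_sub_cancel_left]
        rcases he with rfl | rfl
        · exact gen_mem_piece 0
        · exact gen_mem_piece 1
      obtain ⟨x0, f1, hf1, hM1⟩ := acy_off_row (hpos 0 (Or.inl rfl)) M t.x H
      obtain ⟨-, f2, hf2, hM2⟩ := acy_off_row (hpos 1 (Or.inr rfl)) M t.x H
      have hcomm : ∀ q, gen 1 * f1 q = gen 0 * f2 q := by
        intro q
        have hmem : ∀ e : Fin 5, e = 0 ∨ e = 1 → ∀ φ ∈ Piece k (pos ((0 : Fin 2), i) + (1, 0) - pos q),
            gen e * φ ∈ Piece k ((1, 0) + (pos ((0 : Fin 2), i) + (1, 0) - pos q)) := by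
          rintro e (rfl | rfl) φ hφ
          · exact gen_mul_mem_piece hφ 0
          · exact gen_mul_mem_piece hφ 1
        refine sub_eq_zero.1 (vRep_injOn ?_ ?_
          (piece_sub_mem' (hmem 1 (Or.inr rfl) _ (hf1 q)) (hmem 0 (Or.inl rfl) _ (hf2 q))) ?_)
        · have := pos_bounds q; simp [pos] at this ⊢; omega
        · have := pos_bounds q; have := pos_bounds ((0 : Fin 2), i); simp at this ⊢; omega
        rw [map_sub, sub_eq_zero]
        refine LinearMap.ext fun u => ?_
        have e1 := hM1 (Pi.single (0, q) u)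
        have e2 := hM2 (Pi.single (0, q) u)
        rw [Finset.sum_eq_single q (fun r _ hr => by simp [hr]) (by simp), Pi.single_eq_same]
          at e1 e2
        simp only [map_mul, Module.End.mul_apply]
        rw [← e1, ← e2, ← Module.End.mul_apply, ← Module.End.mul_apply (vRep k (gen 0)),
          ← map_mul, ← map_mul, gen_x_comm]
      choose b hb hfb using fun q => acy_left_common (hf1 q) (hcomm q)
      have cancel : ∀ u w : V k, vRep k (gen 0) u = vRep k (gen 0) w → u = w := fun u w h => by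
        have := congrArg (xInv k) h
        rwa [← Module.End.mul_apply, ← Module.End.mul_apply, xInv_mul] at this
      refine ⟨cancel _ _ (by rw [map_zero]; exact x0), b, fun q => ?_, fun z => cancel _ _ ?_⟩
      · have := hb q
        rwa [sub_right_comm, add_sub_cancel_right] at this
      · rw [map_sum]
        refine (hM1 z).trans (Finset.sum_congr rfl fun q _ => ?_)
        rw [hfb q, map_mul, Module.End.mul_apply]
    · have hd : pos ((0 : Fin 2), i) + (1, 0) = pos ((1 : Fin 2), i) := by simp [pos]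
      obtain ⟨x0, f, hf, hMf⟩ := acy_off_row (v := (1, i)) (p := (0, i)) (g := 1)
        (by rw [hd, sub_self]; exact one_mem_piece) M t.x H
      rw [hd] at hf
      exact ⟨by simpa using x0, f, hf, fun z => by simpa using hMf z⟩
  obtain ⟨hx0, b, hb, hMb⟩ := main
  let a0 : Alg k := ∑ q, Eelt v q ⟨b q, hb q⟩
  have ha0 : ∀ z i, rhoZ k a0 z i = if i.2 = v then ∑ q, vRep k (b q) (z (i.1, q)) else 0 := by
    rintro z ⟨w, p⟩
    simp only [a0, map_sum, LinearMap.sum_apply, Finset.sum_apply]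
    by_cases hp : p = v
    · subst hp
      rw [if_pos rfl]
      refine Finset.sum_congr rfl fun q _ => ?_
      rw [rhoZ_apply, Finset.sum_eq_single (w, q)]
      · simp [Eelt, slot_apply]
      · rintro ⟨u, r⟩ _ hne
        simp only [Eelt, slot_apply]
        rw [if_neg]
        · simp
        · rintro ⟨rfl, -, rfl⟩; exact hne rfl
      · simp
    · rw [if_neg hp]
      refine Finset.sum_eq_zero fun q _ => ?_
      rw [rhoZ_apply]
      simp [Eelt, slot_apply, hp]
  refine ⟨(((LinearMap.proj (1, v)).comp (M - rhoZ k a0)).comp (LinearMap.fst k (Zc k) k)) +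
    (LinearMap.snd k (Zc k) k).smulRight (t.x (1, v)), acy_hom_ext ?_⟩
  rw [homCol_cdelta, ← ht]
  ext1
  · rw [ha, tW_a]
  · rw [tW_j, ← hM]
    conv_lhs => rw [show mkJ M = mkJ (M - rhoZ k a0) by rw [map_sub, mkJ_rho, sub_zero]]
    congr 1
    refine LinearMap.ext fun z => funext ?_
    rintro ⟨w, p⟩
    have hMp : p ≠ v → M z (w, p) = 0 := fun hp => by
      rw [hMdef, Module.End.mul_apply, acy_eV_rho, if_neg hp]
    by_cases hp : p = v
    · subst hp
      fin_cases w
      · simp [ha0, hMb]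
      · simp
    · simp [ha0, hp, hMp hp]
  · rw [tW_x]
    refine funext ?_
    rintro ⟨w, p⟩
    by_cases hp : p = v
    · subst hp
      fin_cases w
      · simpa using hx0
      · simp
    · rw [← hx, acy_eV_rho, if_neg hp]; simp [hp]
  · rw [hy, tW_y]
  · rw [hc, tW_c]

end Vale.Agent.P195.CE
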