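import Mathlib.RingTheory.Noetherian.Basic
import Mathlib.RingTheory.Finiteness.Basic
import Mathlib.RingTheory.FiniteType
import Vale.Agent.P176.Homological

/-!
# P195: homological tools for the counterexample

`ext_zero_of_complex`: `Ext` vanishing along an exact complex of acyclic modules.
`counterexample_of_data`: the second syzygy of `L 0` is self-orthogonal, orthogonal to the ring and
not projective.
-/

namespace Vale.Agent.P195.CE

open CategoryTheory CategoryTheory.Abelian Limits Vale.Agent.P176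

section Abstract

universe w v u

variable {C : Type u} [Category.{v} C] [Abelian C] [HasExt.{w} C]

/-- `Ext` vanishing transported along an isomorphism of the second argument. -/
theorem extZero_iso_snd {X Y Z : C} (e : Y ≅ Z) {n : ℕ} (h : ∀ x : Ext X Y n, x = 0)
    (x : Ext X Z n) : x = 0 := by
  calc x = (x.comp (Ext.mk₀ e.inv) (add_zero n)).comp (Ext.mk₀ e.hom) (add_zero n) := by
        rw [Ext.comp_assoc_of_third_deg_zero, Ext.mk₀_comp_mk₀, e.inv_hom_id, Ext.comp_mk₀_id]
    _ = 0 := by rw [h (x.comp (Ext.mk₀ e.inv) (add_zero n)), Ext.zero_comp]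

/-- `Ext` vanishing of the subobject, contravariant variable. -/
theorem isSES_ext_zero₁ {X1 X2 X3 N : C} (h : IsSES X1 X2 X3) {n : ℕ}
    (h2 : ∀ e : Ext X2 N n, e = 0) (h3 : ∀ e : Ext X3 N (n + 1), e = 0) (x : Ext X1 N n) :
    x = 0 := by
  obtain ⟨S, hS, ⟨e1⟩, ⟨e2⟩, ⟨e3⟩⟩ := h
  refine extZero_iso e1 (fun y => ?_) x
  obtain ⟨z, rfl⟩ := Ext.contravariant_sequence_exact₁ hS N y (Nat.add_comm 1 n)
    (extZero_iso e3.symm h3 _)
  rw [extZero_iso e2.symm h2 z, Ext.comp_zero]

/-- `Ext` vanishing of the subobject, covariant variable. -/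
theorem isSES_ext_zero_co₁ {X1 X2 X3 X : C} (h : IsSES X1 X2 X3) {n : ℕ}
    (h3 : ∀ e : Ext X X3 n, e = 0) (h2 : ∀ e : Ext X X2 (n + 1), e = 0) (x : Ext X X1 (n + 1)) :
    x = 0 := by
  obtain ⟨S, hS, ⟨e1⟩, ⟨e2⟩, ⟨e3⟩⟩ := h
  refine extZero_iso_snd e1 (fun y => ?_) x
  obtain ⟨z, rfl⟩ := Ext.covariant_sequence_exact₁ X hS y (extZero_iso_snd e2.symm h2 _) rfl
  rw [extZero_iso_snd e3.symm h3 z, Ext.zero_comp]

/-- `Ext` into a finite retract of sums of `R`. -/
theorem ext_zero_of_retract {X Y P : C} {n : ℕ} {ι : Type*} [Fintype ι] (a : ι → (P ⟶ Y))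
    (b : ι → (Y ⟶ P)) (hid : ∑ i, a i ≫ b i = 𝟙 P) (h : ∀ e : Ext X Y n, e = 0)
    (x : Ext X P n) : x = 0 := by
  calc x = x.comp (Ext.mk₀ (∑ i, a i ≫ b i)) (add_zero n) := by rw [hid, Ext.comp_mk₀_id]
    _ = 0 := by
      rw [Ext.mk₀_sum, Ext.comp_sum]
      refine Finset.sum_eq_zero fun i _ => ?_
      rw [← Ext.mk₀_comp_mk₀, ← Ext.comp_assoc_of_third_deg_zero, h (x.comp _ (add_zero n)),
        Ext.zero_comp]

end Abstract

section Modules

variable {R : Type} [Ring R]

/-- `Ext¹` of a quotient vanishes when all maps of the kernel extend. -/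
theorem ext_one_zero_of_surjective {Y Z : Type} [AddCommGroup Y] [Module R Y] [AddCommGroup Z]
    [Module R Z] (N : ModuleCat.{0} R) (g : Y →ₗ[R] Z) (hg : Function.Surjective g)
    (hY : ∀ e : Ext.{0} (ModuleCat.of R Y) N 1, e = 0)
    (hom : ∀ z : LinearMap.ker g →ₗ[R] N, ∃ h : Y →ₗ[R] N, h.comp (LinearMap.ker g).subtype = z)
    (x : Ext.{0} (ModuleCat.of R Z) N 1) : x = 0 := by
  have hS := LinearMap.shortExact_shortComplexKer hg
  obtain ⟨z, rfl⟩ := Ext.contravariant_sequence_exact₃ hS N x (hY _) (n₀ := 0) rfl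
  obtain ⟨z, rfl⟩ := (Ext.mk₀_bijective _ _).2 z
  obtain ⟨h, hh⟩ := hom z.hom
  have hz : z = g.shortComplexKer.f ≫ ModuleCat.ofHom h := ModuleCat.hom_ext hh.symm
  rw [hz, ← Ext.mk₀_comp_mk₀]
  exact hS.extClass_comp_assoc (Ext.mk₀ (ModuleCat.ofHom h)) (h := rfl)

theorem ext_zero_of_complex (N : ModuleCat.{0} R) (M : Type) [AddCommGroup M]
    [Module R M] (P : ℕ → Type) [∀ i, AddCommGroup (P i)] [∀ i, Module R (P i)]
    (d : ∀ i, P (i + 1) →ₗ[R] P i) (ε : P 0 →ₗ[R] M) (hε : Function.Surjective ε)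
    (h0 : Function.Exact (d 0) ε) (hd : ∀ i, Function.Exact (d (i + 1)) (d i))
    (hac : ∀ i j, 1 ≤ j → ∀ e : Ext.{0} (ModuleCat.of R (P i)) N j, e = 0) (i : ℕ)
    (hom : ∀ f : P (i + 1) →ₗ[R] N, f.comp (d (i + 1)) = 0 → ∃ g : P i →ₗ[R] N, g.comp (d i) = f) :
    ∀ e : Ext.{0} (ModuleCat.of R M) N (i + 1), e = 0 := by
  have hses : ∀ j, IsSES (syzygyObj M P d (j + 1)) (ModuleCat.of R (P j)) (syzygyObj M P d j) := by
    intro j
    rcases j with _ | j
    · exact isSES_of_linearMap (LinearMap.range (d 0)).subtype ε (Submodule.injective_subtype _)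
        hε (LinearMap.exact_iff.2 (by rw [LinearMap.exact_iff.1 h0, Submodule.range_subtype]))
    · exact isSES_of_linearMap (LinearMap.range (d (j + 1))).subtype (d j).rangeRestrict
        (Submodule.injective_subtype _) (LinearMap.surjective_rangeRestrict _)
        (LinearMap.exact_iff.2 (by
          rw [LinearMap.ker_rangeRestrict, LinearMap.exact_iff.1 (hd j),
            Submodule.range_subtype]))
  -- maps of the kernel of the surjection onto the `i`-th syzygy extend
  have base : ∀ e : Ext.{0} (syzygyObj M P d i) N 1, e = 0 := by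
    have key : ∀ {Z : Type} [AddCommGroup Z] [Module R Z] (g : P i →ₗ[R] Z),
        Function.Exact (d i) g → ∀ z : LinearMap.ker g →ₗ[R] N,
          ∃ h : P i →ₗ[R] N, h.comp (LinearMap.ker g).subtype = z := by
      intro Z _ _ g hex z
      have hmem : ∀ w, d i w ∈ LinearMap.ker g := fun w => hex.apply_apply_eq_zero w
      obtain ⟨h, hh⟩ := hom (z.comp ((d i).codRestrict _ hmem)) (LinearMap.ext fun w => by
        have : (d i).codRestrict _ hmem (d (i + 1) w) = 0 :=
          Subtype.ext ((hd i).apply_apply_eq_zero w)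
        simp [this])
      refine ⟨h, LinearMap.ext fun y => ?_⟩
      obtain ⟨w, hw⟩ := (hex y).1 y.2
      have hy : y = (d i).codRestrict _ hmem w := Subtype.ext hw.symm
      have := LinearMap.congr_fun hh w
      simp only [LinearMap.comp_apply, Submodule.subtype_apply] at this ⊢
      rw [← hw, this, ← hy]
    rcases i with _ | j
    · exact ext_one_zero_of_surjective N ε hε (hac 0 1 le_rfl) (key ε h0)
    · exact ext_one_zero_of_surjective N (d j).rangeRestrict
        (LinearMap.surjective_rangeRestrict _) (hac (j + 1) 1 le_rfl)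
        (key _ (LinearMap.exact_iff.2 (by rw [LinearMap.ker_rangeRestrict,
          LinearMap.exact_iff.1 (hd j)])))
  have step : ∀ t j, j + t = i → ∀ e : Ext.{0} (syzygyObj M P d j) N (t + 1), e = 0 := by
    intro t
    induction t with
    | zero => intro j hj; obtain rfl : j = i := hj; exact base
    | succ t ih =>
      intro j hj
      exact (hses j).ext_zero₃ (ih (j + 1) (by omega)) (hac j (t + 1 + 1) (by omega))
  exact step i 0 (Nat.zero_add i)

theorem counterexample_of_data {k : Type} [Field k] {R : Type} [Ring R] [Algebra k R]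
    [Module.Finite k R] (L : ℕ → Type) [∀ m, AddCommGroup (L m)] [∀ m, Module R (L m)]
    (T : ℕ → Type) [∀ m, AddCommGroup (T m)] [∀ m, Module R (T m)]
    (f : ∀ m, L (m + 1) →ₗ[R] T m) (g : ∀ m, T m →ₗ[R] L m)
    (hf : ∀ m, Function.Injective (f m)) (hg : ∀ m, Function.Surjective (g m))
    (hex : ∀ m, Function.Exact (f m) (g m))
    (hT0 : ∀ m j, 1 ≤ j → ∀ e : Ext.{0} (ModuleCat.of R (T m)) (ModuleCat.of R (L 0)) j, e = 0)
    (hT0' : ∀ m, 1 ≤ m → ∀ φ : T m →ₗ[R] L 0, φ = 0)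
    (hT3 : ∀ m, m < 3 → ∀ j, ∀ e : Ext.{0} (ModuleCat.of R (T m)) (ModuleCat.of R (L 3)) j, e = 0)
    (hL3 : ∃ x : L 3, x ≠ 0)
    (e0 : R) (he0 : e0 * e0 = e0) (x0 : L 0) (hx0 : e0 • x0 = x0)
    (hgen : ∀ l : L 0, ∃ r : R, r • x0 = l)
    (hR : ∀ j, 3 ≤ j → ∀ e : Ext.{0} (ModuleCat.of R (L 0)) (ModuleCat.of R R) j, e = 0)
    (h2 : ∀ e : Ext.{0} (ModuleCat.of R (L 0))
      (ModuleCat.of R (Submodule.span R ({e0} : Set R))) 2, e = 0) :
    ∃ (M : Type) (_ : AddCommGroup M) (_ : Module R M), Module.Finite R M ∧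
      (∀ i, 1 ≤ i → Subsingleton (Ext.{0} (ModuleCat.of R M) (ModuleCat.of R M) i) ∧
        Subsingleton (Ext.{0} (ModuleCat.of R M) (ModuleCat.of R R) i)) ∧
      ¬ Module.Projective R M := by
  have sesT : ∀ m, IsSES (ModuleCat.of R (L (m + 1))) (ModuleCat.of R (T m))
      (ModuleCat.of R (L m)) := fun m => isSES_of_linearMap (f m) (g m) (hf m) (hg m) (hex m)
  -- `L 0` has no higher self extensions
  have hLL : ∀ n m, ∀ e : Ext.{0} (ModuleCat.of R (L m)) (ModuleCat.of R (L 0)) (n + 1),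
      e = 0 := by
    intro n
    induction n with
    | zero =>
      intro m
      refine (sesT m).ext_zero₃ (fun e => ext_zero_of_hom (fun φ => ?_) e) (hT0 m 1 le_rfl)
      exact hom_zero_of_ses (sesT (m + 1))
        (fun ψ => ModuleCat.hom_ext (hT0' (m + 1) (by omega) ψ.hom)) φ
    | succ n ih =>
      exact fun m => (sesT m).ext_zero₃ (ih (m + 1)) (hT0 m (n + 1 + 1) (by omega))
  -- the two syzygies
  have hNoeth : IsNoetherianRing R := IsNoetherianRing.of_finite k R
  let P0 : Submodule R R := Submodule.span R {e0}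
  have he0mem : e0 ∈ P0 := Submodule.mem_span_singleton_self e0
  let q : R →ₗ[R] P0 := (LinearMap.toSpanSingleton R R e0).codRestrict P0
    fun r => Submodule.smul_mem _ r he0mem
  have hq : q.comp P0.subtype = LinearMap.id := by
    refine LinearMap.ext fun p => Subtype.ext ?_
    obtain ⟨r, hr⟩ := Submodule.mem_span_singleton.1 p.2
    show (p : R) • e0 = (p : R)
    rw [← hr, smul_eq_mul, smul_eq_mul, mul_assoc, he0]
  have hP0 : Module.Projective R P0 := Module.Projective.of_split P0.subtype q hq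
  let π0 : P0 →ₗ[R] L 0 := (LinearMap.toSpanSingleton R (L 0) x0).comp P0.subtype
  have hπ0 : Function.Surjective π0 := fun l => by
    obtain ⟨r, rfl⟩ := hgen l
    refine ⟨⟨r * e0, Submodule.mem_span_singleton.2 ⟨r, rfl⟩⟩, ?_⟩
    show (r * e0) • x0 = r • x0
    rw [mul_smul, hx0]
  let O1 : Submodule R P0 := LinearMap.ker π0
  obtain ⟨n, π1, hπ1⟩ := Module.Finite.exists_fin' R O1
  let M : Submodule R (Fin n → R) := LinearMap.ker π1
  have s0 : IsSES (ModuleCat.of R O1) (ModuleCat.of R P0) (ModuleCat.of R (L 0)) :=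
    isSES_of_linearMap O1.subtype π0 (Submodule.injective_subtype _) hπ0
      (LinearMap.exact_iff.2 (Submodule.range_subtype _).symm)
  have s1 : IsSES (ModuleCat.of R M) (ModuleCat.of R (Fin n → R)) (ModuleCat.of R O1) :=
    isSES_of_linearMap M.subtype π1 (Submodule.injective_subtype _) hπ1
      (LinearMap.exact_iff.2 (Submodule.range_subtype _).symm)
  have pP0 : Projective (ModuleCat.of R P0) := (IsProjective.iff_projective P0).1 hP0
  have pP1 : Projective (ModuleCat.of R (Fin n → R)) :=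
    (IsProjective.iff_projective (Fin n → R)).1 inferInstance
  -- the two retracts of free modules
  have retract0 : ∀ j, (∀ e : Ext.{0} (ModuleCat.of R (L 0)) (ModuleCat.of R R) j, e = 0) →
      ∀ e : Ext.{0} (ModuleCat.of R (L 0)) (ModuleCat.of R P0) j, e = 0 := fun j hj =>
    ext_zero_of_retract (ι := Fin 1) (fun _ => ModuleCat.ofHom P0.subtype)
      (fun _ => ModuleCat.ofHom q) (by
        rw [Fin.sum_univ_one]; exact ModuleCat.hom_ext hq) hj
  have retract1 : ∀ j, (∀ e : Ext.{0} (ModuleCat.of R (L 0)) (ModuleCat.of R R) j, e = 0) →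
      ∀ e : Ext.{0} (ModuleCat.of R (L 0)) (ModuleCat.of R (Fin n → R)) j, e = 0 := fun j hj =>
    ext_zero_of_retract (ι := Fin n)
      (fun i => ModuleCat.ofHom (LinearMap.proj i : (Fin n → R) →ₗ[R] R))
      (fun i => ModuleCat.ofHom (LinearMap.single R (fun _ : Fin n => R) i)) (by
        refine ModuleCat.hom_ext (LinearMap.ext fun x => ?_)
        simp [ModuleCat.hom_sum, LinearMap.sum_apply, Finset.univ_sum_single]) hj
  -- `Ext` out of `M` is a shift of `Ext` out of `L 0`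
  have shift : ∀ (N : ModuleCat.{0} R) (j : ℕ), 1 ≤ j →
      (∀ e : Ext.{0} (ModuleCat.of R (L 0)) N (j + 2), e = 0) →
      ∀ e : Ext.{0} (ModuleCat.of R M) N j, e = 0 := by
    intro N j hj h
    obtain ⟨j, rfl⟩ := Nat.exists_eq_add_of_le' hj
    exact isSES_ext_zero₁ s1 (fun e => Ext.eq_zero_of_projective e)
      (isSES_ext_zero₁ s0 (fun e => Ext.eq_zero_of_projective e) h)
  refine ⟨M, inferInstance, inferInstance, inferInstance, fun i hi => ?_, fun hM => ?_⟩
  · obtain ⟨i, rfl⟩ := Nat.exists_eq_add_of_le' hi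
    have hO1 : ∀ e : Ext.{0} (ModuleCat.of R (L 0)) (ModuleCat.of R O1) (i + 1 + 1), e = 0 := by
      refine isSES_ext_zero_co₁ s0 (hLL i 0) ?_
      rcases i with _ | i
      · exact h2
      · exact retract0 _ (hR _ (by omega))
    have hLM : ∀ e : Ext.{0} (ModuleCat.of R (L 0)) (ModuleCat.of R M) (i + 1 + 2), e = 0 :=
      isSES_ext_zero_co₁ s1 hO1 (retract1 _ (hR _ (by omega)))
    exact ⟨⟨fun a b => (shift _ _ hi hLM a).trans (shift _ _ hi hLM b).symm⟩,
      ⟨fun a b => (shift _ _ hi (hR _ (by omega)) a).trans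
        (shift _ _ hi (hR _ (by omega)) b).symm⟩⟩
  · -- a projective `M` would force `Ext³(L 0, L 3) = 0`
    have pM : Projective (ModuleCat.of R M) := (IsProjective.iff_projective M).1 hM
    have z2 : ∀ e : Ext.{0} (ModuleCat.of R O1) (ModuleCat.of R (L 3)) (1 + 1), e = 0 :=
      s1.ext_zero₃ (fun e => Ext.eq_zero_of_projective e)
        (fun e => Ext.eq_zero_of_projective e)
    have z3 : ∀ e : Ext.{0} (ModuleCat.of R (L 0)) (ModuleCat.of R (L 3)) (1 + 1 + 1), e = 0 :=
      s0.ext_zero₃ z2 (fun e => Ext.eq_zero_of_projective e)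
    obtain ⟨x, hx⟩ := hL3
    have n0 : ∃ e : Ext.{0} (ModuleCat.of R (L 3)) (ModuleCat.of R (L 3)) 0, e ≠ 0 :=
      ⟨Ext.mk₀ (𝟙 _), fun h => hx (LinearMap.congr_fun
        (congrArg ModuleCat.Hom.hom ((Ext.mk₀_eq_zero_iff _).1 h)) x)⟩
    obtain ⟨e, he⟩ := (sesT 0).ext_ne_zero₃ (hT3 0 (by omega) 2)
      ((sesT 1).ext_ne_zero₃ (hT3 1 (by omega) 1) ((sesT 2).ext_ne_zero₃ (hT3 2 (by omega) 0) n0))
    exact he (z3 e)

end Modules

end Vale.Agent.P195.CE
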