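import Mathlib.Algebra.Module.Projective
import Vale.Agent.P195.CE.AcyclicHom
import Vale.Agent.P195.CE.HomTools

/-!
# The columns of `A` and the column modules have no higher extensions into `R`
-/

namespace Vale.Agent.P195.CE

open CategoryTheory CategoryTheory.Abelian Vale.Agent.P176

variable {k : Type} [Field k]

section General

variable {R : Type} [Ring R]

/-- `Ext¹` of a cokernel vanishes when all maps of the submodule extend. -/
theorem ext_one_zero_of_exact {X Y Z : Type} [AddCommGroup X] [Module R X] [AddCommGroup Y]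
    [Module R Y] [AddCommGroup Z] [Module R Z] (N : ModuleCat.{0} R) (f : X →ₗ[R] Y)
    (g : Y →ₗ[R] Z) (hg : Function.Surjective g) (hex : Function.Exact f g)
    (hY : ∀ e : Ext.{0} (ModuleCat.of R Y) N 1, e = 0)
    (hom : ∀ z : X →ₗ[R] N, ∃ h : Y →ₗ[R] N, h.comp f = z) :
    ∀ e : Ext.{0} (ModuleCat.of R Z) N 1, e = 0 := by
  refine ext_one_zero_of_surjective N g hg hY fun z => ?_
  let f' : X →ₗ[R] LinearMap.ker g := f.codRestrict _ fun x => hex.apply_apply_eq_zero x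
  obtain ⟨h, hh⟩ := hom (z.comp f')
  refine ⟨h, LinearMap.ext fun y => ?_⟩
  obtain ⟨x, hx⟩ := (hex y.1).1 y.2
  have hy : y = f' x := Subtype.ext hx.symm
  subst hy
  exact LinearMap.congr_fun hh x

/-- `Ext` of a product. -/
theorem ext_zero_prod {X Y : Type} [AddCommGroup X] [Module R X] [AddCommGroup Y] [Module R Y]
    {N : ModuleCat.{0} R} {n : ℕ} (hX : ∀ e : Ext.{0} (ModuleCat.of R X) N n, e = 0)
    (hY : ∀ e : Ext.{0} (ModuleCat.of R Y) N n, e = 0)
    (x : Ext.{0} (ModuleCat.of R (X × Y)) N n) : x = 0 := by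
  obtain ⟨S, hS, ⟨e1⟩, ⟨e2⟩, ⟨e3⟩⟩ := isSES_of_linearMap (LinearMap.inl R X Y)
    (LinearMap.snd R X Y) LinearMap.inl_injective Prod.snd_surjective
    (LinearMap.exact_iff.2 (LinearMap.range_inl R X Y).symm)
  refine extZero_iso e2 (fun y => ?_) x
  obtain ⟨z, rfl⟩ := Ext.contravariant_sequence_exact₂ hS N y (extZero_iso e1.symm hX _)
  rw [extZero_iso e3.symm hY z, Ext.comp_zero]

end General

/-! ### The cocycle against scalar idempotents -/

theorem xiZ_eV_right (a : Alg k) (v : W) : xiZ k a (eV k v) = 0 := by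
  have : tauM 0 ((eV k v : Alg k) : Matrix Ix Ix (Weyl k)) = 0 := by
    ext1 i j
    simp only [eV, tauM, Matrix.map_apply, slot_apply]
    split_ifs <;> simp [slope]
  show toEnd k (xiT _ _) = 0
  rw [show xiT (a : Matrix Ix Ix (Weyl k)) ((eV k v : Alg k) : Matrix Ix Ix (Weyl k)) = 0 by
    ext1 i j; simp [xiT, Xi, this], map_zero]

theorem hat_eV_sq (v : W) : (hat (eV k v) : Rt k) * hat (eV k v) = hat (eV k v) := by
  ext1 <;> simp [eV_mul_self, xiZ_eV_right]

theorem mul_hat_eV (r : Rt k) (v : W) : r * hat (eV k v) =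
    ⟨r.a * eV k v, rJ (eV k v) r.j, 0, r.y ∘ₗ rhoZ k (eV k v), 0⟩ := by
  ext1 <;> simp [xiZ_eV_right]

/-! ### The projective modules -/

variable (k) in
/-- The module `R e_v`. -/
noncomputable def ReS (v : W) : Submodule (Rt k) (Rt k) where
  carrier := {r | r * hat (eV k v) = r}
  zero_mem' := zero_mul _
  add_mem' := fun {a b} ha hb => by
    show (a + b) * _ = _; rw [add_mul, ha, hb]
  smul_mem' := fun c r hr => by
    show (c * r) * _ = c * r; rw [mul_assoc, hr]

instance (v : W) : Module.Projective (Rt k) (ReS k v) := by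
  refine Module.Projective.of_split (ReS k v).subtype
    ((LinearMap.toSpanSingleton (Rt k) (Rt k) (hat (eV k v))).codRestrict (ReS k v) fun r => ?_)
    (LinearMap.ext fun r => Subtype.ext r.2)
  show (r * hat (eV k v)) * _ = r * hat (eV k v)
  rw [mul_assoc, hat_eV_sq]

variable (k) in
/-- The projection `R e_v → A e_v`. -/
noncomputable def piA (v : W) : ReS k v →ₗ[Rt k] Acol k v where
  toFun r := toCol k v r.1.a
  map_add' _ _ := map_add _ _ _
  map_smul' _ _ := toCol_mul v _ _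

theorem piA_surjective (v : W) : Function.Surjective (piA k v) := fun c => by
  refine ⟨⟨hat (ofCol v c), ?_⟩, toCol_ofCol v c⟩
  show _ * _ = _
  rw [mul_hat_eV]
  ext1 <;> simp [ofCol_mul_eV]

variable (k) in
/-- The module `P e_v`. -/
noncomputable def PeS (v : W) : Submodule (Rt k) (Pc k) where
  carrier := {p | p.1 * rhoZ k (eV k v) = p.1 ∧ p.2 ∘ₗ rhoZ k (eV k v) = p.2}
  zero_mem' := ⟨zero_mul _, LinearMap.zero_comp _⟩
  add_mem' := fun {a b} ha hb => ⟨by rw [Prod.fst_add, add_mul, ha.1, hb.1],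
    by rw [Prod.snd_add, LinearMap.add_comp, ha.2, hb.2]⟩
  smul_mem' := fun r p hp => ⟨by
      rw [Pc.smul_fst, add_mul, mul_assoc, hp.1, outer_mul, hp.2],
    by rw [Pc.smul_snd, LinearMap.smul_comp, hp.2]⟩

theorem rho_eV_sq (v : W) : rhoZ k (eV k v) * rhoZ k (eV k v) = rhoZ k (eV k v) := by
  rw [← map_mul, eV_mul_self]

theorem comp_eV_sq (v : W) (η : DZ k) :
    (η ∘ₗ rhoZ k (eV k v)) ∘ₗ rhoZ k (eV k v) = η ∘ₗ rhoZ k (eV k v) := by
  rw [LinearMap.comp_assoc, ← Module.End.mul_eq_comp, rho_eV_sq]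

variable (k) in
/-- The projection `P → P e_v`. -/
noncomputable def piPe (v : W) : Pc k →ₗ[Rt k] PeS k v where
  toFun p := ⟨(p.1 * rhoZ k (eV k v), p.2 ∘ₗ rhoZ k (eV k v)),
    ⟨by rw [mul_assoc, rho_eV_sq], comp_eV_sq v p.2⟩⟩
  map_add' _ _ := Subtype.ext (Prod.ext (add_mul _ _ _) (LinearMap.add_comp _ _ _))
  map_smul' r p := Subtype.ext (Prod.ext
    (by simp [add_mul, mul_assoc, outer_mul]) (by simp [LinearMap.smul_comp]))

instance (v : W) : Module.Projective (Rt k) (PeS k v) :=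
  Module.Projective.of_split (PeS k v).subtype (piPe k v)
    (LinearMap.ext fun p => Subtype.ext (Prod.ext p.2.1 p.2.2))

theorem ofCol_smul (v : W) (a : Alg k) (c : Acol k v) : ofCol v (a • c) = a * ofCol v c := by
  have h : (a * ofCol v c) * eV k v = a * ofCol v c := by rw [mul_assoc, ofCol_mul_eV]
  rw [← ofCol_toCol v h, toCol_mul, toCol_ofCol]

theorem ofCol_add (v : W) (c d : Acol k v) : ofCol v (c + d) = ofCol v c + ofCol v d := by
  have h : (ofCol v c + ofCol v d) * eV k v = ofCol v c + ofCol v d := by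
    rw [add_mul, ofCol_mul_eV, ofCol_mul_eV]
  rw [← ofCol_toCol v h, map_add, toCol_ofCol, toCol_ofCol]

variable (k) in
/-- The inclusion `A e_v → P e_v`. -/
noncomputable def iotaA (v : W) : Acol k v →ₗ[Rt k] PeS k v where
  toFun c := ⟨(rhoZ k (ofCol v c), 0), ⟨by
    show rhoZ k (ofCol v c) * _ = rhoZ k (ofCol v c)
    rw [← map_mul, ofCol_mul_eV], LinearMap.zero_comp _⟩⟩
  map_add' c d := Subtype.ext (Prod.ext
    (by show rhoZ k (ofCol v (c + d)) = _; rw [ofCol_add, map_add]; rfl) (by simp))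
  map_smul' r c := Subtype.ext (Prod.ext
    (by
      show rhoZ k (ofCol v (r • c)) = rhoZ k r.a * rhoZ k (ofCol v c) + outer r.x 0
      rw [rt_smul_A, ofCol_smul, map_mul, outer_zero_right, add_zero])
    (by simp))

theorem iotaA_injective (v : W) : Function.Injective (iotaA k v) := fun c d h => by
  have h' := rhoZ_injective (congrArg (fun p : PeS k v => p.1.1) h)
  rw [← toCol_ofCol v c, h', toCol_ofCol]

variable (k) in
/-- The map onto the kernel of `piA`. -/
noncomputable def piK (v : W) : PeS k v →ₗ[Rt k] LinearMap.ker (piA k v) :=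
  ((pDel k).comp (PeS k v).subtype |>.codRestrict (ReS k v) (fun p => by
    show _ * _ = _
    rw [mul_hat_eV]
    ext1
    · simp
    · simp [rJ_mk, p.2.1]
    · simp
    · simpa using p.2.2
    · simp)).codRestrict _ fun p => by
    show toCol k v (pDel k p.1).a = 0
    rw [pDel_a, map_zero]

theorem piK_apply (v : W) (p : PeS k v) : ((piK k v p).1 : Rt k) = pDel k p.1 := rfl

theorem piK_surjective (v : W) : Function.Surjective (piK k v) := by
  rintro ⟨⟨r, hr⟩, hk⟩
  have hr' : r * hat (eV k v) = r := hr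
  rw [mul_hat_eV] at hr'
  have hae : r.a * eV k v = r.a := congrArg Rt.a hr'
  have ha : r.a = 0 := by
    have h0 : toCol k v r.a = 0 := hk
    have h1 : ofCol v (toCol k v (0 : Alg k)) = 0 := ofCol_toCol v (zero_mul _)
    rw [map_zero] at h1
    rw [← ofCol_toCol v hae, h0, h1]
  obtain ⟨M', hM'⟩ := mkJ_surjective r.j
  have hj : rJ (eV k v) r.j = r.j := congrArg Rt.j hr'
  refine ⟨⟨(M' * rhoZ k (eV k v), r.y), ⟨by rw [mul_assoc, rho_eV_sq], congrArg Rt.y hr'⟩⟩,
    Subtype.ext (Subtype.ext ?_)⟩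
  rw [piK_apply]
  ext1
  · exact ha.symm
  · rw [pDel_j, ← rJ_mk, hM', hj]
  · show (0 : Zc k) = r.x; exact congrArg Rt.x hr'
  · rfl
  · show (0 : k) = r.c; exact congrArg Rt.c hr'

theorem exact_iotaA_piK (v : W) : Function.Exact (iotaA k v) (piK k v) := by
  intro p
  constructor
  · intro h
    have h' : pDel k p.1 = 0 := congrArg (fun z : LinearMap.ker (piA k v) => (z.1 : Rt k)) h
    have h1 := congrArg Rt.j h'
    rw [pDel_j, Rt.zero_j, mkJ_eq_zero] at h1
    obtain ⟨a, ha⟩ := h1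
    have hae : a * eV k v = a := rhoZ_injective (by rw [map_mul, ha, p.2.1])
    refine ⟨toCol k v a, Subtype.ext (Prod.ext ?_ ?_)⟩
    · show rhoZ k (ofCol v (toCol k v a)) = _
      rw [ofCol_toCol v hae, ha]
    · exact (congrArg Rt.y h').symm
  · rintro ⟨c, rfl⟩
    refine Subtype.ext (Subtype.ext ?_)
    rw [piK_apply]
    ext1 <;> simp [iotaA, mkJ_rho]

/-! ### The two extension properties -/

/-- A map `P → R` given by an operator and a vector. -/
noncomputable def pExt (m : EZ k) (x : Zc k) : Pc k →ₗ[Rt k] Rt k where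
  toFun p := ⟨0, mkJ (p.1 * m), p.1 x, p.2 ∘ₗ m, p.2 x⟩
  map_add' p q := by ext1 <;> simp [add_mul, LinearMap.add_comp]
  map_smul' r p := by
    ext1
    · simp
    · simp [lJ_mk, add_mul, mul_assoc, outer_mul]
    · simp [outer]
    · simp [LinearMap.smul_comp]
    · simp

theorem hom_Acol_extends (v : W) (z : Acol k v →ₗ[Rt k] Rt k) :
    ∃ h : PeS k v →ₗ[Rt k] Rt k, h.comp (iotaA k v) = z := by
  set t := z (toCol k v 1) with ht
  have hsm : ∀ r : Rt k, r * t = z (toCol k v r.a) := fun r => by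
    rw [ht, ← smul_eq_mul, ← map_smul, rt_smul_A, ← toCol_mul, mul_one]
  obtain ⟨ha, hy, hc⟩ := acy_pure (t := t) fun r hr => by rw [hsm, hr, map_zero, map_zero]
  obtain ⟨m, hm⟩ := mkJ_surjective t.j
  refine ⟨(pExt m t.x).comp (PeS k v).subtype, LinearMap.ext fun c => ?_⟩
  have h1 : hat (ofCol v c) * t = z c := by rw [hsm, hat_a, toCol_ofCol]
  rw [← h1, acy_mul_pure _ ha hy hc, ← hm]
  ext1 <;> simp [pExt, iotaA, lJ_mk]

theorem sum_coord_outer {v : W} (p : PeS k v) :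
    p = piPe k v (0, p.1.2) + ∑ l, (⟨0, 0, p.1.1 (Module.finBasis k (Zc k) l), 0, 0⟩ : Rt k) •
      piPe k v (0, (Module.finBasis k (Zc k)).coord l) := by
  set b := Module.finBasis k (Zc k)
  refine Subtype.ext ?_
  simp only [Submodule.coe_add, Submodule.coe_sum, Submodule.coe_smul]
  refine Prod.ext ?_ ?_
  · refine LinearMap.ext fun z => ?_
    simp only [Prod.fst_add, Prod.fst_sum, Pc.smul_fst, piPe, LinearMap.coe_mk, AddHom.coe_mk,
      zero_mul, map_zero, zero_add, LinearMap.sum_apply]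
    conv_lhs => rw [← p.2.1, Module.End.mul_apply, ← b.sum_repr (rhoZ k (eV k v) z), map_sum]
    refine Finset.sum_congr rfl fun l _ => ?_
    simp [outer]
  · simp only [Prod.snd_add, Prod.snd_sum, Pc.smul_snd, piPe, LinearMap.coe_mk, AddHom.coe_mk,
      zero_smul, Finset.sum_const_zero, add_zero]
    exact p.2.2.symm

theorem hom_K_extends (v : W) (φ : LinearMap.ker (piA k v) →ₗ[Rt k] Rt k) :
    ∃ h : ReS k v →ₗ[Rt k] Rt k, h.comp (LinearMap.ker (piA k v)).subtype = φ := by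
  set Φ := φ.comp (piK k v) with hΦ
  have hsc : ∀ (t : k) (η : DZ k),
      Φ (piPe k v (0, t • η)) = (t • (1 : Rt k)) * Φ (piPe k v (0, η)) := fun t η => by
    rw [← smul_eq_mul, ← map_smul, ← map_smul]
    congr 2
    refine Prod.ext ?_ ?_ <;> simp
  have hzero : ∀ η, (Φ (piPe k v (0, η))).a = 0 ∧ (Φ (piPe k v (0, η))).j = 0 ∧
      (Φ (piPe k v (0, η))).x = 0 := fun η => by
    have : fScal k * Φ (piPe k v (0, η)) = Φ (piPe k v (0, η)) := by
      rw [← smul_eq_mul, ← map_smul, ← map_smul]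
      congr 2
      refine Prod.ext ?_ ?_ <;> simp [fScal]
    rw [← this]
    refine ⟨?_, ?_, ?_⟩
    · simp [fScal]
    · obtain ⟨O, hO⟩ := mkJ_surjective (Φ (piPe k v (0, η))).j
      simp [fScal, ← hO, lJ_mk]
    · simp [fScal]
  let L1 : DZ k →ₗ[k] DZ k :=
    { toFun := fun η => (Φ (piPe k v (0, η))).y
      map_add' := fun η η' => by
        rw [← Rt.add_y, ← map_add, ← map_add, Prod.mk_add_mk, add_zero]
      map_smul' := fun t η => by rw [RingHom.id_apply, hsc, smul_one_mul, Rt.smul_y] }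
  let L2 : DZ k →ₗ[k] k :=
    { toFun := fun η => (Φ (piPe k v (0, η))).c
      map_add' := fun η η' => by
        rw [← Rt.add_c, ← map_add, ← map_add, Prod.mk_add_mk, add_zero]
      map_smul' := fun t η => by rw [RingHom.id_apply, hsc, smul_one_mul, Rt.smul_c, smul_eq_mul] }
  let x : Zc k := (Module.evalEquiv k (Zc k)).symm L2
  let m : EZ k := (Module.evalEquiv k (Zc k)).symm.toLinearMap.comp L1.flip
  have hx : ∀ η : DZ k, η x = L2 η := fun η => Module.apply_evalEquiv_symm_apply k (Zc k) η L2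
  have hm : ∀ η : DZ k, η ∘ₗ m = L1 η := fun η =>
    LinearMap.ext fun z => Module.apply_evalEquiv_symm_apply k (Zc k) η (L1.flip z)
  have hpe : ∀ η : DZ k, piPe k v (0, η ∘ₗ rhoZ k (eV k v)) = piPe k v (0, η) := fun η =>
    Subtype.ext (Prod.ext rfl (comp_eV_sq v η))
  have hxe : rhoZ k (eV k v) x = x := by
    rw [← sub_eq_zero, ← Module.forall_dual_apply_eq_zero_iff k]
    intro η
    rw [map_sub, sub_eq_zero, hx η, ← LinearMap.comp_apply, hx]
    show (Φ _).c = (Φ _).c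
    rw [hpe]
  have hme : rhoZ k (eV k v) * m = m := by
    refine LinearMap.ext fun z => ?_
    rw [← sub_eq_zero, ← Module.forall_dual_apply_eq_zero_iff k]
    intro η
    rw [map_sub, sub_eq_zero]
    have e1 := LinearMap.congr_fun (hm (η ∘ₗ rhoZ k (eV k v))) z
    have e2 := LinearMap.congr_fun (hm η) z
    have e3 : L1 (η ∘ₗ rhoZ k (eV k v)) = L1 η := by
      show (Φ _).y = (Φ _).y
      rw [hpe]
    rw [e3] at e1
    exact e1.trans e2.symm
  have hgen : ∀ η, Φ (piPe k v (0, η)) = pExt m x (piPe k v (0, η)).1 := fun η => by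
    obtain ⟨h1, h2, h3⟩ := hzero η
    ext1
    · exact h1
    · rw [h2]; simp [pExt, piPe]
    · rw [h3]; simp [pExt, piPe]
    · show L1 η = (η ∘ₗ rhoZ k (eV k v)) ∘ₗ m
      rw [LinearMap.comp_assoc, ← Module.End.mul_eq_comp, hme, hm]
    · show L2 η = η (rhoZ k (eV k v) x)
      rw [hxe, hx]
  have hall : ∀ p : PeS k v, Φ p = pExt m x p.1 := fun p => by
    have hp := sum_coord_outer p
    conv_lhs => rw [hp]
    conv_rhs => rw [hp]
    simp only [map_add, map_sum, map_smul, Submodule.coe_add, Submodule.coe_sum,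
      Submodule.coe_smul, hgen]
  have hA : Φ (iotaA k v (toCol k v (eV k v))) = 0 := by
    rw [hΦ, LinearMap.comp_apply, (exact_iotaA_piK v).apply_apply_eq_zero, map_zero]
  rw [hall] at hA
  have h1 : (iotaA k v (toCol k v (eV k v))).1 = (rhoZ k (eV k v), 0) := by
    show (rhoZ k (ofCol v _), (0 : DZ k)) = _
    rw [ofCol_toCol v (eV_mul_self v)]
  rw [h1] at hA
  have hx0 : x = 0 := by rw [← hxe]; exact congrArg Rt.x hA
  have hm0 := congrArg Rt.j hA
  obtain ⟨a0, ha0⟩ := mkJ_eq_zero.1 (show mkJ m = 0 by rw [← hme]; exact hm0)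
  refine ⟨(LinearMap.toSpanSingleton (Rt k) (Rt k) (hat a0)).comp (ReS k v).subtype,
    LinearMap.ext fun r => ?_⟩
  obtain ⟨p, rfl⟩ := piK_surjective v r
  show pDel k p.1 * hat a0 = Φ p
  rw [hall, hx0, ← ha0]
  ext1 <;> simp [pExt, rJ_mk]

theorem exact_ker_piA (v : W) :
    Function.Exact (LinearMap.ker (piA k v)).subtype (piA k v) :=
  LinearMap.exact_subtype_ker_map _

theorem ext_ReS (v : W) (j : ℕ)
    (e : Ext.{0} (ModuleCat.of (Rt k) (ReS k v)) (ModuleCat.of (Rt k) (Rt k)) (j + 1)) : e = 0 :=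
  have : CategoryTheory.Projective (ModuleCat.of (Rt k) (ReS k v)) :=
    (IsProjective.iff_projective (ReS k v)).1 inferInstance
  Ext.eq_zero_of_projective e

theorem ext_PeS (v : W) (j : ℕ)
    (e : Ext.{0} (ModuleCat.of (Rt k) (PeS k v)) (ModuleCat.of (Rt k) (Rt k)) (j + 1)) : e = 0 :=
  have : CategoryTheory.Projective (ModuleCat.of (Rt k) (PeS k v)) :=
    (IsProjective.iff_projective (PeS k v)).1 inferInstance
  Ext.eq_zero_of_projective e

theorem ext_one_Acol (v : W) :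
    ∀ e : Ext.{0} (ModuleCat.of (Rt k) (Acol k v)) (ModuleCat.of (Rt k) (Rt k)) 1, e = 0 :=
  ext_one_zero_of_exact _ _ _ (piA_surjective v) (exact_ker_piA v) (ext_ReS v 0) (hom_K_extends v)

theorem ext_one_K (v : W) :
    ∀ e : Ext.{0} (ModuleCat.of (Rt k) (LinearMap.ker (piA k v))) (ModuleCat.of (Rt k) (Rt k)) 1,
      e = 0 :=
  ext_one_zero_of_exact (R := Rt k) (X := Acol k v) (Y := PeS k v)
    (Z := LinearMap.ker (piA k v)) (ModuleCat.of (Rt k) (Rt k)) (iotaA k v) (piK k v)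
    (piK_surjective v) (exact_iotaA_piK v) (ext_PeS v 0) (hom_Acol_extends v)

theorem sesA (v : W) : IsSES (ModuleCat.of (Rt k) (LinearMap.ker (piA k v)))
    (ModuleCat.of (Rt k) (ReS k v)) (ModuleCat.of (Rt k) (Acol k v)) :=
  isSES_of_linearMap (LinearMap.ker (piA k v)).subtype (piA k v)
    (Submodule.injective_subtype _) (piA_surjective v) (exact_ker_piA v)

theorem sesK (v : W) : IsSES (ModuleCat.of (Rt k) (Acol k v))
    (ModuleCat.of (Rt k) (PeS k v)) (ModuleCat.of (Rt k) (LinearMap.ker (piA k v))) :=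
  isSES_of_linearMap (iotaA k v) (piK k v) (iotaA_injective v) (piK_surjective v)
    (exact_iotaA_piK v)

theorem ext_Acol_and_K (v : W) (j : ℕ) :
    (∀ e : Ext.{0} (ModuleCat.of (Rt k) (Acol k v)) (ModuleCat.of (Rt k) (Rt k)) (j + 1),
      e = 0) ∧ ∀ e : Ext.{0} (ModuleCat.of (Rt k) (LinearMap.ker (piA k v)))
      (ModuleCat.of (Rt k) (Rt k)) (j + 1), e = 0 := by
  induction j with
  | zero => exact ⟨ext_one_Acol v, ext_one_K v⟩
  | succ j ih =>
    exact ⟨(sesA v).ext_zero₃ ih.2 (ext_ReS v (j + 1)), (sesK v).ext_zero₃ ih.1 (ext_PeS v (j + 1))⟩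

theorem ext_Acol_R (v : W) (j : ℕ) (hj : 1 ≤ j) :
    ∀ e : Ext.{0} (ModuleCat.of (Rt k) (Acol k v)) (ModuleCat.of (Rt k) (Rt k)) j, e = 0 := by
  obtain ⟨j, rfl⟩ := Nat.exists_eq_add_of_le' hj
  exact (ext_Acol_and_K v j).1

/-! ### The column modules -/

/-- The value of the homomorphism with parameter `μ` at a column. -/
noncomputable def acySum (c : W → Weyl k) (μ : Par k) : Rt k :=
  ∑ q, tW 1 q ((vRep k (c q)).comp μ)

theorem acySum_mul (c : W → Weyl k) (g : Weyl k) (μ : Par k) :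
    acySum (fun q => c q * g) μ = acySum c ((vRep k g).comp μ) := by
  simp [acySum, Module.End.mul_eq_comp, LinearMap.comp_assoc]

theorem acySum_add (c d : W → Weyl k) (μ : Par k) :
    acySum (c + d) μ = acySum c μ + acySum d μ := by
  simp [acySum, LinearMap.add_comp, Finset.sum_add_distrib]

theorem acySum_neg (c : W → Weyl k) (μ : Par k) : acySum (-c) μ = acySum c (-μ) := by
  simp [acySum, LinearMap.comp_neg, LinearMap.neg_comp]

theorem acySum_add_right (c : W → Weyl k) (μ ν : Par k) :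
    acySum c (μ + ν) = acySum c μ + acySum c ν := by
  simp [acySum, LinearMap.comp_add, Finset.sum_add_distrib]

/-- Transport of column modules along an equality of degrees. -/
noncomputable def colCast {t t' : ℤ × ℤ} (h : t = t') : Col k t →ₗ[Rt k] Col k t' where
  toFun c := ⟨c.1, h ▸ c.2⟩
  map_add' _ _ := rfl
  map_smul' _ _ := rfl

theorem exists_param {v : W} {t : ℤ × ℤ} (h : t = pos v) (z : Col k t →ₗ[Rt k] Rt k) :
    ∃ μ, ∀ c, z c = acySum c.1 μ := by
  subst h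
  obtain ⟨μ, rfl⟩ := exists_homCol v z
  exact ⟨μ, fun c => rfl⟩

/-- The homomorphism with parameter `μ`. -/
noncomputable def homT {v : W} {t : ℤ × ℤ} (h : t = pos v) (μ : Par k) : Col k t →ₗ[Rt k] Rt k :=
  (homCol v μ).comp (colCast h)

theorem homT_apply {v : W} {t : ℤ × ℤ} (h : t = pos v) (μ : Par k) (c : Col k t) :
    homT h μ c = acySum c.1 μ := rfl

theorem acySum_NR {v : W} {μ : Par k} (hμ : μ ∈ NR k v) (c : Col k (pos v)) :
    acySum c.1 μ = 0 := by
  have : homCol v μ = 0 := acy_hom_ext (by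
    rw [homCol_cdelta, (tW_one_eq_zero v μ).2 hμ]; rfl)
  exact LinearMap.congr_fun this c

/-- The homomorphism on `A e_v` with parameter `μ`. -/
noncomputable def homA (v : W) (μ : Par k) : Acol k v →ₗ[Rt k] Rt k where
  toFun c := hat (ofCol v c) * tW 0 v μ
  map_add' c d := by rw [ofCol_add, map_add, add_mul]
  map_smul' r c := by
    rw [RingHom.id_apply, smul_eq_mul, ← mul_assoc, rt_smul_A, ofCol_smul, mul_tW, mul_tW]
    rfl

theorem homA_Nincl (v : W) (μ : Par k) (c : Col k (pos v - (1, 0))) :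
    homA v μ (Nincl k v c) = acySum c.1 μ := by
  show hat (ofCol v (Nincl k v c)) * tW 0 v μ = _
  rw [mul_tW, sum_ix]
  simp [ofCol, colMat, Nincl, acySum]

theorem pos_one_sub (i : Fin 3) : pos ((1 : Fin 2), i) - (1, 0) = pos ((0 : Fin 2), i) := by
  simp [pos]

theorem nrow_gen (g : Weyl k) (F : W → Weyl k) :
    (vRep k g).comp (nrow F) = nrow fun q => g * F q := by
  refine LinearMap.ext fun z => ?_
  obtain ⟨z, c⟩ := z
  simp [nrow_apply]

theorem x_cancel_par {μ ν : Par k} (h : (vRep k (gen 0)).comp μ = (vRep k (gen 0)).comp ν) :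
    μ = ν := by
  have := congrArg (xInv k).comp h
  rwa [← LinearMap.comp_assoc, ← LinearMap.comp_assoc, ← Module.End.mul_eq_comp, xInv_mul,
    Module.End.one_eq_id, LinearMap.id_comp, LinearMap.id_comp] at this

theorem x_comp_xInv (μ : Par k) : (vRep k (gen 0)).comp ((xInv k).comp μ) = μ := by
  rw [← LinearMap.comp_assoc, ← Module.End.mul_eq_comp, mul_xInv, Module.End.one_eq_id,
    LinearMap.id_comp]

theorem hom_pairs_extend (i : Fin 3) (z : Col k (pos ((1 : Fin 2), i)) →ₗ[Rt k] Rt k) :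
    ∃ h : Col k (pos ((1 : Fin 2), i) - (1, 0)) × Col k (pos ((1 : Fin 2), i) - (1, 0)) →ₗ[Rt k]
      Rt k, h.comp (kosA k (pos ((1 : Fin 2), i))) = z := by
  obtain ⟨μ, hμ⟩ := exists_param rfl z
  refine ⟨(homT (pos_one_sub i) 0).coprod (homT (pos_one_sub i) (-((xInv k).comp μ))),
    LinearMap.ext fun c => ?_⟩
  show homT (pos_one_sub i) 0 _ + homT (pos_one_sub i) _ _ = z c
  rw [homT_apply, homT_apply, hμ]
  show acySum (fun q => c.1 q * gen 1) 0 + acySum (-fun q => c.1 q * gen 0) _ = _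
  rw [acySum_neg, neg_neg, acySum_mul, acySum_mul, x_comp_xInv, LinearMap.comp_zero]
  simp [acySum]

theorem kos_pair_params {t : ℤ × ℤ} {v : W} (h : t = pos v)
    (z : Col k (t - (1, 0)) →ₗ[Rt k] Rt k) :
    ∃ μ1 μ2, ∀ a b : Col k t, z (kosB k t (a, b)) = acySum a.1 μ1 + acySum b.1 μ2 := by
  obtain ⟨μ1, hμ1⟩ := exists_param h
    ((z.comp (kosB k t)).comp (LinearMap.inl (Rt k) (Col k t) (Col k t)))
  obtain ⟨μ2, hμ2⟩ := exists_param h
    ((z.comp (kosB k t)).comp (LinearMap.inr (Rt k) (Col k t) (Col k t)))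
  refine ⟨μ1, μ2, fun a b => ?_⟩
  rw [← hμ1, ← hμ2]
  simp only [LinearMap.comp_apply, ← map_add, LinearMap.inl_apply, LinearMap.inr_apply,
    Prod.mk_add_mk, add_zero, zero_add]

theorem kos_compat (i : Fin 3)
    (z : Col k (pos ((1 : Fin 2), i) - (1, 0) - (1, 0)) →ₗ[Rt k] Rt k) {μ1 μ2 : Par k}
    (hz : ∀ a b : Col k (pos ((1 : Fin 2), i) - (1, 0)),
      z (kosB k _ (a, b)) = acySum a.1 μ1 + acySum b.1 μ2) :
    (vRep k (gen 1)).comp μ1 + -(vRep k (gen 0)).comp μ2 ∈ NR k ((1 : Fin 2), i) := by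
  rw [← tW_one_eq_zero, ← homCol_cdelta, homCol_apply]
  show acySum (cdelta (k := k) ((1 : Fin 2), i)).1 _ = 0
  rw [acySum_add_right, ← LinearMap.comp_neg, ← acySum_mul, ← acySum_mul, ← acySum_neg]
  have h0 : kosB k _ (kosA k (pos ((1 : Fin 2), i)) (cdelta ((1 : Fin 2), i))) = 0 :=
    (exact_kos _).apply_apply_eq_zero _
  have := hz (kosA k (pos ((1 : Fin 2), i)) (cdelta ((1 : Fin 2), i))).1
    (kosA k (pos ((1 : Fin 2), i)) (cdelta ((1 : Fin 2), i))).2
  rw [Prod.mk.eta, h0, map_zero] at this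
  exact this.symm

theorem kos_adjust {i : Fin 3} {μ1 μ2 : Par k}
    (h : (vRep k (gen 1)).comp μ1 + -(vRep k (gen 0)).comp μ2 ∈ NR k ((1 : Fin 2), i)) :
    ∃ ν1 ν2, (vRep k (gen 1)).comp ν1 = (vRep k (gen 0)).comp ν2 ∧
      μ1 - ν1 ∈ NR k ((0 : Fin 2), i) ∧ μ2 - ν2 ∈ NR k ((0 : Fin 2), i) := by
  obtain ⟨F, hF, hFμ⟩ := mem_NR.1 h
  have hsp : ∀ q, 1 ≤ (pos ((1 : Fin 2), i) + (1, 0) - pos q).1 := fun q => by
    have := pos_bounds q; simp [pos] at this ⊢; omega
  choose F1 hF1 F2 hF2 hFe using fun q => piece_split (hsp q) (hF q)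
  have hdeg : ∀ q, pos ((1 : Fin 2), i) + (1, 0) - pos q - (1, 0) =
      pos ((0 : Fin 2), i) + (1, 0) - pos q := fun q => by
    rw [← pos_one_sub i]; abel
  have n1 : nrow F1 ∈ NR k ((0 : Fin 2), i) := mem_NR.2 ⟨F1, fun q => hdeg q ▸ hF1 q, rfl⟩
  have n2 : nrow F2 ∈ NR k ((0 : Fin 2), i) := mem_NR.2 ⟨F2, fun q => hdeg q ▸ hF2 q, rfl⟩
  refine ⟨μ1 + -nrow F2, μ2 + nrow F1, ?_, ?_, ?_⟩
  · have e : nrow F = nrow (fun q => gen 0 * F1 q) + nrow (fun q => gen 1 * F2 q) := by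
      rw [← map_add]; exact congrArg nrow (funext hFe)
    rw [e, ← nrow_gen, ← nrow_gen] at hFμ
    simp only [LinearMap.comp_add, LinearMap.comp_neg]
    linear_combination (norm := abel) -hFμ
  · rw [sub_add_cancel_left, neg_neg]; exact n2
  · rw [sub_add_cancel_left]; exact Submodule.neg_mem _ n1

theorem acySum_congr {v : W} {t : ℤ × ℤ} (h : t = pos v) {μ ν : Par k} (hμ : μ - ν ∈ NR k v)
    (c : Col k t) : acySum c.1 μ = acySum c.1 ν := by
  subst h
  have := acySum_NR hμ c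
  rwa [sub_eq_add_neg, acySum_add_right, ← acySum_neg, acySum_neg c.1 ν, add_eq_zero_iff_eq_neg,
    show -acySum c.1 (-ν) = acySum c.1 ν by
      rw [eq_comm, ← add_eq_zero_iff_eq_neg, ← acySum_add_right, add_neg_cancel]
      simp [acySum]] at this

theorem hom_N_zero (i : Fin 3) (z : Col k (pos ((1 : Fin 2), i) - (1, 0) - (1, 0)) →ₗ[Rt k] Rt k) :
    ∃ μ0, ∀ c, z c = acySum c.1 μ0 := by
  obtain ⟨μ1, μ2, hz⟩ := kos_pair_params (pos_one_sub i) z
  obtain ⟨ν1, ν2, hcompat, h1, h2⟩ := kos_adjust (kos_compat i z hz)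
  refine ⟨(xInv k).comp ν1, fun c => ?_⟩
  have e1 : (vRep k (gen 1)).comp ((xInv k).comp ν1) = ν2 := by
    apply x_cancel_par
    rw [← LinearMap.comp_assoc, ← Module.End.mul_eq_comp, ← map_mul, gen_x_comm, map_mul,
      Module.End.mul_eq_comp, LinearMap.comp_assoc, x_comp_xInv, hcompat]
  obtain ⟨⟨a, b⟩, rfl⟩ := kosB_surjective _ (by simp [pos]) c
  rw [hz, acySum_congr (pos_one_sub i) h1, acySum_congr (pos_one_sub i) h2]
  show _ = acySum ((fun q => a.1 q * gen 0) + fun q => b.1 q * gen 1) _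
  rw [acySum_add, acySum_mul, acySum_mul, x_comp_xInv, e1]

theorem hom_N_zero' {t : ℤ × ℤ} (i : Fin 3) (ht : t = pos ((1 : Fin 2), i) - (1, 0))
    (z : Col k (t - (1, 0)) →ₗ[Rt k] Rt k) : ∃ μ0, ∀ c, z c = acySum c.1 μ0 := by
  subst ht
  exact hom_N_zero i z

theorem hom_Nincl_extend (v : W) (z : Col k (pos v - (1, 0)) →ₗ[Rt k] Rt k) :
    ∃ h : Acol k v →ₗ[Rt k] Rt k, h.comp (Nincl k v) = z := by
  obtain ⟨a, i⟩ := v
  suffices ∃ μ0, ∀ c, z c = acySum c.1 μ0 by
    obtain ⟨μ0, hμ0⟩ := this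
    exact ⟨homA _ μ0, LinearMap.ext fun c => by
      rw [LinearMap.comp_apply, homA_Nincl, hμ0]⟩
  fin_cases a
  · exact hom_N_zero' i (pos_one_sub i).symm z
  · exact exists_param (pos_one_sub i) z

theorem ext_Col_R (v : W) (j : ℕ) (hj : 1 ≤ j) :
    ∀ e : Ext.{0} (ModuleCat.of (Rt k) (Col k (pos v))) (ModuleCat.of (Rt k) (Rt k)) j, e = 0 := by
  obtain ⟨j, rfl⟩ := Nat.exists_eq_add_of_le' hj
  clear hj
  have hcast : ∀ {t t' : ℤ × ℤ}, t = t' → ∀ {n : ℕ},
      (∀ e : Ext.{0} (ModuleCat.of (Rt k) (Col k t)) (ModuleCat.of (Rt k) (Rt k)) n, e = 0) →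
      ∀ e : Ext.{0} (ModuleCat.of (Rt k) (Col k t')) (ModuleCat.of (Rt k) (Rt k)) n, e = 0 := by
    rintro t t' rfl n h; exact h
  have sA : ∀ u : W, IsSES (ModuleCat.of (Rt k) (Col k (pos u - (1, 0))))
      (ModuleCat.of (Rt k) (Acol k u)) (ModuleCat.of (Rt k) (Col k (pos u))) := fun u =>
    isSES_of_linearMap (Nincl k u) (Aproj k u) (Nincl_injective u) (Aproj_surjective u)
      (exact_Nincl_Aproj u)
  suffices H : ∀ j, (∀ u : W, ∀ e : Ext.{0} (ModuleCat.of (Rt k) (Col k (pos u)))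
      (ModuleCat.of (Rt k) (Rt k)) (j + 1), e = 0) ∧
      ∀ i : Fin 3, ∀ e : Ext.{0} (ModuleCat.of (Rt k) (Col k (pos ((1 : Fin 2), i) - (1, 0) - (1, 0))))
        (ModuleCat.of (Rt k) (Rt k)) (j + 1), e = 0 from (H j).1 v
  intro j
  have hs : ∀ i : Fin 3, Function.Surjective (kosB k (pos ((1 : Fin 2), i) - (1, 0))) := fun i =>
    kosB_surjective _ (by simp [pos])
  have hpair : ∀ (n : ℕ) (i : Fin 3),
      (∀ u : W, ∀ e : Ext.{0} (ModuleCat.of (Rt k) (Col k (pos u)))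
        (ModuleCat.of (Rt k) (Rt k)) n, e = 0) →
      ∀ e : Ext.{0} (ModuleCat.of (Rt k) (Col k (pos ((1 : Fin 2), i) - (1, 0)) ×
        Col k (pos ((1 : Fin 2), i) - (1, 0)))) (ModuleCat.of (Rt k) (Rt k)) n, e = 0 :=
    fun n i h => ext_zero_prod (hcast (pos_one_sub i).symm (h _)) (hcast (pos_one_sub i).symm (h _))
  induction j with
  | zero =>
    have hP : ∀ u : W, ∀ e : Ext.{0} (ModuleCat.of (Rt k) (Col k (pos u)))
        (ModuleCat.of (Rt k) (Rt k)) 1, e = 0 := fun u =>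
      ext_one_zero_of_exact _ _ _ (Aproj_surjective u) (exact_Nincl_Aproj u)
        (ext_Acol_R u 1 le_rfl) (hom_Nincl_extend u)
    exact ⟨hP, fun i => ext_one_zero_of_exact _ _ _ (hs i) (exact_kos _) (hpair 1 i hP)
      (hom_pairs_extend i)⟩
  | succ j ih =>
    have hP : ∀ u : W, ∀ e : Ext.{0} (ModuleCat.of (Rt k) (Col k (pos u)))
        (ModuleCat.of (Rt k) (Rt k)) (j + 1 + 1), e = 0 := by
      rintro ⟨a, i⟩
      refine (sA (a, i)).ext_zero₃ ?_ (ext_Acol_R (a, i) _ (by omega))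
      fin_cases a
      · exact hcast (congrArg (· - (1, 0)) (pos_one_sub i)) (ih.2 i)
      · exact hcast (pos_one_sub i).symm (ih.1 _)
    exact ⟨hP, fun i => (isSES_of_linearMap (kosA k (pos ((1 : Fin 2), i)))
      (kosB k (pos ((1 : Fin 2), i) - (1, 0))) (kosA_injective _) (hs i) (exact_kos _)).ext_zero₃
      (ih.1 _) (hpair _ i hP)⟩

end Vale.Agent.P195.CE
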