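import Vale.Agent.P195.CE.Lift
import Mathlib.Algebra.BigOperators.Field
import Mathlib.Data.Matrix.Mul
import Mathlib.Tactic.DeriveFintype

/-!
# The Spencer complex of the module of polynomials of degree `m + a`

For the six vertices (a, i), `a ≤ 1`, `i ≤ 2`, the complex is a double complex with cells
`A j` (vertex (0, j)) and `C j` (vertex (1, j)), written as one square matrix over the Weyl
algebra acting on row vectors from the right.
-/

namespace Vale.Agent.P195.CE

open MvPolynomial

variable {k : Type} [Field k]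

/-- Generators of the complex of `m`: cell and power of the first variable. -/
inductive Gen (m : ℕ) : Type
  | A0 (i : Fin (m + 1))
  | A1 (l : Fin 2) (i : Fin (m + 2))
  | A2 (i : Fin (m + 3))
  | C0 (i : Fin m)
  | C1 (l : Fin 2) (i : Fin (m + 1))
  | C2 (i : Fin (m + 2))
  deriving DecidableEq, Fintype

/-- The homological degree. -/
def Gen.deg {m : ℕ} : Gen m → ℕ
  | .A0 _ => 0
  | .A1 _ _ => 1
  | .A2 _ => 2
  | .C0 _ => 1
  | .C1 _ _ => 2
  | .C2 _ => 3

/-- The vertex. -/
def Gen.vtx {m : ℕ} : Gen m → ℤ × ℤ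
  | .A0 _ => (0, 0)
  | .A1 _ _ => (0, 1)
  | .A2 _ => (0, 2)
  | .C0 _ => (1, 0)
  | .C1 _ _ => (1, 1)
  | .C2 _ => (1, 2)

/-- Coefficient of `x₁^{i'} x₂^{n-1-i'}` in the `e`-th derivative of `x₁^i x₂^{n-i}`. -/
def dcoef (e : Fin 2) (n i i' : ℕ) : k :=
  if e = 0 then (if i' + 1 = i then (i : k) else 0) else (if i' = i then ((n - i : ℕ) : k) else 0)

/-- The element `d_l x_e`. -/
noncomputable def dx (l e : Fin 2) : Weyl k :=
  gen (if l = 0 then 2 else 3) * gen (if e = 0 then 0 else 1)

/-- Vertical differential between the `A` cells, for polynomials of degree `n`. -/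
noncomputable def dA (l : Fin 2) (n i i' : ℕ) : Weyl k :=
  (1 / (n : k)) • ((dcoef 0 n i i' : k) • dx l 0 + (dcoef 1 n i i' : k) • dx l 1) -
    (dcoef l n i i' : k) • gen 4

/-- Vertical differential between the `C` cells, for polynomials of degree `q`. -/
noncomputable def dC (l : Fin 2) (q i i' : ℕ) : Weyl k :=
  (1 / ((q + 1 : ℕ) : k)) • ((dcoef 0 q i i' : k) • dx l 0 + (dcoef 1 q i i' : k) • dx l 1) -
    (((q + 2 : ℕ) : k) / ((q + 1 : ℕ) : k) * dcoef l q i i') • gen 4

/-- Horizontal differential. -/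
noncomputable def kap (i i' : ℕ) : Weyl k :=
  (if i' = i + 1 then gen 1 else 0) - (if i' = i then gen 0 else 0)

/-- The differential. -/
noncomputable def Kmat (m : ℕ) : Matrix (Gen m) (Gen m) (Weyl k)
  | .A1 l i, .A0 i' => dA l (m + 1) i i'
  | .A2 i, .A1 l i' => if l = 0 then dA 1 (m + 2) i i' else -dA 0 (m + 2) i i'
  | .C1 l i, .C0 i' => dC l m i i'
  | .C2 i, .C1 l i' => if l = 0 then dC 1 (m + 1) i i' else -dC 0 (m + 1) i i'
  | .C0 i, .A0 i' => kap i i'
  | .C1 l i, .A1 l' i' => if l = l' then -kap i i' else 0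
  | .C2 i, .A2 i' => kap i i'
  | _, _ => 0

variable (k) in
/-- Polynomials in two variables. -/
abbrev Pol := MvPolynomial (Fin 2) k

/-- Multiplication on `Pol`. -/
noncomputable def pmul (f : Pol k) : Module.End k (Pol k) := LinearMap.mulLeft k f

/-- The action on polynomials: `x ↦` multiplication, `d ↦` derivative, `h ↦ 1`. -/
noncomputable def polGen : Fin 5 → Module.End k (Pol k) :=
  ![pmul (X 0), pmul (X 1), (pderiv 0).toLinearMap, (pderiv 1).toLinearMap, 1]

theorem pderiv_commP (i j : Fin 2) (f : Pol k) :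
    pderiv i (pderiv j f) = pderiv j (pderiv i f) := by
  classical
  induction f using MvPolynomial.induction_on with
  | C a => simp
  | add p q hp hq => simp [hp, hq]
  | mul_X p n hp =>
    simp only [pderiv_mul, pderiv_X, map_add]
    rcases eq_or_ne n i with rfl | hi <;> rcases eq_or_ne n j with rfl | hj <;>
      simp_all [eq_comm]

theorem isWeyl_polGen : IsWeyl (polGen (k := k)) := by
  constructor <;>
    first
      | (intro i; fin_cases i <;> simp [polGen])
      | (refine LinearMap.ext fun f => ?_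
         simp [polGen, pmul, Derivation.leibniz, pderiv_commP (0 : Fin 2) 1 f]
         try ring)

variable (k) in
/-- The polynomial representation. -/
noncomputable def polRep : Weyl k →ₐ[k] Module.End k (Pol k) := liftWeyl polGen isWeyl_polGen

/-- The monomial of a generator in degree zero. -/
noncomputable def augMon {m : ℕ} : Gen m → Pol k
  | .A0 i => X 0 ^ (i : ℕ) * X 1 ^ (m - i)
  | _ => 0

/-- The augmentation. -/
noncomputable def aug {m : ℕ} (r : Gen m → Weyl k) : Pol k :=
  ∑ g, polRep k (r g) (augMon g)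

/-- Row vectors of target `t` and homological degree `p`. -/
def IsRow {m : ℕ} (t : ℤ × ℤ) (p : ℕ) (r : Gen m → Weyl k) : Prop :=
  (∀ g, g.deg ≠ p → r g = 0) ∧ ∀ g, r g ∈ Piece k (t - g.vtx)

end Vale.Agent.P195.CE
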