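import Vale.Agent.P195.CE.VRep
import Vale.Agent.P195.CE.Cplx
import Mathlib.Data.Matrix.Mul
import Mathlib.Data.Matrix.Basis
import Mathlib.Data.Matrix.Basic
import Mathlib.LinearAlgebra.Pi

/-!
# The algebra `A` and its faithful module `Z`
-/

namespace Vale.Agent.P195.CE

/-- The six vertices. -/
abbrev W := Fin 2 × Fin 3

/-- Indices: weight and vertex. -/
abbrev Ix := Fin 2 × W

/-- The position of a vertex. -/
def pos (q : W) : ℤ × ℤ := ((q.1 : ℕ), (q.2 : ℕ))

/-- The degree of an index. -/
def tgt (i : Ix) : ℤ × ℤ := pos i.2 + (((i.1 : ℕ) : ℤ), 0)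

theorem tgt_zero (q : W) : tgt (0, q) = pos q := by simp [tgt]

theorem tgt_one (q : W) : tgt (1, q) = pos q + (1, 0) := by simp [tgt]

theorem pos_bounds (q : W) :
    0 ≤ (pos q).1 ∧ (pos q).1 ≤ 1 ∧ 0 ≤ (pos q).2 ∧ (pos q).2 ≤ 2 := by
  have := q.1.isLt; have := q.2.isLt
  simp [pos]; omega

theorem tgt_bounds (i : Ix) :
    0 ≤ (tgt i).1 ∧ (tgt i).1 ≤ 2 ∧ 0 ≤ (tgt i).2 ∧ (tgt i).2 ≤ 2 := by
  have := pos_bounds i.2
  have := i.1.isLt
  simp [tgt]; omega

/-- The vertex of a generator. -/
def Gen.vW {m : ℕ} : Gen m → W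
  | .A0 _ => (0, 0)
  | .A1 _ _ => (0, 1)
  | .A2 _ => (0, 2)
  | .C0 _ => (1, 0)
  | .C1 _ _ => (1, 1)
  | .C2 _ => (1, 2)

theorem Gen.pos_vW {m : ℕ} (g : Gen m) : pos g.vW = g.vtx := by cases g <;> rfl

section generic

variable {R S : Type*} [Ring R] [Ring S]

variable (R) in
/-- The shift from weight zero to weight one. -/
def shift : Matrix Ix Ix R := fun i j => if i.1 = 1 ∧ j.1 = 0 ∧ i.2 = j.2 then 1 else 0

theorem mul_shift_zero (M : Matrix Ix Ix R) (i : Ix) (q : W) :
    (M * shift R) i (0, q) = M i (1, q) := by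
  rw [Matrix.mul_apply, Finset.sum_eq_single (1, q)]
  · simp [shift]
  · rintro ⟨w, r⟩ _ h
    simp only [shift]
    rw [if_neg, mul_zero]
    rintro ⟨rfl, -, rfl⟩
    exact h rfl
  · simp

theorem mul_shift_one (M : Matrix Ix Ix R) (i : Ix) (q : W) :
    (M * shift R) i (1, q) = 0 := by
  simp [Matrix.mul_apply, shift]

theorem shift_mul_one (M : Matrix Ix Ix R) (p : W) (j : Ix) :
    (shift R * M) (1, p) j = M (0, p) j := by
  rw [Matrix.mul_apply, Finset.sum_eq_single (0, p)]
  · simp [shift]
  · rintro ⟨w, r⟩ _ h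
    simp only [shift]
    rw [if_neg, zero_mul]
    rintro ⟨-, rfl, rfl⟩
    exact h rfl
  · simp

theorem shift_mul_zero (M : Matrix Ix Ix R) (p : W) (j : Ix) :
    (shift R * M) (0, p) j = 0 := by
  simp [Matrix.mul_apply, shift]

theorem commute_shift_iff (M : Matrix Ix Ix R) :
    Commute M (shift R) ↔
      (∀ p q, M (0, p) (1, q) = 0) ∧ ∀ p q, M (1, p) (1, q) = M (0, p) (0, q) := by
  constructor
  · intro h
    constructor
    · intro p q
      rw [← mul_shift_zero M, h.eq, shift_mul_zero]
    · intro p q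
      rw [← mul_shift_zero M (1, p) q, h.eq, shift_mul_one]
  · rintro ⟨h0, h1⟩
    ext ⟨w, p⟩ ⟨x, q⟩
    fin_cases w <;> fin_cases x <;>
      simp [mul_shift_zero, mul_shift_one, shift_mul_zero, shift_mul_one, h0, h1]

theorem shift_map (f : R → S) (h0 : f 0 = 0) (h1 : f 1 = 1) : (shift R).map f = shift S := by
  ext i j
  simp only [Matrix.map_apply, shift]
  split_ifs <;> assumption

/-- The element supported at two vertices, in both weights. -/
def slot (v v' : W) : R →+ Matrix Ix Ix R where
  toFun x := Matrix.single (0, v) (0, v') x + Matrix.single (1, v) (1, v') x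
  map_zero' := by simp
  map_add' x y := by simp only [Matrix.single_add]; abel

theorem slot_apply (v v' : W) (x : R) (i j : Ix) :
    slot v v' x i j = if i.1 = j.1 ∧ i.2 = v ∧ j.2 = v' then x else 0 := by
  obtain ⟨w, p⟩ := i; obtain ⟨u, q⟩ := j
  by_cases hp : p = v
  · by_cases hq : q = v'
    · subst hp hq
      fin_cases w <;> fin_cases u <;> simp [slot, Matrix.single_apply]
    · simp [slot, Matrix.single_apply, Ne.symm hq, hq]
  · simp [slot, Matrix.single_apply, Ne.symm hp, hp]

theorem slot_mul (v v' v'' : W) (x y : R) : slot v v' x * slot v' v'' y = slot v v'' (x * y) := by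
  simp [slot, add_mul, mul_add]

theorem slot_map (f : R →+ S) (v v' : W) (x : R) :
    (slot v v' x).map f = slot v v' (f x) := by
  ext i j
  simp only [Matrix.map_apply, slot_apply]
  split_ifs <;> simp

theorem slot_commute_shift (v v' : W) (x : R) : Commute (slot v v' x) (shift R) := by
  rw [commute_shift_iff]
  constructor <;> intro p q <;> simp [slot_apply]

theorem sum_slot_one : ∑ v, slot v v (1 : R) = (1 : Matrix Ix Ix R) := by
  ext ⟨w, p⟩ ⟨u, q⟩
  simp only [Matrix.sum_apply, slot_apply]
  by_cases h : (w, p) = (u, q)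
  · obtain ⟨rfl, rfl⟩ := Prod.ext_iff.1 h
    simp
  · rw [Matrix.one_apply_ne h, Finset.sum_eq_zero]
    intro v _
    rw [if_neg]
    rintro ⟨h1, h2, h3⟩
    simp_all

/-- A matrix over the vertices, seen as a matrix of slots. -/
def slotG {G : Type*} (v : G → W) (M : Matrix G G R) : Matrix G G (Matrix Ix Ix R) :=
  fun g g' => slot (v g) (v g') (M g g')

theorem slotG_mul {G : Type*} [Fintype G] (v : G → W) (M N : Matrix G G R) :
    slotG v M * slotG v N = slotG v (M * N) := by
  refine Matrix.ext fun g g'' => ?_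
  rw [Matrix.mul_apply]
  simp only [slotG, slot_mul, Matrix.mul_apply, map_sum]

end generic

variable {k : Type} [Field k]

variable (k) in
/-- Matrices with homogeneous entries. -/
noncomputable def Graded {I J : Type*} (u : I → ℤ × ℤ) (v : J → ℤ × ℤ) :
    Submodule k (Matrix I J (Weyl k)) where
  carrier := {M | ∀ i j, M i j ∈ Piece k (u i - v j)}
  zero_mem' := fun _ _ => zero_mem _
  add_mem' h h' := fun i j => add_mem (h i j) (h' i j)
  smul_mem' c _ h := fun i j => Submodule.smul_mem _ c (h i j)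

theorem mul_mem_graded {I J L : Type*} [Fintype J] {u : I → ℤ × ℤ} {v : J → ℤ × ℤ}
    {w : L → ℤ × ℤ} {M : Matrix I J (Weyl k)} {N : Matrix J L (Weyl k)} (hM : M ∈ Graded k u v)
    (hN : N ∈ Graded k v w) : M * N ∈ Graded k u w := by
  intro i l
  rw [Matrix.mul_apply]
  exact sum_mem fun j _ => by simpa using mul_mem_piece (hM i j) (hN j l)

variable (k) in
/-- The algebra `A`. -/
noncomputable def ALG : Subalgebra k (Matrix Ix Ix (Weyl k)) where
  carrier := {M | M ∈ Graded k tgt tgt ∧ Commute M (shift (Weyl k))}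
  mul_mem' h h' := ⟨mul_mem_graded h.1 h'.1, h.2.mul_left h'.2⟩
  one_mem' := ⟨fun i j => by
    rcases eq_or_ne i j with rfl | h
    · simpa using one_mem_piece
    · simp [h], Commute.one_left _⟩
  add_mem' h h' := ⟨add_mem h.1 h'.1, h.2.add_left h'.2⟩
  zero_mem' := ⟨zero_mem _, Commute.zero_left _⟩
  algebraMap_mem' r := ⟨fun i j => by
    rcases eq_or_ne i j with rfl | h
    · rw [Matrix.algebraMap_matrix_apply, if_pos rfl, Algebra.algebraMap_eq_smul_one, sub_self]
      exact Submodule.smul_mem _ _ one_mem_piece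
    · simp [Matrix.algebraMap_matrix_apply, h], Algebra.commute_algebraMap_left _ _⟩

variable (k) in
/-- The carrier of `A`. -/
abbrev Alg := ↥(ALG k)

noncomputable instance : Ring (Alg k) :=
  @Subalgebra.toRing k (Matrix Ix Ix (Weyl k)) _ _ _ (ALG k)

theorem slot_mem (v v' : W) {x : Weyl k} (hx : x ∈ Piece k (pos v - pos v')) :
    slot v v' x ∈ ALG k := by
  refine ⟨fun i j => ?_, slot_commute_shift v v' x⟩
  rw [slot_apply]
  split_ifs with h
  · obtain ⟨h1, h2, h3⟩ := h
    rw [tgt, tgt, h1, h2, h3, add_sub_add_right_eq_sub]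
    exact hx
  · exact zero_mem _

/-- Elements at two vertices. -/
noncomputable def Eelt (v v' : W) (x : Piece k (pos v - pos v')) : Alg k :=
  ⟨slot v v' x, slot_mem v v' x.2⟩

variable (k) in
/-- The idempotent of a vertex. -/
noncomputable def eV (v : W) : Alg k :=
  ⟨slot v v 1, slot_mem v v (by rw [sub_self]; exact one_mem_piece)⟩

theorem eV_mul_self (v : W) : eV k v * eV k v = eV k v := Subtype.ext (by simp [eV, slot_mul])

theorem sum_eV : ∑ v, eV k v = 1 := by
  apply Subtype.ext
  rw [AddSubmonoidClass.coe_finsetSum]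
  exact sum_slot_one

variable (k) in
/-- The module `Z`. -/
abbrev Zc := Ix → V k

variable (k) in
/-- Block matrices of operators as operators. -/
noncomputable def toEnd : Matrix Ix Ix (Module.End k (V k)) →ₐ[k] Module.End k (Zc k) where
  toFun M := LinearMap.pi fun i => ∑ j, (M i j).comp (LinearMap.proj j)
  map_one' := by
    refine LinearMap.ext fun z => funext fun i => ?_
    simp [Matrix.one_apply, apply_ite, ite_apply]
  map_mul' M N := by
    refine LinearMap.ext fun z => funext fun i => ?_
    simp only [LinearMap.pi_apply, LinearMap.sum_apply, LinearMap.comp_apply, LinearMap.proj_apply,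
      Module.End.mul_apply, Matrix.mul_apply, map_sum]
    rw [Finset.sum_comm]
  map_zero' := by
    refine LinearMap.ext fun z => funext fun i => ?_
    simp
  map_add' M N := by
    refine LinearMap.ext fun z => funext fun i => ?_
    simp [Finset.sum_add_distrib]
  commutes' r := by
    refine LinearMap.ext fun z => funext fun i => ?_
    simp [Matrix.algebraMap_matrix_apply, apply_ite, ite_apply]

theorem toEnd_apply (M : Matrix Ix Ix (Module.End k (V k))) (z : Zc k) (i : Ix) :
    toEnd k M z i = ∑ j, M i j (z j) := by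
  simp [toEnd]

theorem toEnd_injective : Function.Injective (toEnd k) := by
  intro M N h
  refine Matrix.ext fun i j => LinearMap.ext fun v => ?_
  have := congrFun (congrArg (fun T : Module.End k (Zc k) => T (Pi.single j v)) h) i
  simp only [toEnd_apply] at this
  rw [Finset.sum_eq_single j (fun l _ hl => by simp [hl]) (by simp),
    Finset.sum_eq_single j (fun l _ hl => by simp [hl]) (by simp)] at this
  simpa using this

variable (k) in
/-- The representation as a block matrix. -/
noncomputable def rhoM : Alg k →ₐ[k] Matrix Ix Ix (Module.End k (V k)) :=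
  (vRep k).mapMatrix.comp (ALG k).val

variable (k) in
/-- The representation on `Z`. -/
noncomputable def rhoZ : Alg k →ₐ[k] Module.End k (Zc k) := (toEnd k).comp (rhoM k)

theorem rhoM_apply (a : Alg k) : rhoM k a = (a : Matrix Ix Ix (Weyl k)).map (vRep k) := rfl

theorem rhoZ_apply (a : Alg k) (z : Zc k) (i : Ix) :
    rhoZ k a z i = ∑ j, vRep k ((a : Matrix Ix Ix (Weyl k)) i j) (z j) :=
  toEnd_apply _ z i

theorem rhoZ_slot (v v' : W) {x : Weyl k} (h : slot v v' x ∈ ALG k) :
    rhoZ k ⟨slot v v' x, h⟩ = toEnd k (slot v v' (vRep k x)) := by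
  show toEnd k ((slot v v' x).map (vRep k)) = _
  rw [show (slot v v' x).map (vRep k) = slot v v' (vRep k x) from
    slot_map (vRep k).toRingHom.toAddMonoidHom v v' x]

theorem graded_eq_zero_of_map_eq_zero {I J : Type*} {u : I → ℤ × ℤ} {v : J → ℤ × ℤ}
    (hb : ∀ i j, (u i - v j).1 ≤ 2 ∧ (u i - v j).2 ≤ 2) {M : Matrix I J (Weyl k)}
    (hM : M ∈ Graded k u v) (h : M.map (vRep k) = 0) : M = 0 :=
  Matrix.ext fun i j => vRep_injOn (hb i j).1 (hb i j).2 (hM i j)
    (congrFun (congrFun h i) j)

theorem rhoM_injective : Function.Injective (rhoM k) := by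
  rw [injective_iff_map_eq_zero]
  intro a h
  refine Subtype.ext (graded_eq_zero_of_map_eq_zero (fun i j => ?_) a.2.1 h)
  have := tgt_bounds i; have := tgt_bounds j
  simp only [Prod.fst_sub, Prod.snd_sub]; omega

theorem rhoZ_injective : Function.Injective (rhoZ k) := toEnd_injective.comp rhoM_injective

end Vale.Agent.P195.CE
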