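import Vale.Agent.P195.CE.HomData

/-!
# The case `m = K = 0` of the exactness statements
-/

namespace Vale.Agent.P195.CE

open MvPolynomial

variable {k : Type} [Field k]

theorem base_weight (s : Fin 2 →₀ ℕ) :
    Finsupp.weight (fun _ : Fin 2 => (1 : ℤ)) s = (s 0 : ℤ) + s 1 := by
  simp [Finsupp.weight_apply, Finsupp.sum_fintype, Fin.sum_univ_two]

theorem exists_const {p : Pol k} (hp : p ∈ PolDeg k 0) : ∃ a, p = C a := by
  classical
  refine ⟨coeff 0 p, MvPolynomial.ext _ _ fun s => ?_⟩
  rw [coeff_C]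
  by_cases hs : 0 = s
  · rw [if_pos hs, hs]
  · rw [if_neg hs]
    by_contra hc
    have h := hp hc
    rw [base_weight] at h
    exact hs (Finsupp.ext fun i => by fin_cases i <;> simp <;> omega)

/-- A linear form. -/
noncomputable def lin (a b : k) : Pol k := C a * X 0 + C b * X 1

theorem coeff_lin (a b : k) :
    coeff (Finsupp.single (0 : Fin 2) 1) (lin a b) = a ∧
      coeff (Finsupp.single (1 : Fin 2) 1) (lin a b) = b := by
  classical
  simp [lin, coeff_C_mul, coeff_X, Finsupp.single_eq_single_iff]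

theorem exists_lin {p : Pol k} (hp : p ∈ PolDeg k 1) : ∃ a b, p = lin a b := by
  classical
  refine ⟨coeff (Finsupp.single 0 1) p, coeff (Finsupp.single 1 1) p,
    MvPolynomial.ext _ _ fun s => ?_⟩
  by_cases h0 : Finsupp.single (0 : Fin 2) 1 = s
  · subst h0; rw [(coeff_lin _ _).1]
  by_cases h1 : Finsupp.single (1 : Fin 2) 1 = s
  · subst h1; rw [(coeff_lin _ _).2]
  simp only [lin, coeff_add, coeff_C_mul, coeff_X, if_neg h0, if_neg h1, mul_zero, add_zero]
  by_contra hc
  have h := hp hc
  rw [base_weight] at h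
  rcases Nat.eq_zero_or_pos (s 0) with hz | hz
  · exact h1 (Finsupp.ext fun i => by fin_cases i <;> simp <;> omega)
  · exact h0 (Finsupp.ext fun i => by fin_cases i <;> simp <;> omega)

theorem lin_eq_zero {a b : k} (h : lin a b = 0) : a = 0 ∧ b = 0 := by
  obtain ⟨h0, h1⟩ := coeff_lin a b
  rw [h, coeff_zero] at h0 h1
  exact ⟨h0.symm, h1.symm⟩

theorem C_mem_polDeg (a : k) : (C a : Pol k) ∈ PolDeg k 0 := isWeightedHomogeneous_C _ a

section complex

variable [CharZero k] {m : ℕ}

theorem kD_kD (u : Gen m → Pol k) (g : Gen m) : kD (kD u) g = 0 := by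
  simp only [kD, map_sum]
  rw [Finset.sum_comm]
  refine Finset.sum_eq_zero fun g'' _ => ?_
  have h : ∑ g', polRep k (Kmat m g g') * polRep k (Kmat m g' g'') = 0 := by
    simp only [← map_mul, ← map_sum]
    rw [← Matrix.mul_apply, Kmat_sq, Matrix.zero_apply, map_zero]
  simpa [LinearMap.sum_apply] using LinearMap.congr_fun h (u g'')

omit [CharZero k] in
theorem kD_sub (u v : Gen m → Pol k) (g : Gen m) : kD (u - v) g = kD u g - kD v g := by
  simp [kD, Finset.sum_sub_distrib]

omit [CharZero k] in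
theorem isCo_kD {K p : ℕ} {u : Gen m → Pol k} (hu : IsCo K p u) : IsCo K (p + 1) (kD u) := by
  refine ⟨fun g => sum_mem fun g' _ => ?_, fun g hg => Finset.sum_eq_zero fun g' _ => ?_⟩
  · have h := polRep_mem (Kmat_mem (k := k) g g') (hu.1 g')
    convert h using 2
    simp only [Prod.fst_sub]
    ring
  · by_cases hd : g'.deg = p
    · rw [Kmat_support g g' (by omega)]; simp
    · rw [hu.2 g' hd, map_zero]

omit [CharZero k] in
theorem kD_A1_const (h : Gen 0 → Pol k) (a : k) (ha : h (.A0 0) = C a) (l : Fin 2) (i : Fin 2) :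
    kD h (.A1 l i) = 0 := by
  fin_cases l <;> fin_cases i <;>
    simp [kD, sum_gen, Kmat, polRep_dA, dcoef, ha, Derivation.leibniz]

omit [CharZero k] in
theorem kD_C1_kap (h : Gen 0 → Pol k) (l : Fin 2) :
    kD h (.C1 l 0) = X 0 * h (.A1 l 0) - X 1 * h (.A1 l 1) := by
  fin_cases l <;>
    simp [kD, sum_gen, Kmat, kap, polRep_gen, polRep_sub, polGen, pmul,
      Fin.sum_univ_two]

theorem two_mul_half : (2 : Pol k) * C (2⁻¹ : k) = 1 := by
  rw [← map_ofNat (C : k →+* Pol k) 2, ← map_mul, mul_inv_cancel₀ two_ne_zero, map_one]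

theorem kD_C2_zero (w : Gen 0 → Pol k) (a b a' b' : k) (h0 : w (.C1 0 0) = lin a b)
    (h1 : w (.C1 1 0) = lin a' b') :
    kD w (.C2 0) = X 1 * w (.A2 1) - X 0 * w (.A2 0) + lin (-a) (-(b / 2) - a' / 2) := by
  simp [kD, sum_gen, Kmat, kap, polRep_gen, polRep_sub, polRep_neg, polGen, pmul, polRep_dC,
    dcoef, Fin.sum_univ_three, h0, h1, lin, Derivation.leibniz, smul_eq_C_mul]
  simp only [div_eq_mul_inv, map_mul, map_ofNat]
  linear_combination (-(C a * X 0)) * two_mul_half (k := k)

theorem kD_C2_one (w : Gen 0 → Pol k) (a b a' b' : k) (h0 : w (.C1 0 0) = lin a b)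
    (h1 : w (.C1 1 0) = lin a' b') :
    kD w (.C2 1) = X 1 * w (.A2 2) - X 0 * w (.A2 1) + lin (b / 2 + a' / 2) b' := by
  simp [kD, sum_gen, Kmat, kap, polRep_gen, polRep_sub, polRep_neg, polGen, pmul, polRep_dC,
    dcoef, Fin.sum_univ_three, h0, h1, lin, Derivation.leibniz, smul_eq_C_mul]
  simp only [div_eq_mul_inv, map_mul, map_ofNat]
  linear_combination (C b' * X 1) * two_mul_half (k := k)

omit [CharZero k] in
theorem slope_gen (l : Fin 2) (i : Fin 5) :
    slope l (gen i : Weyl k) = (pointGen (k := k) l i).snd := by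
  simp [slope, pointRep_gen]

omit [CharZero k] in
theorem slope_kap (l : Fin 2) (i i' : ℕ) : slope l (kap i i' : Weyl k) = 0 := by
  rw [kap, map_sub]
  split_ifs <;> simp [slope_gen, pointGen]

theorem sigma_C2 (q : Fin 2) :
    sigma k 0 (.C2 q) (.A0 0) = if q = 0 then -(gen 4 ^ 2 * gen 1) else 0 := by
  have hq : ((Gen.C2 q : Gen 0).vtx - (Gen.A0 0 : Gen 0).vtx) = ((1 : ℤ), (2 : ℤ)) := by
    simp [Gen.vtx]
  have hmem : (if q = 0 then -(gen 4 ^ 2 * gen 1) else 0 : Weyl k) ∈ Piece k (1, 2) := by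
    split_ifs
    · refine piece_neg_mem ?_
      simpa [wt] using gen_pow_mul_mem_piece (gen_mem_piece (k := k) 1) 4 2
    · exact zero_mem _
  refine sub_eq_zero.1 (vRep_injOn (d := (1, 2)) (by norm_num) (by norm_num)
    (piece_sub_mem' (hq ▸ sigma_mem (k := k) (m := 0) (.C2 q) (.A0 0)) hmem) ?_)
  rw [map_sub, sub_eq_zero]
  have h := congrFun (congrFun (sigma_map (k := k) (m := 0)) (.C2 q)) (.A0 0)
  rw [Matrix.map_apply] at h
  rw [h, Matrix.sub_apply, Matrix.mul_apply, Matrix.mul_apply]
  have hxi : ∀ g : Gen 0, g.deg = 2 → Xi (Kmat (k := k) 0) (Kmat 0) g (.A0 0) =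
      if g = Gen.A2 0 then Polynomial.X ^ 2 else 0 := by
    intro g hg
    cases g with
    | A2 i =>
      fin_cases i <;>
        simp [Xi, tauM, Matrix.mul_apply, sum_gen, Kmat, dA, dx, dcoef, slope_mul, slope_gen,
          evalLine_gen, pointGen, Fin.sum_univ_two, sq]
    | C1 l i =>
      fin_cases l <;>
        simp [Xi, tauM, Matrix.mul_apply, sum_gen, Kmat, slope_kap, map_neg]
    | _ => simp [Gen.deg] at hg
  have hzero : ∀ g : Gen 0, g.deg = 1 → Xi (Kmat (k := k) 0) (Kmat 0) (.C2 q) g = 0 := by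
    intro g hg
    cases g with
    | A1 l i =>
      fin_cases l <;>
        simp [Xi, tauM, Matrix.mul_apply, sum_gen, Kmat, slope_kap, map_neg]
    | C0 i => exact i.elim0
    | _ => simp [Gen.deg] at hg
  rw [Finset.sum_eq_single (Gen.A2 0), Finset.sum_eq_zero, sub_zero]
  · rw [Matrix.map_apply, xiT, Matrix.map_apply, hxi _ rfl, if_pos rfl]
    have hl : lamLift k ((Polynomial.X : Line k) ^ 2) = Qop k * vRep k (gen 1) := by
      have := lamLift_monomial (k := k) 1 1
      simpa using this
    rw [hl]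
    fin_cases q
    · simp [Kmat, kap, map_neg, map_mul, map_pow]
      have hneg : ∀ T U : Module.End k (V k), -T * U = -(T * U) := fun T U =>
        LinearMap.ext fun v => by simp
      rw [hneg, ← mul_assoc, ← (Qop_comm (gen 0)).eq, Qop_mul_x]
    · simp [Kmat, kap]
  · intro g _
    by_cases hg : g.deg = 1
    · simp [xiT, Matrix.map_apply, hzero g hg]
    · rw [xiT_Kmat_supp (Gen.C2 q) g (by show (3 : ℕ) ≠ g.deg + 2; omega), zero_mul]
  · intro g _ hne
    by_cases hg : g.deg = 2
    · simp [xiT, hxi g hg, hne]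
    · rw [xiT_Kmat_supp g (Gen.A0 0) (by show g.deg ≠ 0 + 2; omega), mul_zero]
  · simp

theorem sD_C2 (h : Gen 0 → Pol k) (hh : ∀ g, g.deg ≠ 0 → h g = 0) (q : Fin 2) :
    sD h (.C2 q) = if q = 0 then -(X 1 * h (.A0 0)) else 0 := by
  rw [sD, Finset.sum_eq_single (Gen.A0 0)]
  · rw [sigma_C2]
    split_ifs
    · simp [polRep_neg, map_mul, map_pow, polRep_gen, polGen, pmul]
    · simp
  · intro g _ hne
    rw [hh g fun hd => hne ?_, map_zero]
    cases g with
    | A0 i => rw [Fin.fin_one_eq_zero i]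
    | _ => simp [Gen.deg] at hd
  · simp

theorem sD_supp (h : Gen 0 → Pol k) (hh : ∀ g, g.deg ≠ 0 → h g = 0) (g : Gen 0) (hg : g.deg ≠ 3) :
    sD h g = 0 := by
  refine Finset.sum_eq_zero fun g' _ => ?_
  by_cases hd : g'.deg = 0
  · rw [sigma_supp g g' (by omega)]; simp
  · rw [hh g' hd, map_zero]

end complex

theorem homData_zero {k : Type} [Field k] [CharZero k] : HomData k 0 0 := by
  refine ⟨fun c hc h w hh hw hd hdw => ?_, fun h hh hd => ?_, fun h hh hd => ?_,
    fun c hc h hh => ?_⟩
  · obtain ⟨lam, hlam⟩ := exists_const (by simpa [Gen.vtx] using hh.1 (.A0 0))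
    obtain ⟨a, b, hab⟩ := exists_lin (by simpa [Gen.vtx] using hw.1 (.C1 0 0))
    obtain ⟨a', b', hab'⟩ := exists_lin (by simpa [Gen.vtx] using hw.1 (.C1 1 0))
    choose e he using fun i => exists_const (p := w (.A2 i))
      (by simpa [Gen.vtx] using hw.1 (.A2 i))
    have q0 := hdw (.C2 0)
    have q1 := hdw (.C2 1)
    rw [kD_C2_zero w a b a' b' hab hab', sD_C2 h hh.2, if_pos rfl, he, he, hlam] at q0
    rw [kD_C2_one w a b a' b' hab hab', sD_C2 h hh.2, if_neg (by decide), he, he, smul_zero,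
      add_zero] at q1
    have q0' : lin (-e 0 - a) (e 1 - b / 2 - a' / 2 - (c : k) * lam) = 0 := by
      rw [← q0]
      simp [lin, nsmul_eq_mul]
      ring
    have q1' : lin (-e 1 + b / 2 + a' / 2) (e 2 + b') = 0 := by
      rw [← q1]
      simp [lin]
      ring
    have k0 := (lin_eq_zero q0').2
    have k1 := (lin_eq_zero q1').1
    have hl : (c : k) * lam = 0 := by linear_combination (-1 : k) * k0 + (-1 : k) * k1
    have : lam = 0 := (mul_eq_zero.1 hl).resolve_left (Nat.cast_ne_zero.2 hc)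
    funext g
    by_cases hg : g.deg = 0
    · cases g with
      | A0 i => rw [Fin.fin_one_eq_zero i, hlam, this, map_zero]; rfl
      | _ => simp [Gen.deg] at hg
    · exact hh.2 g hg
  · refine ⟨0, ⟨fun g => zero_mem _, fun g _ => rfl⟩, fun g => ?_⟩
    suffices h = 0 by simp [this, kD]
    funext g
    by_cases hg : g.deg = 1
    · cases g with
      | A1 l i =>
        have e := hd (.C1 l 0)
        obtain ⟨a, ha⟩ := exists_const (by simpa [Gen.vtx] using hh.1 (.A1 l 0))
        obtain ⟨b, hb⟩ := exists_const (by simpa [Gen.vtx] using hh.1 (.A1 l 1))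
        rw [kD_C1_kap, ha, hb] at e
        obtain ⟨za, zb⟩ := lin_eq_zero (a := a) (b := -b) (by rw [← e]; simp [lin]; ring)
        obtain rfl | rfl : i = 0 ∨ i = 1 := by fin_cases i <;> simp
        · rw [ha, za, map_zero]; rfl
        · rw [hb, neg_eq_zero.1 zb, map_zero]; rfl
      | C0 i => exact i.elim0
      | _ => simp [Gen.deg] at hg
    · exact hh.2 g hg
  · choose a b hab using fun l => exists_lin (p := h (.C1 l 0))
      (by simpa [Gen.vtx] using hh.1 (.C1 l 0))
    let s : Gen 0 → Pol k := fun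
      | .A1 l i => if i = 0 then C (a l) else C (-b l)
      | _ => 0
    have hs : IsCo 0 1 s := by
      refine ⟨fun g => ?_, fun g hg => ?_⟩
      · cases g with
        | A1 l i =>
          simp only [s, Gen.vtx]
          split_ifs <;> simpa using C_mem_polDeg _
        | _ => exact zero_mem _
      · cases g <;> simp [Gen.deg, s] at hg ⊢
    have hC : ∀ l, kD s (.C1 l 0) = h (.C1 l 0) := fun l => by
      rw [kD_C1_kap, hab]
      simp [s, lin]
      ring
    refine ⟨s, hs, fun g => ?_⟩
    by_cases hg : g.deg = 2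
    · choose e he using fun i => exists_const (p := (h - kD s) (.A2 i))
        (by simpa [Gen.vtx] using sub_mem (hh.1 (.A2 i)) ((isCo_kD hs).1 (.A2 i)))
      have hd' : ∀ q, kD (h - kD s) (.C2 q) = 0 := fun q => by rw [kD_sub, hd, kD_kD, sub_zero]
      have hz : ∀ l, (h - kD s) (.C1 l 0) = lin (0 : k) 0 := fun l => by simp [hC, lin]
      have q0 := hd' 0
      have q1 := hd' 1
      rw [kD_C2_zero _ _ _ _ _ (hz 0) (hz 1), he, he] at q0
      rw [kD_C2_one _ _ _ _ _ (hz 0) (hz 1), he, he] at q1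
      obtain ⟨z0, z1⟩ := lin_eq_zero (a := -e 0) (b := e 1) (by rw [← q0]; simp [lin]; ring)
      obtain ⟨-, z2⟩ := lin_eq_zero (a := -e 1) (b := e 2) (by rw [← q1]; simp [lin]; ring)
      cases g with
      | A2 i =>
        have := he i
        have hzi : e i = 0 := by
          obtain rfl | rfl | rfl : i = 0 ∨ i = 1 ∨ i = 2 := by fin_cases i <;> simp
          exacts [neg_eq_zero.1 z0, z1, z2]
        rw [hzi, map_zero, Pi.sub_apply, sub_eq_zero] at this
        exact this.symm
      | C1 l i => rw [Fin.fin_one_eq_zero i, hC]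
      | _ => simp [Gen.deg] at hg
    · rw [hh.2 g hg, (isCo_kD hs).2 g hg]
  · choose a b hab using fun q => exists_lin (p := h (.C2 q))
      (by simpa [Gen.vtx] using hh.1 (.C2 q))
    let lam : k := -(b 0 + a 1) / (c : k)
    let u0 : Gen 0 → Pol k := fun
      | .A0 _ => C lam
      | _ => 0
    let u2 : Gen 0 → Pol k := fun
      | .A2 i => if i = 0 then C (-a 0) else if i = 1 then C (-a 1) else C (b 1)
      | _ => 0
    have hu0 : IsCo 0 0 u0 := by
      refine ⟨fun g => ?_, fun g hg => ?_⟩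
      · cases g with
        | A0 i => simpa [u0, Gen.vtx] using C_mem_polDeg lam
        | _ => exact zero_mem _
      · cases g <;> simp [Gen.deg, u0] at hg ⊢
    have hu2 : IsCo 0 2 u2 := by
      refine ⟨fun g => ?_, fun g hg => ?_⟩
      · cases g with
        | A2 i =>
          simp only [u2, Gen.vtx]
          split_ifs <;> simpa using C_mem_polDeg _
        | _ => exact zero_mem _
      · cases g <;> simp [Gen.deg, u2] at hg ⊢
    refine ⟨u0, u2, hu0, hu2, fun g => ?_, fun g => ?_⟩
    · by_cases hg : g.deg = 1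
      · cases g with
        | A1 l i => exact kD_A1_const u0 lam rfl l i
        | C0 i => exact i.elim0
        | _ => simp [Gen.deg] at hg
      · exact (isCo_kD hu0).2 g hg
    · by_cases hg : g.deg = 3
      · cases g with
        | C2 q =>
          have hc' : (c : k) ≠ 0 := Nat.cast_ne_zero.2 hc
          obtain rfl | rfl : q = 0 ∨ q = 1 := by fin_cases q <;> simp
          · rw [kD_C2_zero u2 0 0 0 0 (by simp [u2, lin]) (by simp [u2, lin]), sD_C2 u0 hu0.2,
              hab, if_pos rfl]
            have key : (c : k) * lam = -(b 0 + a 1) := by simp only [lam]; field_simp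
            have key' : (c : Pol k) * C lam = -(C (b 0) + C (a 1)) := by
              rw [← map_natCast (C : k →+* Pol k), ← map_mul, key, map_neg, map_add]
            simp [u0, u2, lin, nsmul_eq_mul]
            linear_combination (-(X 1 : Pol k)) * key'
          · rw [kD_C2_one u2 0 0 0 0 (by simp [u2, lin]) (by simp [u2, lin]), sD_C2 u0 hu0.2,
              hab, if_neg (by decide)]
            simp [u2, lin]
            ring
        | _ => simp [Gen.deg] at hg
      · rw [(isCo_kD hu2).2 g hg, sD_supp u0 hu0.2 g hg, hh.2 g hg, smul_zero, add_zero]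

end Vale.Agent.P195.CE
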