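import Vale.Agent.P195.CE.Cplx
import Mathlib.Algebra.DualNumber
import Mathlib.Algebra.Polynomial.Monomial
import Mathlib.Algebra.Polynomial.Eval.Defs
import Mathlib.Algebra.Polynomial.AlgebraMap

/-!
# Three representations: polynomials, the point (0 : 1) with first order neighbourhood, degrees
-/

namespace Vale.Agent.P195.CE

open MvPolynomial

variable {k : Type} [Field k]

/-- Induction on homogeneous elements. -/
theorem piece_induction {P : ℤ × ℤ → Weyl k → Prop} (h1 : P 0 1) (h0 : ∀ d, P d 0)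
    (hadd : ∀ d φ ψ, P d φ → P d ψ → P d (φ + ψ)) (hsmul : ∀ d (c : k) φ, P d φ → P d (c • φ))
    (hgen : ∀ d φ i, φ ∈ Piece k d → P d φ → P (wt i + d) (gen i * φ)) {d : ℤ × ℤ} {φ : Weyl k}
    (hφ : φ ∈ Piece k d) : P d φ := by
  let S : ℤ × ℤ → Submodule k (Weyl k) := fun d =>
    { carrier := {φ | φ ∈ Piece k d ∧ P d φ}
      zero_mem' := ⟨zero_mem _, h0 d⟩
      add_mem' := fun h h' => ⟨add_mem h.1 h'.1, hadd _ _ _ h.2 h'.2⟩
      smul_mem' := fun c _ h => ⟨Submodule.smul_mem _ c h.1, hsmul _ _ _ h.2⟩ }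
  have step : ∀ (d : ℤ × ℤ) (φ : Weyl k) (i : Fin 5) (n : ℕ), φ ∈ S d →
      gen i ^ n * φ ∈ S (n • wt i + d) := by
    intro d φ i n h
    induction n with
    | zero => simpa using h
    | succ n ih =>
      rw [pow_succ', mul_assoc, succ_nsmul', add_assoc]
      exact ⟨gen_mul_mem_piece ih.1 i, hgen _ _ i ih.1 ih.2⟩
  suffices φ ∈ S d from this.2
  rw [← ofSym_sym φ]
  have hf : sym φ ∈ Deg k d := hφ
  generalize sym φ = f at hf ⊢
  rw [as_sum f, map_sum]
  refine sum_mem fun s hs => ?_
  have hw : Finsupp.weight wt s = d := hf (mem_support_iff.1 hs)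
  rw [show monomial s (coeff s f) = coeff s f • monomial s (1 : k) by simp [smul_monomial],
    map_smul, ofSym_monomial]
  refine Submodule.smul_mem _ _ ?_
  rw [← mul_one (ordMon gen s)]
  simp only [ordMon, mul_assoc]
  rw [← hw, weight_wt, ← add_zero (s 4 • wt 4)]
  exact step _ _ 0 _ (step _ _ 1 _ (step _ _ 2 _ (step _ _ 3 _ (step _ _ 4 _
    (⟨one_mem_piece, h1⟩ : (1 : Weyl k) ∈ S 0)))))

theorem wt_snd_nonneg (i : Fin 5) : 0 ≤ (wt i).2 := by fin_cases i <;> simp [wt]

theorem piece_eq_zero_of_neg {d : ℤ × ℤ} (hd : d.2 < 0) {φ : Weyl k} (hφ : φ ∈ Piece k d) :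
    φ = 0 := by
  refine piece_induction (P := fun d φ => d.2 < 0 → φ = 0) (fun h => absurd h (by simp))
    (fun _ _ => rfl) (fun _ _ _ h h' hd => by rw [h hd, h' hd, add_zero])
    (fun _ _ _ h hd => by rw [h hd, smul_zero]) ?_ hφ hd
  intro d φ i _ h hd
  have := wt_snd_nonneg i
  rw [h (by simp only [Prod.snd_add] at hd; omega), mul_zero]

variable (k) in
/-- Two-variable polynomials of integral degree `n`. -/
noncomputable def PolDeg (n : ℤ) : Submodule k (Pol k) :=
  weightedHomogeneousSubmodule k (fun _ : Fin 2 => (1 : ℤ)) n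

theorem polGen_mem {n : ℤ} {p : Pol k} (hp : p ∈ PolDeg k n) (i : Fin 5) :
    polGen i p ∈ PolDeg k ((wt i).1 + n) := by
  have hd : ∀ j : Fin 2, pderiv j p ∈ PolDeg k (-1 + n) := fun j =>
    IsWeightedHomogeneous.pderiv hp (by omega)
  fin_cases i
  · exact IsWeightedHomogeneous.mul (isWeightedHomogeneous_X k _ (0 : Fin 2)) hp
  · exact IsWeightedHomogeneous.mul (isWeightedHomogeneous_X k _ (1 : Fin 2)) hp
  · exact hd 0
  · exact hd 1
  · simpa [polGen, wt] using hp

theorem polRep_gen (i : Fin 5) : polRep k (gen i) = polGen i := liftWeyl_gen _ i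

theorem polRep_mem {d : ℤ × ℤ} {φ : Weyl k} (hφ : φ ∈ Piece k d) {n : ℤ} {p : Pol k}
    (hp : p ∈ PolDeg k n) : polRep k φ p ∈ PolDeg k (d.1 + n) := by
  refine piece_induction (P := fun d φ => ∀ n, ∀ p ∈ PolDeg k n,
    polRep k φ p ∈ PolDeg k (d.1 + n)) ?_ ?_ ?_ ?_ ?_ hφ n p hp
  · intro n p hp; simpa using hp
  · intro d n p _; simp
  · intro d φ ψ h h' n p hp; simpa using add_mem (h n p hp) (h' n p hp)
  · intro d c φ h n p hp; simpa using Submodule.smul_mem _ c (h n p hp)
  · intro d φ i _ h n p hp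
    rw [map_mul, polRep_gen, Module.End.mul_apply, Prod.fst_add, add_assoc]
    exact polGen_mem (h n p hp) i

variable (k) in
/-- The coordinate ring of the line `x₁ = d = h = 0`. -/
abbrev Line := Polynomial k

/-- The first order neighbourhood in the direction `d_l`. -/
noncomputable def pointGen (l : Fin 2) : Fin 5 → DualNumber (Line k) :=
  ![0, TrivSqZeroExt.inl Polynomial.X, if l = 0 then DualNumber.eps else 0,
    if l = 1 then DualNumber.eps else 0, 0]

theorem isWeyl_pointGen (l : Fin 2) : IsWeyl (pointGen (k := k) l) := by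
  constructor <;> first
    | exact mul_comm _ _
    | exact fun i => mul_comm _ _
    | (simp [pointGen, mul_comm])

/-- The representation on the first order neighbourhood. -/
noncomputable def pointRep (l : Fin 2) : Weyl k →ₐ[k] DualNumber (Line k) :=
  liftWeyl (pointGen l) (isWeyl_pointGen l)

/-- Evaluation on the line. -/
noncomputable def evalLine : Weyl k →ₐ[k] Line k :=
  (TrivSqZeroExt.fstHom k (Line k) (Line k)).comp (pointRep 0)

/-- The derivation in direction `d_l`. -/
noncomputable def slope (l : Fin 2) : Weyl k →ₗ[k] Line k :=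
  (TrivSqZeroExt.sndHom (Line k) (Line k)).restrictScalars k ∘ₗ (pointRep l).toLinearMap

theorem fst_pointRep (l : Fin 2) (φ : Weyl k) : (pointRep l φ).fst = evalLine φ := by
  have h : (TrivSqZeroExt.fstHom k (Line k) (Line k)).comp (pointRep l) = evalLine := by
    refine algHom_ext fun i => ?_
    fin_cases l <;> fin_cases i <;>
      simp [evalLine, pointRep, pointGen]
  exact congrArg (fun f : Weyl k →ₐ[k] Line k => f φ) h

theorem slope_mul (l : Fin 2) (φ ψ : Weyl k) :
    slope l (φ * ψ) = evalLine φ * slope l ψ + slope l φ * evalLine ψ := by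
  simp [slope, ← fst_pointRep l]

variable (k) in
/-- Multiples of a monomial of integral degree. -/
noncomputable def LineDeg (n : ℤ) : Submodule k (Line k) :=
  if 0 ≤ n then k ∙ Polynomial.X ^ n.toNat else ⊥

theorem X_mul_mem_lineDeg {n : ℤ} {f : Line k} (hf : f ∈ LineDeg k n) :
    Polynomial.X * f ∈ LineDeg k (n + 1) := by
  unfold LineDeg at *
  split_ifs at hf with h
  · obtain ⟨c, rfl⟩ := Submodule.mem_span_singleton.1 hf
    rw [if_pos (by omega), mul_smul_comm, ← pow_succ']
    exact Submodule.smul_mem _ _ (by rw [show (n + 1).toNat = n.toNat + 1 by omega];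
                                     exact Submodule.mem_span_singleton_self _)
  · rw [(Submodule.mem_bot k).1 hf, mul_zero]; exact zero_mem _

theorem pointRep_gen (l : Fin 2) (i : Fin 5) : pointRep (k := k) l (gen i) = pointGen l i :=
  liftWeyl_gen _ i

theorem point_degree {d : ℤ × ℤ} {φ : Weyl k} (hφ : φ ∈ Piece k d) :
    (evalLine φ ∈ LineDeg k d.1 ∧ (d.2 ≠ 0 → evalLine φ = 0)) ∧
      ∀ l, slope l φ ∈ LineDeg k (d.1 + 1) ∧ (d.2 ≠ 1 → slope l φ = 0) := by
  refine piece_induction (P := fun d φ => (evalLine φ ∈ LineDeg k d.1 ∧ (d.2 ≠ 0 → evalLine φ = 0))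
    ∧ ∀ l, slope l φ ∈ LineDeg k (d.1 + 1) ∧ (d.2 ≠ 1 → slope l φ = 0)) ?_ ?_ ?_ ?_ ?_ hφ
  · refine ⟨⟨?_, fun h => absurd rfl h⟩, fun l => ⟨?_, fun _ => ?_⟩⟩
    · simpa [LineDeg] using Submodule.mem_span_singleton_self (1 : Line k)
    · simp [slope]
    · simp [slope]
  · simp
  · intro d φ ψ h h'
    exact ⟨⟨by simpa using add_mem h.1.1 h'.1.1, fun hd => by simp [h.1.2 hd, h'.1.2 hd]⟩,
      fun l => ⟨by simpa using add_mem (h.2 l).1 (h'.2 l).1,
        fun hd => by simp [(h.2 l).2 hd, (h'.2 l).2 hd]⟩⟩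
  · intro d c φ h
    exact ⟨⟨by simpa using Submodule.smul_mem _ c h.1.1, fun hd => by simp [h.1.2 hd]⟩,
      fun l => ⟨by simpa using Submodule.smul_mem _ c (h.2 l).1,
        fun hd => by simp [(h.2 l).2 hd]⟩⟩
  · rintro ⟨a, b⟩ φ i _ ⟨⟨he, he'⟩, hs⟩
    have key : ∀ l, evalLine (gen i : Weyl k) = (pointGen (k := k) l i).fst ∧
        slope l (gen i : Weyl k) = (pointGen (k := k) l i).snd := fun l =>
      ⟨by rw [← fst_pointRep l, pointRep_gen], by simp [slope, pointRep_gen]⟩
    constructor
    · rw [map_mul, (key 0).1]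
      fin_cases i
      · simp [pointGen]
      · refine ⟨?_, fun hd => ?_⟩
        · simpa [pointGen, wt, add_comm] using X_mul_mem_lineDeg he
        · simp only [pointGen, Fin.isValue, Fin.mk_one, Matrix.cons_val_one, Matrix.cons_val_zero,
            TrivSqZeroExt.fst_inl]
          rw [he' (by simpa [wt] using hd), mul_zero]
      · simp [pointGen]
      · simp [pointGen]
      · simp [pointGen]
    · intro l
      rw [slope_mul, (key l).1, (key l).2]
      fin_cases i
      · simp [pointGen]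
      · refine ⟨?_, fun hd => ?_⟩
        · simpa [pointGen, wt, add_comm, add_left_comm] using X_mul_mem_lineDeg (hs l).1
        · simp only [pointGen, Fin.isValue, Fin.mk_one, Matrix.cons_val_one, Matrix.cons_val_zero,
            TrivSqZeroExt.fst_inl, TrivSqZeroExt.snd_inl, zero_mul, add_zero]
          rw [(hs l).2 (by simpa [wt] using hd), mul_zero]
      · refine ⟨?_, fun hd => ?_⟩ <;> fin_cases l
        · simpa [pointGen, wt, show (-1 + a + 1 : ℤ) = a by ring] using he
        · simp [pointGen]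
        · simpa [pointGen] using he' (fun hb => hd (by simpa [wt] using hb))
        · simp [pointGen]
      · refine ⟨?_, fun hd => ?_⟩ <;> fin_cases l
        · simp [pointGen]
        · simpa [pointGen, wt, show (-1 + a + 1 : ℤ) = a by ring] using he
        · simp [pointGen]
        · simpa [pointGen] using he' (fun hb => hd (by simpa [wt] using hb))
      · simp [pointGen]

end Vale.Agent.P195.CE
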