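import Vale.Agent.P195.CE.Alg
import Vale.Agent.P195.CE.Reps
import Mathlib.Algebra.Polynomial.Inductions

/-!
# The two-cocycle and its lift
-/

namespace Vale.Agent.P195.CE

open MvPolynomial

variable {k : Type} [Field k]

theorem gen_comm_h (i : Fin 5) : (gen 4 : Weyl k) * gen i = gen i * gen 4 := by
  apply sym_injective
  rw [sym_gen_mul, sym_gen_mul, sym_gen, sym_gen]
  fin_cases i <;> simp [lGen, mulOp] <;> ring

theorem gen_x_comm : (gen 0 : Weyl k) * gen 1 = gen 1 * gen 0 := by
  apply sym_injective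
  simp [sym_gen_mul, lGen, mulOp]
  ring

theorem sym_x_mul (e : Fin 2) (φ : Weyl k) :
    sym (gen (if e = 0 then 0 else 1) * φ) = X (if e = 0 then 0 else 1) * sym φ := by
  fin_cases e <;> simp [sym_gen_mul, lGen, mulOp]

theorem ofSym_X_mul (e : Fin 2) (f : Sym k) :
    ofSym (X (if e = 0 then 0 else 1) * f) = gen (if e = 0 then 0 else 1) * ofSym f :=
  sym_injective (by rw [sym_ofSym, sym_x_mul, sym_ofSym])

/-- Homogeneous symbols of positive first degree are combinations of `X 0` and `X 1`. -/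
theorem piece_split {d : ℤ × ℤ} (hd : 1 ≤ d.1) {φ : Weyl k} (hφ : φ ∈ Piece k d) :
    ∃ a ∈ Piece k (d - (1, 0)), ∃ b ∈ Piece k (d - (1, 0)), φ = gen 0 * a + gen 1 * b := by
  let T : Submodule k (Weyl k) :=
    (Piece k (d - (1, 0))).map (LinearMap.mulLeft k (gen 0)) ⊔
      (Piece k (d - (1, 0))).map (LinearMap.mulLeft k (gen 1))
  suffices h : φ ∈ T by
    obtain ⟨_, ⟨a, ha, rfl⟩, _, ⟨b, hb, rfl⟩, h⟩ := Submodule.mem_sup.1 h
    exact ⟨a, ha, b, hb, h.symm⟩
  rw [← ofSym_sym φ]
  have hf : sym φ ∈ Deg k d := hφ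
  generalize sym φ = f at hf ⊢
  rw [as_sum f, map_sum]
  refine sum_mem fun s hs => ?_
  have hw : Finsupp.weight wt s = d := hf (mem_support_iff.1 hs)
  rw [show monomial s (coeff s f) = coeff s f • monomial s (1 : k) by simp [smul_monomial],
    map_smul]
  refine Submodule.smul_mem _ _ ?_
  have hsd : 1 ≤ s 0 + s 1 := by
    rw [weight_wt] at hw
    subst hw
    simp [wt] at hd
    omega
  have key : ∀ (e : Fin 2) (i : Fin 5), i = (if e = 0 then 0 else 1) → s i ≠ 0 →
      ofSym (monomial s (1 : k)) ∈ (Piece k (d - (1, 0))).map (LinearMap.mulLeft k (gen i)) := by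
    intro e i hi hsi
    have hle : Finsupp.single i 1 ≤ s := Finsupp.single_le_iff.2 (Nat.one_le_iff_ne_zero.2 hsi)
    refine ⟨ofSym (monomial (s - Finsupp.single i 1) 1), ?_, ?_⟩
    · rw [SetLike.mem_coe, mem_piece, sym_ofSym]
      refine isWeightedHomogeneous_monomial _ _ _ ?_
      have := congrArg (Finsupp.weight wt) (tsub_add_cancel_of_le hle)
      rw [map_add, hw, Finsupp.weight_single, one_smul] at this
      rw [← this, hi]
      fin_cases e <;> simp [wt]
    · rw [LinearMap.mulLeft_apply, hi, ← ofSym_X_mul, ← hi, X, monomial_mul, one_mul,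
        add_comm, tsub_add_cancel_of_le hle]
  rcases Nat.eq_zero_or_pos (s 0) with h0 | h0
  · exact Submodule.mem_sup_right (key 1 1 rfl (by omega))
  · exact Submodule.mem_sup_left (key 0 0 rfl (by omega))

theorem piece_zero_eq_zero {d : ℤ × ℤ} (h1 : d.1 < 0) (h2 : d.2 = 0) {φ : Weyl k}
    (hφ : φ ∈ Piece k d) : φ = 0 := by
  apply sym_injective
  rw [map_zero]
  ext s
  rw [coeff_zero]
  by_contra hc
  have hw : Finsupp.weight wt s = d := hφ hc
  rw [weight_wt] at hw
  subst hw
  simp [wt] at h1 h2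
  omega

theorem piece_origin {φ : Weyl k} (hφ : φ ∈ Piece k 0) : ∃ c : k, φ = c • 1 := by
  refine ⟨coeff 0 (sym φ), sym_injective ?_⟩
  ext s
  rw [map_smul, sym_one, coeff_smul, coeff_one]
  by_cases hs : s = 0
  · subst hs; simp
  · rw [if_neg (Ne.symm hs), smul_zero]
    by_contra hc
    have hw : Finsupp.weight wt s = 0 := hφ hc
    rw [weight_wt] at hw
    refine hs (Finsupp.ext fun i => ?_)
    simp [wt, Prod.ext_iff] at hw
    fin_cases i <;> simp <;> omega

theorem piece_line (A : ℕ) {φ : Weyl k} (hφ : φ ∈ Piece k ((A : ℤ), 0)) :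
    ∃ ψ ∈ Piece k ((A : ℤ) - 1, 0), ∃ c : k, φ = gen 0 * ψ + c • gen 1 ^ A := by
  induction A generalizing φ with
  | zero =>
    obtain ⟨c, rfl⟩ := piece_origin (φ := φ) (by simpa [Prod.mk_zero_zero] using hφ)
    exact ⟨0, zero_mem _, c, by simp⟩
  | succ A ih =>
    obtain ⟨a, ha, b, hb, rfl⟩ := piece_split (by simp) hφ
    obtain ⟨ψ, hψ, c, rfl⟩ := ih (φ := b) (by simpa using hb)
    refine ⟨a + gen 1 * ψ, add_mem (by simpa using ha) ?_, c, ?_⟩
    · have := gen_mul_mem_piece hψ 1
      simpa [wt] using this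
    · rw [mul_add, mul_add, mul_smul_comm, ← pow_succ', ← mul_assoc (gen 1), ← mul_assoc (gen 0),
        ← gen_x_comm]
      abel

theorem Qop_comm (φ : Weyl k) : Commute (Qop k) (vRep k φ) := by
  have hφ : φ ∈ Algebra.adjoin k (Set.range (gen (k := k))) := by simp [adjoin_gen]
  induction hφ using Algebra.adjoin_induction with
  | mem x hx =>
    obtain ⟨i, rfl⟩ := hx
    have hh : ∀ j, vRep k (gen 4) * vRep k (gen j) = vRep k (gen j) * vRep k (gen 4) := fun j => by
      rw [← map_mul, gen_comm_h, map_mul]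
    have hx0 : ∀ j, vRep k (gen j) * vRep k (gen 0) = vRep k (gen 0) * vRep k (gen j) +
        (if j = 2 then vRep k (gen 4) else 0) := by
      intro j
      have : (gen j : Weyl k) * gen 0 = gen 0 * gen j + (if j = 2 then gen 4 else 0) := by
        apply sym_injective
        rw [map_add, sym_gen_mul, sym_gen_mul, sym_gen, sym_gen]
        fin_cases j <;> simp [lGen, mulOp] <;> ring
      rw [← map_mul, this, map_add, map_mul]
      split_ifs <;> simp
    generalize hg : vRep k (gen i) = g at *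
    have h1 : xInv k * g = g * xInv k +
        xInv k * (if i = 2 then vRep k (gen 4) else 0) * xInv k := by
      have := congrArg (fun T => xInv k * T * xInv k) (hx0 i)
      simp only [mul_add, add_mul, hg, mul_assoc, mul_xInv, mul_one] at this
      rw [← mul_assoc (xInv k) (vRep k (gen 0)), xInv_mul, one_mul] at this
      rw [this, mul_assoc]
    have h4 : Commute (vRep k (gen 4) ^ 2) g := by
      subst hg
      exact (show Commute (vRep k (gen 4)) (vRep k (gen i)) from hh i).pow_left 2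
    have hxc : Commute (vRep k (gen 4)) (xInv k) := by
      have := congrArg (fun T => xInv k * T * xInv k) (hh 0)
      simp only [mul_assoc, mul_xInv, mul_one] at this
      rw [← mul_assoc (xInv k) (vRep k (gen 0)), xInv_mul, one_mul] at this
      exact this.symm
    show Qop k * g = g * Qop k
    rw [Qop, mul_assoc, h1, mul_add]
    have hz : vRep k (gen 4) ^ 2 * (xInv k * (if i = 2 then vRep k (gen 4) else 0) * xInv k) =
        0 := by
      split_ifs
      · rw [← hxc.eq, ← mul_assoc, ← mul_assoc, ← pow_succ, vRep_h_cube, zero_mul, zero_mul]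
      · simp
    rw [hz, add_zero, ← mul_assoc, h4.eq, mul_assoc]
  | algebraMap r => rw [AlgHom.commutes]; exact Algebra.commute_algebraMap_right _ _
  | add x y _ _ hx hy => rw [map_add]; exact hx.add_right hy
  | mul x y _ _ hx hy => rw [map_mul]; exact hx.mul_right hy

theorem Qop_mul_x : Qop k * vRep k (gen 0) = vRep k (gen 4) ^ 2 := by
  rw [Qop, mul_assoc, xInv_mul, mul_one]

variable (k) in
/-- The lift of functions on the line. -/
noncomputable def lamLift : Line k →ₗ[k] Module.End k (V k) where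
  toFun f := Qop k * Polynomial.aeval (vRep k (gen 1)) f.divX
  map_add' f g := by rw [Polynomial.divX_add, map_add, mul_add]
  map_smul' c f := by
    rw [RingHom.id_apply, Polynomial.smul_eq_C_mul, Polynomial.divX_C_mul,
      ← Polynomial.smul_eq_C_mul, map_smul, mul_smul_comm]

theorem lamLift_monomial (c : k) (n : ℕ) :
    lamLift k (c • Polynomial.X ^ (n + 1)) = c • (Qop k * vRep k (gen 1) ^ n) := by
  rw [map_smul]
  congr 1
  show Qop k * _ = _
  rw [Polynomial.divX_X_pow, if_neg (Nat.succ_ne_zero n), Nat.add_sub_cancel]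
  simp

theorem evalLine_gen (i : Fin 5) :
    evalLine (gen i : Weyl k) = (pointGen (k := k) 0 i).fst := by
  rw [← fst_pointRep 0, pointRep_gen]

/-- The main local computation. -/
theorem local_lift {d : ℤ × ℤ} (h2 : d.2 ≤ 0) {φ : Weyl k} (hφ : φ ∈ Piece k d) {e : ℤ}
    {f : Line k} (hf : f ∈ LineDeg k (e + 2)) (he : f ≠ 0 → -1 ≤ e) :
    (∃ α ∈ Piece k (d.1 + e, d.2 + 2),
        vRep k α = vRep k φ * lamLift k f - lamLift k (evalLine φ * f)) ∧
      ∃ α ∈ Piece k (d.1 + e, d.2 + 2),
        vRep k α = lamLift k f * vRep k φ - lamLift k (f * evalLine φ) := by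
  by_cases hf0 : f = 0
  · subst hf0
    exact ⟨⟨0, zero_mem _, by simp⟩, ⟨0, zero_mem _, by simp⟩⟩
  have he' := he hf0
  by_cases hneg : d.2 < 0
  · obtain rfl := piece_eq_zero_of_neg hneg hφ
    exact ⟨⟨0, zero_mem _, by simp⟩, ⟨0, zero_mem _, by simp⟩⟩
  by_cases hA : d.1 < 0
  · obtain rfl := piece_zero_eq_zero hA (by omega) hφ
    exact ⟨⟨0, zero_mem _, by simp⟩, ⟨0, zero_mem _, by simp⟩⟩
  obtain ⟨A, hA'⟩ := Int.eq_ofNat_of_zero_le (not_lt.1 hA)
  have hd : d = ((A : ℤ), 0) := Prod.ext hA' (by simp only []; omega)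
  subst hd
  obtain ⟨ψ, hψ, c, rfl⟩ := piece_line A hφ
  obtain ⟨n, hn⟩ : ∃ n : ℕ, e + 2 = ((n + 1 : ℕ) : ℤ) := ⟨(e + 1).toNat, by omega⟩
  rw [LineDeg, if_pos (by omega), show (e + 2).toNat = n + 1 by omega] at hf
  obtain ⟨b, rfl⟩ := Submodule.mem_span_singleton.1 hf
  have hev : evalLine (gen 0 * ψ + c • gen 1 ^ A) = c • (Polynomial.X : Line k) ^ A := by
    simp [evalLine_gen, pointGen]
  have hx2n : (gen 1 : Weyl k) ^ n ∈ Piece k ((n : ℤ), 0) := by
    have := gen_pow_mul_mem_piece (one_mem_piece (k := k)) 1 n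
    simpa [wt] using this
  have hh2 : (gen 4 : Weyl k) ^ 2 ∈ Piece k (0, 2) := by
    have := gen_pow_mul_mem_piece (one_mem_piece (k := k)) 4 2
    simpa [wt] using this
  have hl : lamLift k ((c • (Polynomial.X : Line k) ^ A) * (b • Polynomial.X ^ (n + 1))) =
      (c * b) • (Qop k * vRep k (gen 1) ^ (A + n)) := by
    rw [smul_mul_smul_comm, ← pow_add, show A + (n + 1) = A + n + 1 by omega, lamLift_monomial]
  have hq := Qop_comm (k := k) (gen 1)
  constructor
  · refine ⟨b • (gen 4 ^ 2 * (ψ * gen 1 ^ n)), Submodule.smul_mem _ _ ?_, ?_⟩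
    · have := mul_mem_piece hh2 (mul_mem_piece hψ hx2n)
      convert this using 2
      simp only [Prod.mk_add_mk, Prod.mk.injEq]
      omega
    · rw [hev, hl, lamLift_monomial]
      simp only [map_add, map_smul, map_mul, map_pow, add_mul, mul_smul_comm, smul_mul_assoc,
        smul_add, smul_smul]
      have e1 : vRep k (gen 0) * vRep k ψ * (Qop k * vRep k (gen 1) ^ n) =
          vRep k (gen 4) ^ 2 * (vRep k ψ * vRep k (gen 1) ^ n) := by
        rw [← mul_assoc, ← map_mul, ← (Qop_comm (gen 0 * ψ)).eq, map_mul, ← mul_assoc,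
          Qop_mul_x]
        simp only [mul_assoc]
      have e2 : vRep k (gen 1) ^ A * (Qop k * vRep k (gen 1) ^ n) =
          Qop k * vRep k (gen 1) ^ (A + n) := by
        rw [← mul_assoc, ← (hq.pow_right A).eq, mul_assoc, ← pow_add]
      rw [e1, e2, mul_comm b c]
      abel
  · refine ⟨b • (gen 4 ^ 2 * (gen 1 ^ n * ψ)), Submodule.smul_mem _ _ ?_, ?_⟩
    · have := mul_mem_piece hh2 (mul_mem_piece hx2n hψ)
      convert this using 2
      simp only [Prod.mk_add_mk, Prod.mk.injEq]
      omega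
    · rw [hev, mul_comm, hl, lamLift_monomial]
      simp only [map_add, map_smul, map_mul, map_pow, mul_add, mul_smul_comm, smul_mul_assoc,
        smul_add, smul_smul]
      have hc : vRep k (gen 1) ^ n * vRep k (gen 0) = vRep k (gen 0) * vRep k (gen 1) ^ n := by
        refine (Commute.pow_left ?_ n).eq
        show _ * _ = _ * _
        rw [← map_mul, ← gen_x_comm, map_mul]
      have e1 : Qop k * vRep k (gen 1) ^ n * (vRep k (gen 0) * vRep k ψ) =
          vRep k (gen 4) ^ 2 * (vRep k (gen 1) ^ n * vRep k ψ) := by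
        rw [← mul_assoc, mul_assoc (Qop k), hc, ← mul_assoc, Qop_mul_x, mul_assoc]
      have e2 : Qop k * vRep k (gen 1) ^ n * vRep k (gen 1) ^ A =
          Qop k * vRep k (gen 1) ^ (A + n) := by
        rw [mul_assoc, ← pow_add, add_comm]
      rw [e1, e2]
      abel

section matrices

variable {I J L T : Type*}

/-- The derivation applied entrywise. -/
noncomputable def tauM (l : Fin 2) (M : Matrix I J (Weyl k)) : Matrix I J (Line k) :=
  M.map (slope l)

/-- Evaluation entrywise. -/
noncomputable def piM (M : Matrix I J (Weyl k)) : Matrix I J (Line k) := M.map evalLine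

variable [Fintype J] [Fintype L]

/-- The cocycle with values in functions on the line. -/
noncomputable def Xi (M : Matrix I J (Weyl k)) (N : Matrix J L (Weyl k)) : Matrix I L (Line k) :=
  tauM 1 M * tauM 0 N

/-- The lifted cocycle. -/
noncomputable def xiT (M : Matrix I J (Weyl k)) (N : Matrix J L (Weyl k)) :
    Matrix I L (Module.End k (V k)) :=
  (Xi M N).map (lamLift k)

theorem tauM_mul (l : Fin 2) (M : Matrix I J (Weyl k)) (N : Matrix J L (Weyl k)) :
    tauM l (M * N) = piM M * tauM l N + tauM l M * piM N := by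
  refine Matrix.ext fun i j => ?_
  simp only [tauM, piM, Matrix.map_apply, Matrix.mul_apply, Matrix.add_apply, map_sum, slope_mul,
    Finset.sum_add_distrib]

theorem Xi_cocycle (A : Matrix I J (Weyl k)) (B : Matrix J L (Weyl k))
    (C : Matrix L T (Weyl k)) [Fintype T] :
    piM A * Xi B C - Xi (A * B) C + Xi A (B * C) - Xi A B * piM C = 0 := by
  simp only [Xi, tauM_mul, Matrix.mul_add, Matrix.add_mul, Matrix.mul_assoc]
  abel

theorem Xi_degree {u : I → ℤ × ℤ} {v : J → ℤ × ℤ} {w : L → ℤ × ℤ} {M : Matrix I J (Weyl k)}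
    {N : Matrix J L (Weyl k)} (hM : M ∈ Graded k u v) (hN : N ∈ Graded k v w) (i : I) (l : L) :
    Xi M N i l ∈ LineDeg k ((u i - w l).1 + 2) ∧ ((u i - w l).2 ≠ 2 → Xi M N i l = 0) := by
  simp only [Xi, Matrix.mul_apply, tauM, Matrix.map_apply]
  have hM' := fun j => (point_degree (hM i j)).2 1
  have hN' := fun j => (point_degree (hN j l)).2 0
  refine ⟨sum_mem fun j _ => ?_, fun h => Finset.sum_eq_zero fun j _ => ?_⟩
  · have e : (u i - w l).1 + 2 = ((u i - v j).1 + 1) + ((v j - w l).1 + 1) := by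
      simp only [Prod.fst_sub]; ring
    rw [e]
    exact mul_mem_lineDeg (hM' j).1 (hN' j).1
  · by_cases h1 : (u i - v j).2 = 1
    · rw [(hN' j).2 (by simp only [Prod.snd_sub] at h1 h ⊢; omega), mul_zero]
    · rw [(hM' j).2 h1, zero_mul]
where
  mul_mem_lineDeg {a b : ℤ} {f g : Line k} (hf : f ∈ LineDeg k a) (hg : g ∈ LineDeg k b) :
      f * g ∈ LineDeg k (a + b) := by
    unfold LineDeg at *
    split_ifs at hf hg with ha hb
    · obtain ⟨c, rfl⟩ := Submodule.mem_span_singleton.1 hf
      obtain ⟨d, rfl⟩ := Submodule.mem_span_singleton.1 hg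
      rw [if_pos (by omega), smul_mul_smul_comm, ← pow_add]
      exact Submodule.smul_mem _ _ (by rw [show (a + b).toNat = a.toNat + b.toNat by omega];
                                       exact Submodule.mem_span_singleton_self _)
    · rw [(Submodule.mem_bot k).1 hg, mul_zero]; exact zero_mem _
    all_goals rw [(Submodule.mem_bot k).1 hf, zero_mul]; exact zero_mem _

variable (k) in
/-- The image of homogeneous matrices. -/
noncomputable def ImgV {I J : Type*} (u : I → ℤ × ℤ) (z : J → ℤ × ℤ) :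
    Submodule k (Matrix I J (Module.End k (V k))) :=
  (Graded k u z).map (LinearMap.mapMatrix (vRep k).toLinearMap)

theorem mem_imgV {I J : Type*} {u : I → ℤ × ℤ} {z : J → ℤ × ℤ}
    {M : Matrix I J (Module.End k (V k))} :
    M ∈ ImgV k u z ↔ ∀ i j, ∃ α ∈ Piece k (u i - z j), vRep k α = M i j := by
  constructor
  · rintro ⟨a, ha, rfl⟩ i j
    exact ⟨a i j, ha i j, rfl⟩
  · intro h
    choose a ha ha' using h
    exact ⟨Matrix.of a, ha, Matrix.ext ha'⟩

theorem cocycle_lift [Fintype T] {u : I → ℤ × ℤ} {v : J → ℤ × ℤ} {w : L → ℤ × ℤ} {z : T → ℤ × ℤ}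
    (hu : ∀ i, (u i).2 ≤ 2) (hz : ∀ l, 0 ≤ (z l).2)
    {A : Matrix I J (Weyl k)} {B : Matrix J L (Weyl k)} {C : Matrix L T (Weyl k)}
    (hA : A ∈ Graded k u v) (hB : B ∈ Graded k v w) (hC : C ∈ Graded k w z)
    (hAB : ∀ i l, Xi A B i l ≠ 0 → -1 ≤ (u i - w l).1)
    (hBC : ∀ j t, Xi B C j t ≠ 0 → -1 ≤ (v j - z t).1) :
    A.map (vRep k) * xiT B C - xiT (A * B) C + xiT A (B * C) - xiT A B * C.map (vRep k) ∈
      ImgV k u z := by
  have h0 : (piM A * Xi B C - Xi (A * B) C + Xi A (B * C) - Xi A B * piM C).map (lamLift k) =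
      0 := by
    rw [Xi_cocycle]
    ext1 i j
    simp
  have key : A.map (vRep k) * xiT B C - xiT (A * B) C + xiT A (B * C) -
      xiT A B * C.map (vRep k) =
      (A.map (vRep k) * xiT B C - (piM A * Xi B C).map (lamLift k)) -
        (xiT A B * C.map (vRep k) - (Xi A B * piM C).map (lamLift k)) := by
    rw [Matrix.map_sub _ (map_sub _), Matrix.map_add _ (map_add _), Matrix.map_sub _ (map_sub _)]
      at h0
    rw [← sub_eq_zero]
    rw [← h0]
    simp only [xiT]
    abel
  rw [key]
  refine sub_mem (mem_imgV.2 fun i t => ?_) (mem_imgV.2 fun i t => ?_)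
  · simp only [Matrix.sub_apply, Matrix.mul_apply, Matrix.map_apply, map_sum,
      ← Finset.sum_sub_distrib, piM, xiT]
    suffices h : ∀ j, ∃ α ∈ Piece k (u i - z t), vRep k α =
        vRep k (A i j) * lamLift k (Xi B C j t) - lamLift k (evalLine (A i j) * Xi B C j t) by
      choose α hα hα' using h
      exact ⟨∑ j, α j, sum_mem fun j _ => hα j, by simp only [map_sum, hα']⟩
    intro j
    obtain ⟨hd, hz0⟩ := Xi_degree hB hC j t
    by_cases hd2 : (v j - z t).2 = 2
    · have := hu i; have := hz t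
      obtain ⟨α, hα, hα'⟩ := (local_lift (by simp only [Prod.snd_sub] at hd2 ⊢; omega)
        (hA i j) hd (hBC j t)).1
      refine ⟨α, ?_, hα'⟩
      convert hα using 2
      ext <;> simp only [Prod.fst_sub, Prod.snd_sub] at hd2 ⊢ <;> omega
    · exact ⟨0, zero_mem _, by simp [hz0 hd2]⟩
  · simp only [Matrix.sub_apply, Matrix.mul_apply, Matrix.map_apply, map_sum,
      ← Finset.sum_sub_distrib, piM, xiT]
    suffices h : ∀ l, ∃ α ∈ Piece k (u i - z t), vRep k α =
        lamLift k (Xi A B i l) * vRep k (C l t) - lamLift k (Xi A B i l * evalLine (C l t)) by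
      choose α hα hα' using h
      exact ⟨∑ l, α l, sum_mem fun l _ => hα l, by simp only [map_sum, hα']⟩
    intro l
    obtain ⟨hd, hz0⟩ := Xi_degree hA hB i l
    by_cases hd2 : (u i - w l).2 = 2
    · have := hu i; have := hz t
      obtain ⟨α, hα, hα'⟩ := (local_lift (by simp only [Prod.snd_sub] at hd2 ⊢; omega)
        (hC l t) hd (hAB i l)).2
      refine ⟨α, ?_, hα'⟩
      convert hα using 2
      ext <;> simp only [Prod.fst_sub, Prod.snd_sub] at hd2 ⊢ <;> omega
    · exact ⟨0, zero_mem _, by simp [hz0 hd2]⟩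

end matrices

theorem Xi_alg_vanish {A B : Matrix Ix Ix (Weyl k)} (hA : A ∈ ALG k) (hB : B ∈ ALG k) (i l : Ix)
    (h : Xi A B i l ≠ 0) : -1 ≤ (tgt i - tgt l).1 := by
  by_contra hc
  apply h
  obtain ⟨w, p⟩ := i; obtain ⟨u, q⟩ := l
  have := pos_bounds p; have := pos_bounds q
  simp only [tgt, Prod.fst_sub, Prod.fst_add] at hc
  fin_cases w <;> fin_cases u <;> simp at hc <;> try omega
  simp only [Xi, Matrix.mul_apply, tauM, Matrix.map_apply]
  refine Finset.sum_eq_zero fun j _ => ?_
  obtain ⟨y, r⟩ := j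
  fin_cases y
  · simp [((commute_shift_iff B).1 hB.2).1 r q]
  · simp [((commute_shift_iff A).1 hA.2).1 p r]

end Vale.Agent.P195.CE
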