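import Vale.Agent.P195.CE.CxRows

/-!
# Exactness of the Spencer complex

Right multiplication by `x₁, x₂` becomes plain multiplication after the linear change of symbols
`twMap (-1)`, right multiplication by `d₁, d₂` is plain multiplication; the two short exact
families are then combined by a diagram chase.
-/

namespace Vale.Agent.P195.CE

open MvPolynomial Matrix

variable {k : Type} [Field k] {m : ℕ}

/-! ### The complex -/

/-- Generators, cell by cell. -/
def genEquiv (m : ℕ) : Gen m ≃ (Fin (m + 1) ⊕ (Fin 2 × Fin (m + 2))) ⊕ (Fin (m + 3) ⊕ Fin m) ⊕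
    ((Fin 2 × Fin (m + 1)) ⊕ Fin (m + 2)) where
  toFun
    | .A0 i => .inl (.inl i)
    | .A1 l i => .inl (.inr (l, i))
    | .A2 i => .inr (.inl (.inl i))
    | .C0 i => .inr (.inl (.inr i))
    | .C1 l i => .inr (.inr (.inl (l, i)))
    | .C2 i => .inr (.inr (.inr i))
  invFun
    | .inl (.inl i) => .A0 i
    | .inl (.inr (l, i)) => .A1 l i
    | .inr (.inl (.inl i)) => .A2 i
    | .inr (.inl (.inr i)) => .C0 i
    | .inr (.inr (.inl (l, i))) => .C1 l i
    | .inr (.inr (.inr i)) => .C2 i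
  left_inv g := by cases g <;> rfl
  right_inv g := by rcases g with (_ | ⟨_, _⟩) | (_ | _) | (⟨_, _⟩ | _) <;> rfl

theorem sum_gen {M : Type*} [AddCommMonoid M] (F : Gen m → M) :
    ∑ g, F g = (∑ i, F (.A0 i)) + (∑ i, F (.A1 0 i)) + (∑ i, F (.A1 1 i)) + (∑ i, F (.A2 i)) +
      (∑ i, F (.C0 i)) + (∑ i, F (.C1 0 i)) + (∑ i, F (.C1 1 i)) + (∑ i, F (.C2 i)) := by
  rw [← (genEquiv m).symm.sum_comp]
  simp only [Fintype.sum_sum_type, Fintype.sum_prod_type, Fin.sum_univ_two]
  simp only [genEquiv, Equiv.coe_fn_symm_mk]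
  abel

section rows

variable (r : Gen m → Weyl k)

theorem vecMul_A0 (i' : Fin (m + 1)) : vecMul r (Kmat m) (.A0 i') =
    dAV 0 (m + 1) (fun i => r (.A1 0 i)) i' + dAV 1 (m + 1) (fun i => r (.A1 1 i)) i' +
      kapV m (fun i => r (.C0 i)) i' := by
  simp [vecMul, dotProduct, sum_gen, Kmat, dAV, kapV]

theorem vecMul_A1_zero (i' : Fin (m + 2)) : vecMul r (Kmat m) (.A1 0 i') =
    dAV 1 (m + 2) (fun i => r (.A2 i)) i' - kapV (m + 1) (fun i => r (.C1 0 i)) i' := by
  simp [vecMul, dotProduct, sum_gen, Kmat, dAV, kapV, wsub_eq_add_neg, wsum_neg]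

theorem vecMul_A1_one (i' : Fin (m + 2)) : vecMul r (Kmat m) (.A1 1 i') =
    -dAV 0 (m + 2) (fun i => r (.A2 i)) i' - kapV (m + 1) (fun i => r (.C1 1 i)) i' := by
  simp [vecMul, dotProduct, sum_gen, Kmat, dAV, kapV, wsub_eq_add_neg, wsum_neg]

theorem vecMul_A2 (i' : Fin (m + 3)) :
    vecMul r (Kmat m) (.A2 i') = kapV (m + 2) (fun i => r (.C2 i)) i' := by
  simp [vecMul, dotProduct, sum_gen, Kmat, kapV]

theorem vecMul_C0 (i' : Fin m) : vecMul r (Kmat m) (.C0 i') =
    dCV 0 m (fun i => r (.C1 0 i)) i' + dCV 1 m (fun i => r (.C1 1 i)) i' := by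
  simp [vecMul, dotProduct, sum_gen, Kmat, dCV]

theorem vecMul_C1_zero (i' : Fin (m + 1)) :
    vecMul r (Kmat m) (.C1 0 i') = dCV 1 (m + 1) (fun i => r (.C2 i)) i' := by
  simp [vecMul, dotProduct, sum_gen, Kmat, dCV]

theorem vecMul_C1_one (i' : Fin (m + 1)) :
    vecMul r (Kmat m) (.C1 1 i') = -dCV 0 (m + 1) (fun i => r (.C2 i)) i' := by
  simp [vecMul, dotProduct, sum_gen, Kmat, dCV, wsum_neg]

theorem vecMul_C2 (i' : Fin (m + 2)) : vecMul r (Kmat m) (.C2 i') = 0 := by
  simp [vecMul, dotProduct, sum_gen, Kmat]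

end rows

theorem Kmat_sq [CharZero k] : Kmat (k := k) m * Kmat m = 0 := by
  refine Matrix.ext fun g g'' => ?_
  rw [Matrix.mul_apply, sum_gen, Matrix.zero_apply]
  rcases g with i | ⟨l, i⟩ | i | i | ⟨l, i⟩ | i <;>
    rcases g'' with j | ⟨l', j⟩ | j | j | ⟨l', j⟩ | j <;>
    simp only [Kmat, mul_zero, zero_mul, Finset.sum_const_zero, add_zero, zero_add, Fin.isValue,
      ↓reduceIte, one_ne_zero, zero_ne_one]
  · simp only [wneg_mul, wsum_neg]
    rw [dA_comm m (Nat.lt_succ_iff.1 i.2), wadd_neg_cancel]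
  · have h := dC_kap (k := k) l m (Nat.lt_succ_iff.1 i.2) (j : ℕ)
    fin_cases l <;> simp at h ⊢ <;> simp [h]
  · have h0 := dC_kap (k := k) 1 (m + 1) (Nat.lt_succ_iff.1 i.2) (j : ℕ)
    have h1 := dC_kap (k := k) 0 (m + 1) (Nat.lt_succ_iff.1 i.2) (j : ℕ)
    fin_cases l' <;> simp at h0 h1 ⊢ <;> simp [h0, h1]
  · simp only [wneg_mul, wsum_neg]
    rw [dC_comm m (Nat.lt_succ_iff.1 i.2), wadd_neg_cancel]

theorem Kmat_support (g g' : Gen m) (h : g.deg ≠ g'.deg + 1) : Kmat (k := k) m g g' = 0 := by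
  cases g <;> cases g' <;> simp_all [Kmat, Gen.deg]

theorem Kmat_mem (g g' : Gen m) : Kmat (k := k) m g g' ∈ Piece k (g.vtx - g'.vtx) := by
  cases g <;> cases g' <;> simp only [Kmat, zero_mem]
  · exact mem_piece_of_eq (dA_mem _ _ _ _) (by simp [Gen.vtx])
  · split_ifs
    · exact mem_piece_of_eq (dA_mem _ _ _ _) (by simp [Gen.vtx])
    · exact mem_piece_of_eq (piece_neg_mem (dA_mem _ _ _ _)) (by simp [Gen.vtx])
  · exact mem_piece_of_eq (kap_mem _ _) (by simp [Gen.vtx])
  · split_ifs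
    · exact mem_piece_of_eq (piece_neg_mem (kap_mem _ _)) (by simp [Gen.vtx])
    · exact zero_mem _
  · exact mem_piece_of_eq (dC_mem _ _ _ _) (by simp [Gen.vtx])
  · exact mem_piece_of_eq (kap_mem _ _) (by simp [Gen.vtx])
  · split_ifs
    · exact mem_piece_of_eq (dC_mem _ _ _ _) (by simp [Gen.vtx])
    · exact mem_piece_of_eq (piece_neg_mem (dC_mem _ _ _ _)) (by simp [Gen.vtx])

theorem polRep_mono (n i : ℕ) : polRep k (mono n i) 1 = X 0 ^ i * X 1 ^ (n - i) := by
  simp [mono, polRep, polGen, pmul, LinearMap.pow_mulLeft]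

theorem aug_eq (r : Gen m → Weyl k) : aug r = polRep k (piV m fun i => r (.A0 i)) 1 := by
  simp [aug, sum_gen, augMon, piV, map_sum, LinearMap.sum_apply, polRep_mono]

theorem aug_vecMul [CharZero k] (r : Gen m → Weyl k) : aug (Matrix.vecMul r (Kmat m)) = 0 := by
  have hsplit : piV m (fun i => vecMul r (Kmat m) (.A0 i)) =
      piV m (dAV 0 (m + 1) fun i => r (.A1 0 i)) + piV m (dAV 1 (m + 1) fun i => r (.A1 1 i)) +
        piV m (kapV m fun i => r (.C0 i)) := by
    simp [piV, vecMul_A0, add_mul, Finset.sum_add_distrib]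
  rw [aug_eq, hsplit, piV_kapV, piV_dAV, piV_dAV]
  simp [polRep, polGen]

theorem aug_surj [CharZero k] (t : ℤ × ℤ) (h1 : 0 ≤ t.1) (h2 : 0 ≤ t.2) (f : Pol k)
    (hf : MvPolynomial.IsHomogeneous f (m + t.1.toNat)) :
    ∃ r : Gen m → Weyl k, IsRow t 0 r ∧ aug r = f := by
  let S : Sym k := rename (Fin.castLE (by norm_num : 2 ≤ 5)) f * X 4 ^ t.2.toNat
  have hS : S ∈ Deg k (t + ((m : ℤ), 0)) := by
    have h : rename (Fin.castLE (by norm_num : 2 ≤ 5)) f ∈
        Deg k ((m + t.1.toNat) • ((1 : ℤ), (0 : ℤ))) := by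
      intro s hs
      obtain ⟨s', rfl, hs'⟩ := coeff_rename_ne_zero _ _ _ hs
      have hd : s' 0 + s' 1 = m + t.1.toNat := by
        have := hf hs'
        simpa [Finsupp.weight_apply, Finsupp.sum_fintype, Fin.sum_univ_two] using this
      rw [Finsupp.weight_apply, Finsupp.sum_mapDomain_index (by simp) (by simp [add_smul]),
        Finsupp.sum_fintype _ _ (by simp), Fin.sum_univ_two, ← hd]
      simp [wt, Prod.ext_iff]
    have := mul_mem_deg h (IsWeightedHomogeneous.pow (X_mem_deg (k := k) 4) t.2.toNat)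
    convert this using 2
    simp [wt, Prod.ext_iff]
    omega
  have hS' : ofSym S ∈ Piece k (t + ((m : ℤ), 0)) := by simpa [mem_piece] using hS
  obtain ⟨g, hg, hgφ⟩ := piV_surj m t h1 _ hS'
  refine ⟨fun | .A0 i => g i | _ => 0, ⟨fun x hx => ?_, fun x => ?_⟩, ?_⟩
  · cases x <;> simp [Gen.deg] at hx ⊢
  · cases x with
    | A0 i => exact mem_piece_of_eq (hg i) (by simp [Gen.vtx, Prod.ext_iff])
    | _ => exact zero_mem _
  · rw [aug_eq]
    show polRep k (piV m g) 1 = f
    rw [hgφ, polRep_one, sym_ofSym]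
    simp only [S, evP, map_mul, map_pow, aeval_X, aeval_rename]
    have : (![X 0, X 1, 0, 0, 1] : Fin 5 → Pol k) ∘ Fin.castLE (by norm_num : 2 ≤ 5) = X := by
      funext i; fin_cases i <;> rfl
    rw [this, aeval_X_left_apply]
    simp

theorem exact_aug [CharZero k] (t : ℤ × ℤ) (h1 : 0 ≤ t.1) (r : Gen m → Weyl k)
    (hr : IsRow t 0 r) (h : aug r = 0) :
    ∃ r', IsRow t 1 r' ∧ Matrix.vecMul r' (Kmat m) = r := by
  obtain ⟨hz, hmem⟩ := hr
  let a : Fin (m + 1) → Weyl k := fun i => r (.A0 i)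
  have ha : ∀ i, a i ∈ Piece k t := fun i => mem_piece_of_eq (hmem _) (by simp [Gen.vtx])
  rw [aug_eq] at h
  obtain ⟨f, g, hf, hg, hfg⟩ := aug_kernel (piV_mem ha) h
  have he : t + ((m : ℤ), 0) + (1, -1) = (t - (0, 1)) + (((m + 1 : ℕ) : ℤ), 0) := by
    simp [Prod.ext_iff]; omega
  obtain ⟨F, hF, rfl⟩ := piV_surj (m + 1) (t - (0, 1)) (by simpa using h1) f
    (mem_piece_of_eq hf he)
  obtain ⟨G, hG, rfl⟩ := piV_surj (m + 1) (t - (0, 1)) (by simpa using h1) g
    (mem_piece_of_eq hg he)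
  let b : Fin (m + 1) → Weyl k := a - dAV 0 (m + 1) F - dAV 1 (m + 1) G
  have hb : piV m b = 0 := by
    have : piV m b = piV m a - piV m (dAV 0 (m + 1) F) - piV m (dAV 1 (m + 1) G) := by
      simp [b, piV, wsub_mul, wsum_sub]
    rw [this, piV_dAV, piV_dAV, hfg]
    simp only [↓reduceIte, one_ne_zero, Fin.isValue]
    abel
  have hbm : ∀ i, b i ∈ Piece k t := fun i => piece_sub_mem (piece_sub_mem (ha i)
    (mem_piece_of_eq (dAV_mem hF i) (by simp)))
    (mem_piece_of_eq (dAV_mem hG i) (by simp))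
  obtain ⟨c, hc, hcb⟩ := piV_ker_deg hbm hb
  let r' : Gen m → Weyl k := fun
    | .A1 l i => if l = 0 then F i else G i
    | .C0 i => c i
    | _ => 0
  refine ⟨r', ⟨fun x hx => ?_, fun x => ?_⟩, funext fun x => ?_⟩
  · cases x <;> simp [Gen.deg, r'] at hx ⊢
  · cases x <;> simp only [r', Gen.vtx] <;> first
      | exact zero_mem _
      | (split_ifs <;> first | exact hF _ | exact hG _)
      | exact hc _
  · cases x with
    | A0 i =>
      rw [vecMul_A0]
      simp only [r', ↓reduceIte, one_ne_zero, Fin.isValue]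
      rw [hcb]
      simp [b, a]
      all_goals abel
    | A1 l i =>
      rw [hz _ (by simp [Gen.deg])]
      fin_cases l
      · exact (vecMul_A1_zero r' i).trans (by simp [r', dAV, kapV])
      · exact (vecMul_A1_one r' i).trans (by simp [r', dAV, kapV])
    | A2 i => rw [hz _ (by simp [Gen.deg]), vecMul_A2]; simp [r', kapV]
    | C0 i => rw [hz _ (by simp [Gen.deg]), vecMul_C0]; simp [r', dCV]
    | C1 l i =>
      rw [hz _ (by simp [Gen.deg])]
      fin_cases l
      · exact (vecMul_C1_zero r' i).trans (by simp [r', dCV])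
      · exact (vecMul_C1_one r' i).trans (by simp [r', dCV])
    | C2 i => rw [hz _ (by simp [Gen.deg]), vecMul_C2]

theorem exact_deg [CharZero k] (t : ℤ × ℤ) (h1 : 0 ≤ t.1) (p : ℕ) (hp : 1 ≤ p)
    (r : Gen m → Weyl k) (hr : IsRow t p r) (h : Matrix.vecMul r (Kmat m) = 0) :
    ∃ r', IsRow t (p + 1) r' ∧ Matrix.vecMul r' (Kmat m) = r := by
  obtain ⟨hz, hmem⟩ := hr
  rcases p with _ | _ | _ | p
  · omega
  · let a0 : Fin (m + 2) → Weyl k := fun i => r (.A1 0 i)
    let a1 : Fin (m + 2) → Weyl k := fun i => r (.A1 1 i)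
    let c : Fin m → Weyl k := fun i => r (.C0 i)
    have hK : dAV 0 (m + 1) a0 + dAV 1 (m + 1) a1 + kapV m c = 0 := funext fun i => by
      have := congrFun h (.A0 i)
      rw [vecMul_A0] at this
      exact this
    have hφ : piV (m + 1) a0 * gen 2 + piV (m + 1) a1 * gen 3 = 0 := by
      have h0 : piV m (dAV 0 (m + 1) a0 + dAV 1 (m + 1) a1 + kapV m c) = 0 := by
        rw [hK]; simp [piV]
      have e : piV m (dAV 0 (m + 1) a0 + dAV 1 (m + 1) a1 + kapV m c) =
          piV m (dAV 0 (m + 1) a0) + piV m (dAV 1 (m + 1) a1) + piV m (kapV m c) := by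
        simp [piV, add_mul, Finset.sum_add_distrib]
      rw [e, piV_dAV, piV_dAV, piV_kapV, add_zero] at h0
      simpa using h0
    have ha0 : ∀ i, a0 i ∈ Piece k (t - (0, 1)) := fun i => hmem (.A1 0 i)
    have ha1 : ∀ i, a1 i ∈ Piece k (t - (0, 1)) := fun i => hmem (.A1 1 i)
    obtain ⟨ψ, hψ, h20, h21⟩ := d_common (piV_mem ha0) (piV_mem ha1) hφ
    obtain ⟨b, hb, rfl⟩ := piV_surj (m + 2) (t - (0, 2)) (by simpa using h1) ψ
      (mem_piece_of_eq hψ (by simp [Prod.ext_iff]; omega))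
    have hsub : ∀ (f g : Fin (m + 2) → Weyl k),
        piV (m + 1) (f - g) = piV (m + 1) f - piV (m + 1) g := fun f g => by
      simp [piV, wsub_mul, wsum_sub]
    have hz0 : piV (m + 1) (dAV 1 (m + 2) b - a0) = 0 := by
      rw [hsub, piV_dAV, h20]; simp
    have hz1 : piV (m + 1) (-dAV 0 (m + 2) b - a1) = 0 := by
      have hneg : piV (m + 1) (-dAV 0 (m + 2) b) = -piV (m + 1) (dAV 0 (m + 2) b) := by
        simp [piV, wsum_neg]
      rw [hsub, hneg, piV_dAV, h21]; simp
    have hdm : ∀ l i, dAV l (m + 2) b i ∈ Piece k (t - (0, 1)) := fun l i =>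
      mem_piece_of_eq (dAV_mem hb i) (by simp [Prod.ext_iff]; omega)
    obtain ⟨e0, he0, hk0⟩ := piV_ker_deg (f := dAV 1 (m + 2) b - a0) (u := t - (0, 1))
      (fun i => piece_sub_mem (hdm 1 i) (ha0 i)) hz0
    obtain ⟨e1, he1, hk1⟩ := piV_ker_deg (f := -dAV 0 (m + 2) b - a1) (u := t - (0, 1))
      (fun i => piece_sub_mem (piece_neg_mem (hdm 0 i)) (ha1 i)) hz1
    let r' : Gen m → Weyl k := fun
      | .A2 i => b i
      | .C1 l i => if l = 0 then e0 i else e1 i
      | _ => 0
    refine ⟨r', ⟨fun x hx => ?_, fun x => ?_⟩, funext fun x => ?_⟩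
    · cases x <;> simp [Gen.deg, r'] at hx ⊢
    · cases x with
      | A2 i => exact hb i
      | C1 l i =>
        simp only [r', Gen.vtx]
        split_ifs
        · exact mem_piece_of_eq (he0 i) (by simp [Prod.ext_iff])
        · exact mem_piece_of_eq (he1 i) (by simp [Prod.ext_iff])
      | _ => exact zero_mem _
    · cases x with
      | A0 i => rw [hz _ (by simp [Gen.deg]), vecMul_A0]; simp [r', dAV, kapV]
      | A1 l i =>
        fin_cases l
        · refine (vecMul_A1_zero r' i).trans ?_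
          simp only [r', ↓reduceIte, Fin.isValue]
          rw [hk0]
          simp only [Pi.sub_apply, a0]
          abel
        · refine (vecMul_A1_one r' i).trans ?_
          simp only [r', ↓reduceIte, one_ne_zero, Fin.isValue]
          rw [hk1]
          simp only [Pi.sub_apply, Pi.neg_apply, a1]
          abel
      | A2 i => rw [hz _ (by simp [Gen.deg]), vecMul_A2]; simp [r', kapV]
      | C0 i =>
        rw [vecMul_C0]
        simp only [r', ↓reduceIte, one_ne_zero, Fin.isValue]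
        have hk : kapV m (dCV 0 m e0 + dCV 1 m e1) = kapV m c := by
          rw [kapV_add, ← dAV_kapV, ← dAV_kapV, hk0, hk1, dAV_sub, dAV_sub, dAV_neg, dAV_comm]
          funext i
          have hKi : (dAV 0 (m + 1) a0 i + dAV 1 (m + 1) a1 i + kapV m c i) = 0 := congrFun hK i
          simp only [Pi.add_apply, Pi.sub_apply, Pi.neg_apply]
          rw [← wsub_eq_zero]
          conv_rhs => rw [← neg_zero (G := Weyl k), ← hKi]
          abel
        exact congrFun (kapV_inj hk) i
      | C1 l i =>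
        rw [hz _ (by simp [Gen.deg])]
        fin_cases l
        · exact (vecMul_C1_zero r' i).trans (by simp [r', dCV])
        · exact (vecMul_C1_one r' i).trans (by simp [r', dCV])
      | C2 i => rw [hz _ (by simp [Gen.deg]), vecMul_C2]
  · let b : Fin (m + 3) → Weyl k := fun i => r (.A2 i)
    let e0 : Fin (m + 1) → Weyl k := fun i => r (.C1 0 i)
    let e1 : Fin (m + 1) → Weyl k := fun i => r (.C1 1 i)
    have hk0 : dAV 1 (m + 2) b = kapV (m + 1) e0 := funext fun i => wsub_eq_zero.1 <| by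
      have := congrFun h (.A1 0 i)
      rwa [vecMul_A1_zero] at this
    have hk1 : -dAV 0 (m + 2) b = kapV (m + 1) e1 := funext fun i => wsub_eq_zero.1 <| by
      have := congrFun h (.A1 1 i)
      rwa [vecMul_A1_one] at this
    have hpb : piV (m + 2) b = 0 := by
      apply mul_d2_eq_zero
      have := congrArg (piV (m + 1)) hk0
      rw [piV_dAV, piV_kapV] at this
      simpa using this
    obtain ⟨g, hg, hgb⟩ := piV_ker_deg (f := b) (u := t - (0, 2))
      (fun i => hmem (.A2 i)) hpb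
    let r' : Gen m → Weyl k := fun
      | .C2 i => g i
      | _ => 0
    refine ⟨r', ⟨fun x hx => ?_, fun x => ?_⟩, funext fun x => ?_⟩
    · cases x <;> simp [Gen.deg, r'] at hx ⊢
    · cases x with
      | C2 i => exact mem_piece_of_eq (hg i) (by simp [Gen.vtx, Prod.ext_iff])
      | _ => exact zero_mem _
    · cases x with
      | A0 i => rw [hz _ (by simp [Gen.deg]), vecMul_A0]; simp [r', dAV, kapV]
      | A1 l i =>
        rw [hz _ (by simp [Gen.deg])]
        fin_cases l
        · exact (vecMul_A1_zero r' i).trans (by simp [r', dAV, kapV])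
        · exact (vecMul_A1_one r' i).trans (by simp [r', dAV, kapV])
      | A2 i => rw [vecMul_A2]; exact congrFun hgb i
      | C0 i => rw [hz _ (by simp [Gen.deg]), vecMul_C0]; simp [r', dCV]
      | C1 l i =>
        fin_cases l
        · refine (vecMul_C1_zero r' i).trans ?_
          have : dCV 1 (m + 1) g = e0 :=
            kapV_inj (by rw [← dAV_kapV, hgb, hk0])
          exact congrFun this i
        · refine (vecMul_C1_one r' i).trans ?_
          have : -dCV 0 (m + 1) g = e1 :=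
            kapV_inj (by rw [kapV_neg, ← dAV_kapV, hgb, hk1])
          exact congrFun this i
      | C2 i => rw [hz _ (by simp [Gen.deg]), vecMul_C2]
  · have hC2 : (fun i => r (.C2 i)) = 0 := kapV_injective (m + 2) _ <| funext fun i => by
      rw [← vecMul_A2, h]; rfl
    refine ⟨0, ⟨fun x _ => rfl, fun x => zero_mem _⟩, funext fun x => ?_⟩
    rw [Matrix.zero_vecMul, Pi.zero_apply]
    symm
    cases x <;> first
      | exact congrFun hC2 _
      | exact hz _ (by simp [Gen.deg])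

end Vale.Agent.P195.CE
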