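import Vale.Agent.P195.CE.CxSym
import Mathlib.Tactic.LinearCombination

/-!
# Row maps of the Spencer complex
-/

namespace Vale.Agent.P195.CE

open MvPolynomial Matrix

variable {k : Type} [Field k]

/-! ### The row maps -/

/-- `x₁^i x₂^(n-i)`. -/
noncomputable def mono (n i : ℕ) : Weyl k := gen 0 ^ i * gen 1 ^ (n - i)

/-- The map to the quotient cell. -/
noncomputable def piV (n : ℕ) (f : Fin (n + 1) → Weyl k) : Weyl k := ∑ i, f i * mono n i

/-- Horizontal row map. -/
noncomputable def kapV (n : ℕ) (c : Fin n → Weyl k) : Fin (n + 1) → Weyl k :=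
  fun i' => ∑ i, c i * kap i i'

/-- Vertical row map on `A` cells. -/
noncomputable def dAV (l : Fin 2) (n : ℕ) (f : Fin (n + 1) → Weyl k) : Fin n → Weyl k :=
  fun i' => ∑ i, f i * dA l n i i'

/-- Vertical row map on `C` cells. -/
noncomputable def dCV (l : Fin 2) (q : ℕ) (f : Fin (q + 1) → Weyl k) : Fin q → Weyl k :=
  fun i' => ∑ i, f i * dC l q i i'

theorem gen01_comm : Commute (gen (k := k) 0) (gen 1) := by
  refine sym_injective ?_
  simp [sym_mul_gen, rGen, mulOp, mul_comm]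

theorem mono_succ_x0 (n i : ℕ) : mono (k := k) (n + 1) (i + 1) = mono n i * gen 0 := by
  rw [mono, mono, Nat.add_sub_add_right, pow_succ, mul_assoc, mul_assoc,
    (gen01_comm.pow_right (n - i)).eq]

theorem mono_succ_x1 {n i : ℕ} (h : i ≤ n) : mono (k := k) (n + 1) i = mono n i * gen 1 := by
  rw [mono, mono, Nat.sub_add_comm h, pow_succ, mul_assoc]

theorem x0_mono (n i : ℕ) : gen (k := k) 0 * mono n i = mono (n + 1) (i + 1) := by
  rw [mono, mono, Nat.add_sub_add_right, ← mul_assoc, ← pow_succ']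

theorem x1_mono {n i : ℕ} (h : i ≤ n) : gen (k := k) 1 * mono n i = mono (n + 1) i := by
  rw [mono, mono, Nat.sub_add_comm h, pow_succ', ← mul_assoc, (gen01_comm.symm.pow_right i).eq,
    mul_assoc]

theorem mono_mem (n i : ℕ) (h : i ≤ n) : mono (k := k) n i ∈ Piece k ((n : ℤ), 0) := by
  have h1 := gen_pow_mul_mem_piece (gen_pow_mul_mem_piece (one_mem_piece (k := k)) 1 (n - i)) 0 i
  rw [mul_one] at h1
  refine mem_piece_of_eq h1 ?_
  simp [wt, Prod.ext_iff]
  omega

theorem kap_eq_mul (c : Weyl k) (i i' : ℕ) :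
    c * kap i i' = (if i' = i + 1 then c * gen 1 else 0) - (if i' = i then c * gen 0 else 0) := by
  simp [kap, wmul_sub, mul_ite]

theorem kapV_zero (n : ℕ) (c : Fin (n + 1) → Weyl k) :
    kapV (n + 1) c 0 = -(c 0 * gen 0) := by
  simp [kapV, Fin.sum_univ_succ, kap_eq_mul]

theorem kapV_succ (n : ℕ) (c : Fin (n + 1) → Weyl k) (i : Fin (n + 1)) :
    kapV (n + 1) c i.succ
      = (if (i : ℕ) = 0 then c 0 * gen 1 else 0) + kapV n (fun j => c j.succ) i := by
  rw [kapV, kapV, Fin.sum_univ_succ]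
  simp [kap_eq_mul]

theorem piV_kapV (n : ℕ) (c : Fin n → Weyl k) : piV n (kapV n c) = 0 := by
  induction n with
  | zero => simp [piV, kapV]
  | succ n ih =>
    rw [piV, Fin.sum_univ_succ]
    simp only [kapV_zero, Fin.val_zero, Fin.val_succ, kapV_succ, add_mul, Finset.sum_add_distrib]
    have h := ih fun j => c j.succ
    rw [piV] at h
    have e : ∑ i : Fin (n + 1), kapV n (fun j => c j.succ) i * mono (n + 1) ((i : ℕ) + 1)
        = (∑ i : Fin (n + 1), kapV n (fun j => c j.succ) i * mono n i) * gen 0 := by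
      simp only [Finset.sum_mul, mono_succ_x0, mul_assoc]
    rw [e, h, zero_mul, add_zero, Fin.sum_univ_succ]
    simp [← x1_mono (Nat.zero_le n), ← x0_mono, mul_assoc, neg_add_eq_sub]
    simp [mono]
    rw [← mul_assoc (gen 1) (gen 0), gen01_comm.symm.eq, mul_assoc, ← pow_succ', sub_self]

theorem kapV_injective : ∀ (n : ℕ) (c : Fin n → Weyl k), kapV n c = 0 → c = 0
  | 0, _, _ => funext fun i => i.elim0
  | n + 1, c, h => by
    have h0 := congrFun h 0
    rw [kapV_zero, Pi.zero_apply, wneg_eq_zero] at h0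
    have hc0 : c 0 = 0 := mul_x0_cancel (by rw [h0, zero_mul])
    have hs : kapV n (fun j => c j.succ) = 0 := funext fun i => by
      have := congrFun h i.succ
      simpa [kapV_succ, hc0] using this
    have := kapV_injective n _ hs
    funext i
    refine Fin.cases hc0 (fun j => congrFun this j) i

theorem kapV_sub (n : ℕ) (a b : Fin n → Weyl k) : kapV n (a - b) = kapV n a - kapV n b := by
  funext i; simp [kapV, wsub_mul, wsum_sub]

theorem kapV_neg (n : ℕ) (a : Fin n → Weyl k) : kapV n (-a) = -kapV n a := by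
  funext i; simp [kapV, wsum_neg]

theorem kapV_inj {n : ℕ} {a b : Fin n → Weyl k} (h : kapV n a = kapV n b) : a = b :=
  funext fun i => wsub_eq_zero.1 <| congrFun (kapV_injective n (a - b)
    (by rw [kapV_sub, h]; funext j; exact wsub_self _)) i

theorem piV_ker : ∀ (n : ℕ) (f : Fin (n + 1) → Weyl k), piV n f = 0 →
    ∃ c, kapV n c = f
  | 0, f, h => ⟨Fin.elim0, funext fun i => by
      have : f 0 = 0 := by simpa [piV, mono] using h
      obtain rfl : i = 0 := Fin.ext (by omega)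
      rw [this]
      simp [kapV]⟩
  | n + 1, f, h => by
    rw [piV, Fin.sum_univ_succ] at h
    simp only [Fin.val_zero, Fin.val_succ, mono_succ_x0, ← mul_assoc, ← Finset.sum_mul] at h
    obtain ⟨q, hq⟩ : ∃ q, f 0 = q * gen 0 := by
      refine x_common_pow (n + 1) (b := -∑ i : Fin (n + 1), f i.succ * mono n i) ?_
      rw [wneg_mul, weq_neg_iff]
      simpa [mono] using h
    let f' : Fin (n + 1) → Weyl k :=
      fun i => f i.succ - (if (i : ℕ) = 0 then -q * gen 1 else 0)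
    have h' : piV n f' = 0 := by
      apply mul_x0_cancel
      rw [zero_mul]
      have e : piV n f' =
          (∑ i : Fin (n + 1), f i.succ * mono n i) + q * gen 1 * mono n 0 := by
        simp [piV, f', wsub_mul, wsum_sub, ite_mul, Fin.sum_univ_succ]
      rw [e, add_mul, ← h, hq, add_comm]
      congr 1
      simp only [mul_assoc]
      congr 1
      simp only [mono, pow_zero, one_mul, Nat.sub_zero]
      rw [← mul_assoc, ← pow_succ', (gen01_comm.pow_right (n + 1)).eq]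
    obtain ⟨c, hc⟩ := piV_ker n f' h'
    refine ⟨Fin.cons (-q) c, funext fun i => ?_⟩
    refine Fin.cases ?_ (fun j => ?_) i
    · simp [kapV_zero, hq]
    · simp [kapV_succ, hc, f']

theorem proj_kapV {n : ℕ} (u : ℤ × ℤ) (c : Fin n → Weyl k) (i : Fin (n + 1)) :
    proj u (kapV n c i) = kapV n (fun j => proj (u - (1, 0)) (c j)) i := by
  simp only [kapV, map_sum, kap_eq_mul, proj_sub]
  refine Finset.sum_congr rfl fun j _ => ?_
  congr 1 <;> split_ifs <;> simp [proj_mul_gen (a := u - (1, 0)) _ _ (by simp [wt] :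
    u - (1, 0) + wt (0 : Fin 5) = u), proj_mul_gen (a := u - (1, 0)) _ _ (by simp [wt] :
    u - (1, 0) + wt (1 : Fin 5) = u)]

theorem piV_ker_deg {n : ℕ} {u : ℤ × ℤ} {f : Fin (n + 1) → Weyl k}
    (hf : ∀ i, f i ∈ Piece k u) (h : piV n f = 0) :
    ∃ c, (∀ i, c i ∈ Piece k (u - (1, 0))) ∧ kapV n c = f := by
  obtain ⟨c, hc⟩ := piV_ker n f h
  refine ⟨fun j => proj (u - (1, 0)) (c j), fun j => proj_mem _ _, funext fun i => ?_⟩
  rw [← proj_kapV, hc, proj_eq (hf i)]

theorem piV_mem {n : ℕ} {u : ℤ × ℤ} {f : Fin (n + 1) → Weyl k} (hf : ∀ i, f i ∈ Piece k u) :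
    piV n f ∈ Piece k (u + ((n : ℤ), 0)) :=
  sum_mem fun i _ => mul_mem_piece (hf i) (mono_mem n i (Nat.lt_succ_iff.1 i.2))

theorem piV_surj : ∀ (n : ℕ) (u : ℤ × ℤ), 0 ≤ u.1 → ∀ φ ∈ Piece k (u + ((n : ℤ), 0)),
    ∃ f : Fin (n + 1) → Weyl k, (∀ i, f i ∈ Piece k u) ∧ piV n f = φ
  | 0, u, _, φ, hφ => ⟨fun _ => φ, fun _ => mem_piece_of_eq hφ (by simp [Prod.ext_iff]),
      by simp [piV, mono]⟩
  | n + 1, u, hu, φ, hφ => by
    obtain ⟨a, b, ha, hb, rfl⟩ := x_split (by simp; omega) hφ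
    have he : u + (((n + 1 : ℕ) : ℤ), 0) - (1, 0) = u + ((n : ℤ), 0) := by
      simp [Prod.ext_iff]; omega
    obtain ⟨f, hf, rfl⟩ := piV_surj n u hu a (mem_piece_of_eq ha he)
    obtain ⟨g, hg, rfl⟩ := piV_surj n u hu b (mem_piece_of_eq hb he)
    refine ⟨Fin.cons 0 f + Fin.snoc g 0, fun i => add_mem ?_ ?_, ?_⟩
    · refine Fin.cases ?_ (fun j => ?_) i <;> simp [hf]
    · refine Fin.lastCases ?_ (fun j => ?_) i <;> simp [hg]
    · simp only [piV, Pi.add_apply, add_mul, Finset.sum_add_distrib]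
      congr 1
      · rw [Fin.sum_univ_succ, Finset.sum_mul]
        simp [mono_succ_x0, mul_assoc]
      · rw [Fin.sum_univ_castSucc, Finset.sum_mul]
        simp only [Fin.snoc_castSucc, Fin.snoc_last, zero_mul, add_zero, Fin.val_castSucc]
        exact Finset.sum_congr rfl fun j _ => by
          rw [mono_succ_x1 (Nat.lt_succ_iff.1 j.2), mul_assoc]

/-! ### The differential -/

/-- `d_l x_e - β δ_{le} h`. -/
noncomputable def eOp (β : k) (l e : Fin 2) : Weyl k :=
  dx l e - (if l = e then β else 0) • gen 4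

/-- An entry of a vertical differential, rescaled. -/
noncomputable def cell (β : k) (l : Fin 2) (n i i' : ℕ) : Weyl k :=
  (dcoef 0 n i i' : k) • eOp β l 0 + (dcoef 1 n i i' : k) • eOp β l 1

theorem dA_eq [CharZero k] (l : Fin 2) {n : ℕ} (hn : n ≠ 0) (i i' : ℕ) :
    dA (k := k) l n i i' = (1 / (n : k)) • cell (n : k) l n i i' := by
  have : (n : k) ≠ 0 := Nat.cast_ne_zero.2 hn
  fin_cases l <;> simp [dA, cell, eOp, wsmul_sub, smul_smul] <;>
    field_simp <;> module

theorem dC_eq [CharZero k] (l : Fin 2) (q i i' : ℕ) :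
    dC (k := k) l q i i' =
      (1 / ((q + 1 : ℕ) : k)) • cell ((q + 2 : ℕ) : k) l q i i' := by
  fin_cases l <;> simp [dC, cell, eOp, wsmul_sub, smul_smul, div_eq_mul_inv] <;> module

theorem sum_dcoef_zero {M : Type*} [AddCommMonoid M] [Module k M] {n i : ℕ} (hi : i ≤ n)
    (F : ℕ → M) : ∑ i' : Fin n, (dcoef 0 n i i' : k) • F i' = (i : k) • F (i - 1) := by
  rcases i with _ | i
  · simp [dcoef]
  · rw [Finset.sum_eq_single ⟨i, by omega⟩ (fun b _ hb => ?_) (by simp)]
    · simp [dcoef]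
    · have : (b : ℕ) ≠ i := fun h => hb (Fin.ext h)
      simp [dcoef, this]

theorem sum_dcoef_one {M : Type*} [AddCommMonoid M] [Module k M] {n i : ℕ} (hi : i ≤ n)
    (F : ℕ → M) : ∑ i' : Fin n, (dcoef 1 n i i' : k) • F i' = ((n - i : ℕ) : k) • F i := by
  rcases hi.eq_or_lt with rfl | hlt
  · simp [dcoef]
  · rw [Finset.sum_eq_single ⟨i, hlt⟩ (fun b _ hb => ?_) (by simp)]
    · simp [dcoef]
    · have : (b : ℕ) ≠ i := fun h => hb (Fin.ext h)
      simp [dcoef, this]

theorem sum_cell_mul (β : k) (l : Fin 2) {n i : ℕ} (hi : i ≤ n) (F : ℕ → Weyl k) :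
    ∑ i' : Fin n, cell β l n i i' * F i' =
      (i : k) • (eOp β l 0 * F (i - 1)) + ((n - i : ℕ) : k) • (eOp β l 1 * F i) := by
  simp only [cell, add_mul, smul_mul_assoc, Finset.sum_add_distrib]
  rw [sum_dcoef_zero hi fun j => eOp β l 0 * F j, sum_dcoef_one hi fun j => eOp β l 1 * F j]

theorem eOp_comm_same (β : k) (e : Fin 2) :
    eOp (β + 1) 0 e * eOp β 1 e = eOp (β + 1) 1 e * eOp β 0 e := by
  refine sym_injective ?_
  fin_cases e <;>
    simp [eOp, dx, wmul_sub, wsub_mul, ← mul_assoc, sym_mul_gen, rGen, mulOp, Derivation.leibniz,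
      smul_eq_C_mul] <;> ring

theorem eOp_comm_mixed (β : k) :
    eOp (β + 1) 0 0 * eOp β 1 1 + eOp (β + 1) 0 1 * eOp β 1 0 =
      eOp (β + 1) 1 0 * eOp β 0 1 + eOp (β + 1) 1 1 * eOp β 0 0 := by
  refine sym_injective ?_
  simp [eOp, dx, wmul_sub, wsub_mul, ← mul_assoc, sym_mul_gen, rGen, mulOp, Derivation.leibniz,
    smul_eq_C_mul]
  ring

theorem cell_comm {β β' : k} (hb : β = β' + 1) {n i j : ℕ} (hi : i ≤ n + 1) :
    ∑ i' : Fin (n + 1), cell β 0 (n + 1) i i' * cell β' 1 n i' j =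
      ∑ i' : Fin (n + 1), cell β 1 (n + 1) i i' * cell β' 0 n i' j := by
  subst hb
  rw [sum_cell_mul _ _ hi (fun i' => cell β' 1 n i' j),
    sum_cell_mul _ _ hi (fun i' => cell β' 0 n i' j)]
  have hsym : (i : k) * dcoef 1 n (i - 1) j = ((n + 1 - i : ℕ) : k) * dcoef 0 n i j := by
    rcases i with _ | i
    · simp [dcoef]
    · by_cases hj : j = i
      · simp [dcoef, hj, mul_comm]
      · simp [dcoef, hj]
  have h0 := eOp_comm_same β' (0 : Fin 2)
  have h1 := eOp_comm_same β' (1 : Fin 2)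
  have h2 := eOp_comm_mixed β'
  simp only [cell, mul_add, mul_smul_comm, smul_add, smul_smul, h0, h1, hsym]
  linear_combination (norm := module) (((n + 1 - i : ℕ) : k) * (dcoef 0 n i j : k)) • h2

theorem x_eOp (β : k) (l e : Fin 2) :
    eOp (β + 1) l e * gen (if e = 0 then 0 else 1) =
      gen (if e = 0 then 0 else 1) * eOp β l e := by
  refine sym_injective ?_
  fin_cases l <;> fin_cases e <;>
    simp [eOp, dx, wmul_sub, wsub_mul, ← mul_assoc, sym_mul_gen, rGen, mulOp, Derivation.leibniz,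
      smul_eq_C_mul] <;> ring

theorem x_eOp_mixed (a q : k) (l : Fin 2) :
    a • (eOp (q + 2) l 0 * gen 1) - (q - a) • (eOp (q + 2) l 1 * gen 0) =
      (a + 1) • (gen 1 * eOp (q + 1) l 0) - (q + 1 - a) • (gen 0 * eOp (q + 1) l 1) := by
  refine sym_injective ?_
  fin_cases l <;>
    simp [eOp, dx, wmul_sub, wsub_mul, ← mul_assoc, sym_mul_gen, rGen, mulOp, Derivation.leibniz,
      smul_eq_C_mul, map_ofNat] <;> ring

theorem sum_kap_mul {n i : ℕ} (hi : i < n) (F : ℕ → Weyl k) :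
    ∑ i' : Fin (n + 1), kap i i' * F i' = gen 1 * F (i + 1) - gen 0 * F i := by
  simp only [kap, wsub_mul, ite_mul, zero_mul, wsum_sub]
  congr 1
  · rw [Finset.sum_eq_single ⟨i + 1, by omega⟩ (fun b _ hb => ?_) (by simp)]
    · simp
    · have : (b : ℕ) ≠ i + 1 := fun h => hb (Fin.ext h)
      simp [this]
  · rw [Finset.sum_eq_single ⟨i, by omega⟩ (fun b _ hb => ?_) (by simp)]
    · simp
    · have : (b : ℕ) ≠ i := fun h => hb (Fin.ext h)
      simp [this]

theorem cell_kap {q i j : ℕ} (hi : i ≤ q) (l : Fin 2) :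
    ∑ i' : Fin q, cell ((q + 2 : ℕ) : k) l q i i' * kap i' j =
      ∑ i' : Fin (q + 2), kap i i' * cell ((q + 1 : ℕ) : k) l (q + 1) i' j := by
  rw [sum_cell_mul _ _ hi (fun i' => kap i' j),
    sum_kap_mul (show i < q + 1 by omega) (fun i' => cell ((q + 1 : ℕ) : k) l (q + 1) i' j)]
  have hq : ((q : k) + 1) + 1 = (q : k) + 2 := by ring
  have h0 := x_eOp ((q : k) + 1) l 0
  have h1 := x_eOp ((q : k) + 1) l 1
  rw [hq] at h0 h1
  simp only [↓reduceIte, one_ne_zero, Fin.isValue] at h0 h1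
  have hm := x_eOp_mixed (i : k) (q : k) l
  let A : k := if j + 1 = i then 1 else 0
  let B : k := if j = i then 1 else 0
  let C' : k := if j = i + 1 then 1 else 0
  have hk0 : ∀ E : Weyl k, (i : k) • (E * kap (i - 1) j) =
      ((i : k) * B) • (E * gen 1) - ((i : k) * A) • (E * gen 0) := fun E => by
    rcases i with _ | i
    · simp
    · simp [A, B, kap, wmul_sub, mul_ite, wsmul_sub, smul_ite, ite_smul]
  have hk1 : ∀ (c : k) (E : Weyl k), c • (E * kap i j) =
      (c * C') • (E * gen 1) - (c * B) • (E * gen 0) := fun c E => by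
    simp [B, C', kap, wmul_sub, mul_ite, wsmul_sub, smul_ite, ite_smul]
  have c1 : (dcoef 0 (q + 1) (i + 1) j : k) = B * ((i : k) + 1) := by simp [dcoef, B]
  have c2 : (dcoef 1 (q + 1) (i + 1) j : k) = C' * ((q : k) - i) := by
    simp [dcoef, C', Nat.cast_sub hi]
  have c3 : (dcoef 0 (q + 1) i j : k) = A * i := by simp [dcoef, A]
  have c4 : (dcoef 1 (q + 1) i j : k) = B * ((q : k) + 1 - i) := by
    simp [dcoef, B, Nat.cast_sub (show i ≤ q + 1 by omega)]
  rw [hk0, hk1, Nat.cast_sub hi]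
  simp only [cell, c1, c2, c3, c4, mul_add, mul_smul_comm]
  push_cast
  linear_combination (norm := module)
    (-(A * (i : k))) • h0 + (C' * ((q : k) - i)) • h1 + B • hm

theorem isWeyl_gen : IsWeyl (gen (k := k)) := by
  constructor
  case h_comm =>
    intro i
    refine sym_injective ?_
    fin_cases i <;> simp [sym_mul_gen, rGen, mulOp] <;> ring
  all_goals
    refine sym_injective ?_
    simp [sym_mul_gen, rGen, mulOp, Derivation.leibniz]
    try ring

theorem d_mono (n i : ℕ) :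
    gen (k := k) 2 * mono n i = mono n i * gen 2 + (i : k) • (mono (n - 1) (i - 1) * gen 4) ∧
    gen (k := k) 3 * mono n i =
      mono n i * gen 3 + ((n - i : ℕ) : k) • (mono (n - 1) i * gen 4) := by
  have hW := isWeyl_gen (k := k)
  constructor
  · have h1 := mul_pow_of_comm hW.d20 (hW.h_comm 0) i
    have h2 : gen (k := k) 2 * gen 1 ^ (n - i) = gen 1 ^ (n - i) * gen 2 :=
      (Commute.pow_right hW.d21 _).eq
    have h3 : gen (k := k) 4 * gen 1 ^ (n - i) = gen 1 ^ (n - i) * gen 4 :=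
      (Commute.pow_right (hW.h_comm 1) _).eq
    rcases i with _ | i
    · simp [mono]; simpa using h2
    · simp only [mono, ← mul_assoc, h1, add_mul, smul_mul_assoc, Nat.cast_smul_eq_nsmul]
      simp only [mul_assoc, h2, h3]
      simp [Nat.sub_sub, add_comm]
  · have h1 : gen (k := k) 3 * gen 0 ^ i = gen 0 ^ i * gen 3 :=
      (Commute.pow_right hW.d30 _).eq
    have h2 := mul_pow_of_comm hW.d31 (hW.h_comm 1) (n - i)
    simp only [mono, ← mul_assoc, h1, Nat.cast_smul_eq_nsmul]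
    simp only [mul_assoc, h2, mul_add, mul_smul_comm]
    rw [Nat.sub_right_comm n i 1]

theorem sum_dA_mono [CharZero k] (l : Fin 2) {n i : ℕ} (hn : n ≠ 0) (hi : i ≤ n) :
    ∑ i' : Fin n, dA l n i i' * mono (k := k) (n - 1) i' =
      mono n i * gen (if l = 0 then 2 else 3) := by
  obtain ⟨n, rfl⟩ := Nat.exists_eq_succ_of_ne_zero hn
  simp only [dA_eq l hn, smul_mul_assoc, ← Finset.smul_sum]
  rw [sum_cell_mul _ _ hi, Nat.succ_sub_one]
  have e0 : (i : k) • (dx l 0 * mono (k := k) n (i - 1)) =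
      (i : k) • (gen (if l = 0 then 2 else 3) * mono (n + 1) i) := by
    rcases i with _ | i
    · simp
    · rw [dx, mul_assoc]; simp [x0_mono]
  have e1 : ((n + 1 - i : ℕ) : k) • (dx l 1 * mono (k := k) n i) =
      ((n + 1 - i : ℕ) : k) • (gen (if l = 0 then 2 else 3) * mono (n + 1) i) := by
    rcases hi.eq_or_lt with rfl | hlt
    · simp
    · rw [dx, mul_assoc]; simp [x1_mono (show i ≤ n by omega)]
  have hh : ∀ a b : ℕ, gen (k := k) 4 * mono a b = mono a b * gen 4 := fun a b =>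
    ((Commute.pow_right ((isWeyl_gen (k := k)).h_comm 0) b).mul_right
      (Commute.pow_right ((isWeyl_gen (k := k)).h_comm 1) (a - b))).eq
  have hn' : ((n + 1 : ℕ) : k) ≠ 0 := Nat.cast_ne_zero.2 (by omega)
  rw [one_div, inv_smul_eq_iff₀ hn']
  simp only [Nat.succ_eq_add_one, eOp, wsub_mul, wsmul_sub, smul_mul_assoc, e0, e1, hh]
  obtain ⟨hd0, hd1⟩ := d_mono (k := k) (n + 1) i
  have hsum : (i : k) + ((n + 1 - i : ℕ) : k) = ((n + 1 : ℕ) : k) := by
    rw [← Nat.cast_add]; congr 1; omega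
  simp only [Nat.add_sub_cancel] at hd0 hd1
  fin_cases l <;> simp only [Fin.zero_eta, Fin.mk_one, Fin.isValue, ↓reduceIte, one_ne_zero,
      zero_ne_one, zero_smul, smul_zero, sub_zero, hd0, hd1] <;>
    rw [← hsum] <;> module

theorem piV_dAV [CharZero k] (l : Fin 2) (n : ℕ) (f : Fin (n + 2) → Weyl k) :
    piV n (dAV l (n + 1) f) = piV (n + 1) f * gen (if l = 0 then 2 else 3) := by
  simp only [piV, dAV, Finset.sum_mul, mul_assoc]
  rw [Finset.sum_comm]
  refine Finset.sum_congr rfl fun i _ => ?_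
  rw [← sum_dA_mono l (Nat.succ_ne_zero n) (Nat.lt_succ_iff.1 i.2), Finset.mul_sum]
  simp

theorem dA_comm [CharZero k] (n : ℕ) {i : ℕ} (hi : i ≤ n + 2) (j : ℕ) :
    ∑ i' : Fin (n + 2), dA (k := k) 0 (n + 2) i i' * dA 1 (n + 1) i' j =
      ∑ i' : Fin (n + 2), dA (k := k) 1 (n + 2) i i' * dA 0 (n + 1) i' j := by
  simp only [dA_eq _ (show n + 2 ≠ 0 by omega), dA_eq _ (show n + 1 ≠ 0 by omega),
    smul_mul_assoc, mul_smul_comm, ← Finset.smul_sum]
  rw [cell_comm (by push_cast; ring) hi]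

theorem dC_comm [CharZero k] (q : ℕ) {i : ℕ} (hi : i ≤ q + 1) (j : ℕ) :
    ∑ i' : Fin (q + 1), dC (k := k) 0 (q + 1) i i' * dC 1 q i' j =
      ∑ i' : Fin (q + 1), dC (k := k) 1 (q + 1) i i' * dC 0 q i' j := by
  simp only [dC_eq, smul_mul_assoc, mul_smul_comm, ← Finset.smul_sum]
  rw [cell_comm (by push_cast; ring) hi]

theorem dC_kap [CharZero k] (l : Fin 2) (q : ℕ) {i : ℕ} (hi : i ≤ q) (j : ℕ) :
    ∑ i' : Fin q, dC (k := k) l q i i' * kap i' j =
      ∑ i' : Fin (q + 2), kap i i' * dA l (q + 1) i' j := by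
  simp only [dC_eq, dA_eq _ (Nat.succ_ne_zero q), smul_mul_assoc, mul_smul_comm,
    ← Finset.smul_sum]
  rw [cell_kap hi]

theorem row_comp {a b c : ℕ} (f : Fin a → Weyl k) (P : ℕ → ℕ → Weyl k) (Q : ℕ → ℕ → Weyl k)
    (j : Fin c) : ∑ i' : Fin b, (∑ i, f i * P i i') * Q i' j
      = ∑ i, f i * ∑ i' : Fin b, P i i' * Q i' j := by
  simp only [Finset.sum_mul, Finset.mul_sum, mul_assoc]
  exact Finset.sum_comm

theorem dAV_kapV [CharZero k] (l : Fin 2) (q : ℕ) (c : Fin (q + 1) → Weyl k) :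
    dAV l (q + 1) (kapV (q + 1) c) = kapV q (dCV l q c) := by
  funext j
  simp only [dAV, kapV, dCV]
  rw [row_comp c kap (dA l (q + 1)) j, row_comp c (dC l q) kap j]
  exact Finset.sum_congr rfl fun i _ => by rw [dC_kap l q (Nat.lt_succ_iff.1 i.2)]

theorem dAV_comm [CharZero k] (n : ℕ) (f : Fin (n + 3) → Weyl k) :
    dAV 1 (n + 1) (dAV 0 (n + 2) f) = dAV 0 (n + 1) (dAV 1 (n + 2) f) := by
  funext j
  simp only [dAV]
  rw [row_comp f (dA 0 (n + 2)) (dA 1 (n + 1)) j, row_comp f (dA 1 (n + 2)) (dA 0 (n + 1)) j]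
  exact Finset.sum_congr rfl fun i _ => by rw [dA_comm n (Nat.lt_succ_iff.1 i.2)]

theorem dAV_sub (l : Fin 2) (n : ℕ) (a b : Fin (n + 1) → Weyl k) :
    dAV l n (a - b) = dAV l n a - dAV l n b := by
  funext i; simp [dAV, wsub_mul, wsum_sub]

theorem dAV_neg (l : Fin 2) (n : ℕ) (a : Fin (n + 1) → Weyl k) :
    dAV l n (-a) = -dAV l n a := by
  funext i; simp [dAV, wsum_neg]

theorem kapV_add (n : ℕ) (a b : Fin n → Weyl k) : kapV n (a + b) = kapV n a + kapV n b := by
  funext i; simp [kapV, add_mul, Finset.sum_add_distrib]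

theorem dA_mem (l : Fin 2) (n i i' : ℕ) : dA (k := k) l n i i' ∈ Piece k (0, 1) := by
  have hdx : ∀ e, dx (k := k) l e ∈ Piece k (0, 1) := fun e => by
    refine mem_piece_of_eq (mul_mem_piece (gen_mem_piece _) (gen_mem_piece _)) ?_
    fin_cases l <;> fin_cases e <;> simp [wt]
  exact piece_sub_mem (Submodule.smul_mem _ _
    (add_mem (Submodule.smul_mem _ _ (hdx 0)) (Submodule.smul_mem _ _ (hdx 1))))
    (Submodule.smul_mem _ _ (mem_piece_of_eq (gen_mem_piece 4) (by simp [wt])))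

theorem dC_mem (l : Fin 2) (n i i' : ℕ) : dC (k := k) l n i i' ∈ Piece k (0, 1) := by
  have hdx : ∀ e, dx (k := k) l e ∈ Piece k (0, 1) := fun e => by
    refine mem_piece_of_eq (mul_mem_piece (gen_mem_piece _) (gen_mem_piece _)) ?_
    fin_cases l <;> fin_cases e <;> simp [wt]
  exact piece_sub_mem (Submodule.smul_mem _ _
    (add_mem (Submodule.smul_mem _ _ (hdx 0)) (Submodule.smul_mem _ _ (hdx 1))))
    (Submodule.smul_mem _ _ (mem_piece_of_eq (gen_mem_piece 4) (by simp [wt])))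

theorem kap_mem (i i' : ℕ) : kap (k := k) i i' ∈ Piece k (1, 0) := by
  refine piece_sub_mem ?_ ?_ <;> split_ifs <;> first
    | exact zero_mem _
    | exact mem_piece_of_eq (gen_mem_piece _) (by simp [wt])

theorem dAV_mem {l : Fin 2} {n : ℕ} {u : ℤ × ℤ} {f : Fin (n + 1) → Weyl k}
    (hf : ∀ i, f i ∈ Piece k u) (i : Fin n) : dAV l n f i ∈ Piece k (u + (0, 1)) :=
  sum_mem fun j _ => mul_mem_piece (hf j) (dA_mem l n j i)

end Vale.Agent.P195.CE
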