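import Vale.Agent.P195.CE.Cplx
import Mathlib.RingTheory.MvPolynomial.Ideal
import Mathlib.RingTheory.Ideal.Span
import Mathlib.Algebra.MvPolynomial.Rename
import Mathlib.Algebra.MvPolynomial.Degrees
import Mathlib.Tactic.Module
import Mathlib.Tactic.LinearCombination
import Mathlib.Tactic.FieldSimp

/-!
# Symbols twisted for right multiplication by the first two generators

Right multiplication by `x₁, x₂` becomes plain multiplication after the linear change of symbols
`twMap (-1)`; right multiplication by `d₁, d₂` is plain multiplication.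
-/

namespace Vale.Agent.P195.CE

open MvPolynomial Matrix

variable {k : Type} [Field k]

/-! ### Subtraction in the algebra

The instances of `Neg` and `Sub` of the subalgebra are recognised by the general lemmas only when
the type is given, so the ones needed are restated. -/

section arith

variable (a b c : Weyl k) {ι : Type*}

theorem wsub_mul : (a - b) * c = a * c - b * c := sub_mul a b c
theorem wmul_sub : a * (b - c) = a * b - a * c := mul_sub a b c
theorem wsmul_sub (q : k) : q • (a - b) = q • a - q • b := smul_sub q a b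
@[simp] theorem wsmul_neg (q : k) : q • (-a) = -(q • a) := smul_neg q a
@[simp] theorem wneg_mul : -a * b = -(a * b) := Subtype.ext (neg_mul (a : Op k) (b : Op k))
@[simp] theorem wmul_neg : a * -b = -(a * b) := Subtype.ext (mul_neg (a : Op k) (b : Op k))
@[simp] theorem wzero_sub : 0 - a = -a := zero_sub a
@[simp] theorem wsub_zero : a - 0 = a := sub_zero a
@[simp] theorem wsub_self : a - a = 0 := sub_self a
@[simp] theorem wneg_zero : -(0 : Weyl k) = 0 := neg_zero (G := Weyl k)
@[simp] theorem wneg_neg : - -a = a := neg_neg a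
@[simp] theorem wneg_add_cancel : -a + a = 0 := neg_add_cancel a
theorem wsub_eq_add_neg : a - b = a + -b := sub_eq_add_neg a b
@[simp] theorem wsub_neg : a - -b = a + b := sub_neg_eq_add a b
@[simp] theorem wadd_sub_cancel : a + (b - a) = b := add_sub_cancel a b
@[simp] theorem wsub_add_cancel : a - b + b = a := sub_add_cancel a b
@[simp] theorem wadd_neg_cancel : a + -a = 0 := add_neg_cancel a

variable {a b}

@[simp] theorem wneg_eq_zero : -a = 0 ↔ a = 0 := neg_eq_zero (α := Weyl k) (a := a)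
theorem wsub_eq_zero : a - b = 0 ↔ a = b := sub_eq_zero (G := Weyl k) (a := a) (b := b)
theorem wadd_neg_eq_zero : a + -b = 0 ↔ a = b :=
  add_neg_eq_zero (G := Weyl k) (a := a) (b := b)
theorem weq_neg_iff : a = -b ↔ a + b = 0 :=
  eq_neg_iff_add_eq_zero (G := Weyl k) (a := a) (b := b)

@[simp] theorem wsum_neg (s : Finset ι) (f : ι → Weyl k) :
    ∑ i ∈ s, -f i = -∑ i ∈ s, f i := Finset.sum_neg_distrib (f := f)
theorem wsum_sub (s : Finset ι) (f g : ι → Weyl k) :
    ∑ i ∈ s, (f i - g i) = ∑ i ∈ s, f i - ∑ i ∈ s, g i := Finset.sum_sub_distrib f g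

end arith

/-! ### Change of symbols -/

/-- Twisted multiplications. -/
noncomputable def tw (c : k) : Fin 2 → Op k :=
  ![mulOp (X 0) + c • (mulOp (X 4) * (pderiv 2).toLinearMap),
    mulOp (X 1) + c • (mulOp (X 4) * (pderiv 3).toLinearMap)]

/-- The change of symbols. -/
noncomputable def twMap (c : k) : Sym k →ₗ[k] Sym k :=
  (MvPolynomial.basisMonomials (Fin 5) k).constr k fun s =>
    (tw c 0 ^ s 0 * tw c 1 ^ s 1) (X 2 ^ s 2 * X 3 ^ s 3 * X 4 ^ s 4)

theorem twMap_monomial (c : k) (s : Fin 5 →₀ ℕ) : twMap c (monomial s 1) =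
    (tw c 0 ^ s 0 * tw c 1 ^ s 1) (X 2 ^ s 2 * X 3 ^ s 3 * X 4 ^ s 4) := by
  have := (MvPolynomial.basisMonomials (Fin 5) k).constr_basis k (fun s =>
    (tw c 0 ^ s 0 * tw c 1 ^ s 1) (X 2 ^ s 2 * X 3 ^ s 3 * X 4 ^ s 4)) s
  simpa [twMap] using this

theorem sym_ext {M : Type*} [AddCommMonoid M] [Module k M] {F G : Sym k →ₗ[k] M}
    (h : ∀ s, F (monomial s 1) = G (monomial s 1)) (f : Sym k) : F f = G f := by
  have : F = G := (MvPolynomial.basisMonomials (Fin 5) k).ext fun s => by
    simpa using h s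
  rw [this]

theorem tw_comm (c : k) : Commute (tw c 0) (tw c 1) := by
  refine LinearMap.ext fun f => ?_
  simp [tw, mulOp, Derivation.leibniz, pderiv_comm' (3 : Fin 5) 2 f, smul_add, smul_smul]
  simp only [smul_eq_C_mul]
  ring

theorem twMap_X (c : k) (e : Fin 2) (f : Sym k) :
    twMap c (X (if e = 0 then 0 else 1) * f) = tw c e (twMap c f) := by
  refine sym_ext (F := (twMap c).comp (mulOp (X (if e = 0 then 0 else 1))))
    (G := (tw c e).comp (twMap c)) (fun s => ?_) f
  simp only [LinearMap.coe_comp, Function.comp_apply, mulOp, LinearMap.mulLeft_apply]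
  rw [X, monomial_mul, one_mul, twMap_monomial, twMap_monomial, ← Module.End.mul_apply]
  fin_cases e
  · simp [pow_add, mul_assoc]
  · simp [pow_add, mul_assoc]
    simp only [← Module.End.mul_apply, ← mul_assoc]
    rw [(Commute.pow_left (tw_comm c) (s 0)).eq]

theorem twMap_X4 (c : k) (f : Sym k) : twMap c (X 4 * f) = X 4 * twMap c f := by
  refine sym_ext (F := (twMap c).comp (mulOp (X 4))) (G := (mulOp (X 4)).comp (twMap c))
    (fun s => ?_) f
  simp only [LinearMap.coe_comp, Function.comp_apply, mulOp, LinearMap.mulLeft_apply]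
  conv_lhs => rw [X, monomial_mul, one_mul]
  rw [twMap_monomial, twMap_monomial]
  have hc : ∀ e, Commute (mulOp (X 4)) (tw c e) := fun e => by
    refine LinearMap.ext fun g => ?_
    fin_cases e <;> simp [tw, mulOp, Derivation.leibniz, smul_eq_C_mul] <;> ring
  have hh := congrArg (fun T : Op k => T (X 2 ^ s 2 * X 3 ^ s 3 * X 4 ^ s 4))
    (((hc 0).pow_right (s 0)).mul_right ((hc 1).pow_right (s 1))).eq
  simp [mulOp, pow_add, mul_assoc] at hh ⊢
  rw [hh]
  congr 2
  ring

theorem twMap_pderiv (c : k) {v : Fin 5} (hv : v = 2 ∨ v = 3) (f : Sym k) :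
    twMap c (pderiv v f) = pderiv v (twMap c f) := by
  refine sym_ext (F := (twMap c).comp (pderiv v).toLinearMap)
    (G := (pderiv v).toLinearMap.comp (twMap c)) (fun s => ?_) f
  have hc : ∀ d, Commute (pderiv v).toLinearMap (tw c d) := fun d => by
    refine LinearMap.ext fun g => ?_
    rcases hv with rfl | rfl <;> fin_cases d <;>
      simp [tw, mulOp, Derivation.leibniz, pderiv_comm' (3 : Fin 5) 2 g]
  have hh := congrArg (fun T : Op k => T (X 2 ^ s 2 * X 3 ^ s 3 * X 4 ^ s 4))
    (((hc 0).pow_right (s 0)).mul_right ((hc 1).pow_right (s 1))).eq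
  simp only [LinearMap.coe_comp, Function.comp_apply, Derivation.coeFn_coe, twMap_monomial,
    Module.End.mul_apply] at hh ⊢
  rw [hh, pderiv_monomial, one_mul, ← mul_one ((s v : ℕ) : k), ← smul_eq_mul, ← smul_monomial,
    map_smul, twMap_monomial, Module.End.mul_apply, ← map_smul, ← map_smul]
  rcases hv with rfl | rfl <;> simp [pderiv_mul, pderiv_pow] <;>
    (simp only [Nat.cast_smul_eq_nsmul, ← map_nsmul]; congr 2; simp only [nsmul_eq_mul]; ring)

theorem twMap_tw (c : k) (e : Fin 2) (f : Sym k) :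
    twMap c (tw (-c) e f) = X (if e = 0 then 0 else 1) * twMap c f := by
  have h0 := twMap_X c e f
  have h1 := twMap_pderiv c (v := if e = 0 then 2 else 3) (by fin_cases e <;> simp) f
  fin_cases e <;> simp [tw, mulOp] at h0 h1 ⊢ <;>
    simp [h0, h1, twMap_X4, smul_eq_C_mul] <;>
    simp [← smul_eq_C_mul, tw, mulOp] <;> module

theorem twMap_twMap (c : k) (f : Sym k) : twMap c (twMap (-c) f) = f := by
  refine sym_ext (F := (twMap c).comp (twMap (-c))) (G := LinearMap.id) (fun s => ?_) f
  simp only [LinearMap.coe_comp, Function.comp_apply, LinearMap.id_coe, id_eq, twMap_monomial,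
    Module.End.mul_apply]
  have h : ∀ (e : Fin 2) (n : ℕ) (g : Sym k), twMap c ((tw (-c) e ^ n) g) =
      X (if e = 0 then 0 else 1) ^ n * twMap c g := by
    intro e n g
    induction n with
    | zero => simp
    | succ n ih => rw [pow_succ', Module.End.mul_apply, twMap_tw, ih, pow_succ', mul_assoc]
  have h2 : twMap c (X 2 ^ s 2 * X 3 ^ s 3 * X 4 ^ s 4) =
      X 2 ^ s 2 * X 3 ^ s 3 * X 4 ^ s 4 := by
    have := twMap_monomial c
      (Finsupp.single 2 (s 2) + Finsupp.single 3 (s 3) + Finsupp.single 4 (s 4))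
    simpa [X_pow_eq_monomial, monomial_mul] using this
  rw [h 0, h 1, h2, monomial_eq_prod]
  simp only [if_true, Fin.isValue, one_ne_zero, if_false]
  ring

theorem tw_mem_deg (c : k) {a : ℤ × ℤ} {f : Sym k} (hf : f ∈ Deg k a) (e : Fin 2) :
    tw c e f ∈ Deg k (a + (1, 0)) := by
  fin_cases e
  · refine add_mem ?_ (Submodule.smul_mem _ _ ?_)
    · have := mul_mem_deg (X_mem_deg 0) hf
      rwa [add_comm] at this
    · have := mul_mem_deg (X_mem_deg 4) (pderiv_mem_deg hf 2)
      rwa [show wt 4 + (a - wt 2) = a + (1, 0) by simp [wt, Prod.ext_iff]] at this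
  · refine add_mem ?_ (Submodule.smul_mem _ _ ?_)
    · have := mul_mem_deg (X_mem_deg 1) hf
      rwa [add_comm] at this
    · have := mul_mem_deg (X_mem_deg 4) (pderiv_mem_deg hf 3)
      rwa [show wt 4 + (a - wt 3) = a + (1, 0) by simp [wt, Prod.ext_iff]] at this

theorem twMap_mem_deg (c : k) {a : ℤ × ℤ} {f : Sym k} (hf : f ∈ Deg k a) :
    twMap c f ∈ Deg k a := by
  rw [as_sum f, map_sum]
  refine sum_mem fun s hs => ?_
  have hw : Finsupp.weight wt s = a := hf (mem_support_iff.1 hs)
  rw [show monomial s (coeff s f) = coeff s f • monomial s (1 : k) by simp [smul_monomial],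
    map_smul, twMap_monomial]
  refine Submodule.smul_mem _ _ ?_
  have h : ∀ (e : Fin 2) (n : ℕ) (b : ℤ × ℤ) (g : Sym k), g ∈ Deg k b →
      (tw c e ^ n) g ∈ Deg k (b + n • (1, 0)) := by
    intro e n b g hg
    induction n with
    | zero => simpa using hg
    | succ n ih => rw [pow_succ', Module.End.mul_apply, succ_nsmul, ← add_assoc]
                   exact tw_mem_deg c ih e
  have hbase : (X 2 ^ s 2 * X 3 ^ s 3 * X 4 ^ s 4 : Sym k) ∈
      Deg k (s 2 • wt 2 + s 3 • wt 3 + s 4 • wt 4) :=
    ((IsWeightedHomogeneous.pow (X_mem_deg 2) _).mul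
      (IsWeightedHomogeneous.pow (X_mem_deg 3) _)).mul (IsWeightedHomogeneous.pow (X_mem_deg 4) _)
  have := h 0 (s 0) _ _ (h 1 (s 1) _ _ hbase)
  rw [Module.End.mul_apply]
  convert this using 2
  rw [← hw, weight_wt]
  simp [wt, Prod.ext_iff]
  constructor <;> ring

theorem rGen_eq_tw (f : Sym k) :
    rGen (0 : Fin 5) f = tw 1 0 f ∧ rGen (1 : Fin 5) f = tw 1 1 f := by
  simp [rGen, tw]

/-- Symbols on which right multiplication by `x` is multiplication. -/
noncomputable def sym' (φ : Weyl k) : Sym k := twMap (-1) (sym φ)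

theorem sym'_mul_x (φ : Weyl k) (e : Fin 2) :
    sym' (φ * gen (if e = 0 then 0 else 1)) = X (if e = 0 then 0 else 1) * sym' φ := by
  simp only [sym', sym_mul_gen]
  have h := twMap_tw (-1 : k) e (sym φ)
  rw [neg_neg] at h
  fin_cases e <;> simp [(rGen_eq_tw _).1, (rGen_eq_tw _).2] at h ⊢ <;> exact h

theorem sym'_mul_x0 (φ : Weyl k) : sym' (φ * gen 0) = X 0 * sym' φ := sym'_mul_x φ 0

theorem sym'_mul_x1 (φ : Weyl k) : sym' (φ * gen 1) = X 1 * sym' φ := sym'_mul_x φ 1

theorem sym'_injective : Function.Injective (sym' : Weyl k → Sym k) := by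
  intro a b h
  apply sym_injective
  have := congrArg (twMap 1) h
  simp only [sym', twMap_twMap] at this
  exact this

/-- Inverse of `sym'`. -/
noncomputable def ofSym' (f : Sym k) : Weyl k := ofSym (twMap 1 f)

theorem sym'_ofSym' (f : Sym k) : sym' (ofSym' f) = f := by
  have := twMap_twMap (-1 : k) f
  rw [neg_neg] at this
  simpa [sym', ofSym'] using this

theorem sym_mul_d (φ : Weyl k) :
    sym (φ * gen 2) = X 2 * sym φ ∧ sym (φ * gen 3) = X 3 * sym φ := by
  simp [sym_mul_gen, rGen, mulOp]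

/-! ### Projection to a bidegree -/

theorem sym_neg (φ : Weyl k) : sym (-φ) = -sym φ := rfl

theorem sym_sub (φ ψ : Weyl k) : sym (φ - ψ) = sym φ - sym ψ := rfl

/-- Projection to the piece of bidegree `a`. -/
noncomputable def proj (a : ℤ × ℤ) : Weyl k →ₗ[k] Weyl k :=
  ofSym.comp ((weightedHomogeneousComponent wt a).comp sym)

theorem piece_sub_mem {a : ℤ × ℤ} {φ ψ : Weyl k} (hφ : φ ∈ Piece k a) (hψ : ψ ∈ Piece k a) :
    φ - ψ ∈ Piece k a := by
  rw [mem_piece, sym_sub]
  exact sub_mem hφ hψ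

theorem piece_neg_mem {a : ℤ × ℤ} {φ : Weyl k} (hφ : φ ∈ Piece k a) : -φ ∈ Piece k a := by
  rw [mem_piece, sym_neg]
  exact neg_mem hφ

theorem proj_mem (a : ℤ × ℤ) (φ : Weyl k) : proj a φ ∈ Piece k a := by
  show sym (ofSym _) ∈ Deg k a
  rw [sym_ofSym]
  exact weightedHomogeneousComponent_mem wt (sym φ) a

theorem proj_eq {a : ℤ × ℤ} {φ : Weyl k} (h : φ ∈ Piece k a) : proj a φ = φ := by
  have : weightedHomogeneousComponent wt a (sym φ) = sym φ :=
    IsWeightedHomogeneous.weightedHomogeneousComponent_same h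
  simp [proj, this]

theorem proj_eq_zero {a b : ℤ × ℤ} {φ : Weyl k} (h : φ ∈ Piece k b) (hab : b ≠ a) :
    proj a φ = 0 := by
  have : weightedHomogeneousComponent wt a (sym φ) = 0 :=
    IsWeightedHomogeneous.weightedHomogeneousComponent_ne a h hab.symm
  simp [proj, this]

theorem proj_neg (a : ℤ × ℤ) (φ : Weyl k) : proj a (-φ) = -proj a φ := by
  apply sym_injective
  simp [proj, sym_neg]

theorem proj_sub (a : ℤ × ℤ) (φ ψ : Weyl k) : proj a (φ - ψ) = proj a φ - proj a ψ := by
  apply sym_injective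
  simp [proj, sym_sub]

attribute [simp] sym_neg sym_sub

theorem proj_mul_gen {a b : ℤ × ℤ} (φ : Weyl k) (i : Fin 5) (h : a + wt i = b) :
    proj b (φ * gen i) = proj a φ * gen i := by
  rw [← ofSym_sym φ]
  generalize sym φ = f
  rw [as_sum f]
  simp only [map_sum, Finset.sum_mul]
  refine Finset.sum_congr rfl fun s _ => ?_
  obtain ⟨w, hw⟩ : ∃ w, w = Finsupp.weight wt s := ⟨_, rfl⟩
  have hm : ofSym (monomial s (coeff s f)) ∈ Piece k w := by
    rw [mem_piece, sym_ofSym]
    exact isWeightedHomogeneous_monomial wt s (coeff s f) hw.symm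
  by_cases hwa : w = a
  · subst hwa
    rw [proj_eq hm, proj_eq]
    exact h ▸ mul_mem_piece hm (gen_mem_piece i)
  · rw [proj_eq_zero hm hwa, zero_mul, proj_eq_zero (mul_mem_piece hm (gen_mem_piece i))]
    intro hc
    exact hwa (add_right_cancel (hc.trans h.symm))

theorem mem_piece_of_eq {a b : ℤ × ℤ} {φ : Weyl k} (h : φ ∈ Piece k a) (hab : a = b) :
    φ ∈ Piece k b := hab ▸ h

/-! ### The two elementary exact sequences -/

theorem mul_x0_cancel {φ ψ : Weyl k} (h : φ * gen 0 = ψ * gen 0) : φ = ψ := by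
  apply sym'_injective
  have := congrArg sym' h
  rw [sym'_mul_x0, sym'_mul_x0] at this
  exact mul_left_cancel₀ (X_ne_zero _) this

theorem mul_d2_eq_zero {φ : Weyl k} (h : φ * gen 3 = 0) : φ = 0 := by
  apply sym_injective
  have := congrArg sym h
  rw [(sym_mul_d φ).2, map_zero, mul_eq_zero] at this
  simpa [X_ne_zero] using this

theorem x_common {a b : Weyl k} (h : a * gen 1 = b * gen 0) : ∃ c, a = c * gen 0 := by
  have := congrArg sym' h
  rw [sym'_mul_x0, sym'_mul_x1] at this
  have hd : (X 0 : Sym k) ∣ sym' a := by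
    rcases (MvPolynomial.X_prime (R := k) (i := (0 : Fin 5))).dvd_mul.1 ⟨_, this⟩ with hh | hh
    · simp [X_dvd_X] at hh
    · exact hh
  obtain ⟨q, hq⟩ := hd
  refine ⟨ofSym' q, sym'_injective ?_⟩
  rw [sym'_mul_x0, sym'_ofSym', hq]

theorem x_common_pow {a : Weyl k} : ∀ (n : ℕ) {b : Weyl k}, a * gen 1 ^ n = b * gen 0 →
    ∃ c, a = c * gen 0
  | 0, b, h => ⟨b, by simpa using h⟩
  | n + 1, b, h => by
    rw [pow_succ, ← mul_assoc] at h
    obtain ⟨c, hc⟩ := x_common h
    exact x_common_pow n hc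

theorem x_split {u : ℤ × ℤ} (hu : 1 ≤ u.1) {φ : Weyl k} (hφ : φ ∈ Piece k u) :
    ∃ a b, a ∈ Piece k (u - (1, 0)) ∧ b ∈ Piece k (u - (1, 0)) ∧ φ = a * gen 0 + b * gen 1 := by
  have hd : sym' φ ∈ Deg k u := twMap_mem_deg _ hφ
  have hm : sym' φ ∈ Ideal.span (X '' ({0, 1} : Set (Fin 5))) := by
    rw [mem_ideal_span_X_image]
    intro s hs
    have hw : Finsupp.weight wt s = u := hd (mem_support_iff.1 hs)
    rw [weight_wt] at hw
    have := congrArg Prod.fst hw
    simp [wt] at this
    by_cases h0 : s 0 = 0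
    · exact ⟨1, by simp, by omega⟩
    · exact ⟨0, by simp, h0⟩
  rw [Set.image_pair, Ideal.mem_span_pair] at hm
  obtain ⟨p, q, hpq⟩ := hm
  have he : φ = ofSym' p * gen 0 + ofSym' q * gen 1 := by
    apply sym'_injective
    have hadd : ∀ a b : Weyl k, sym' (a + b) = sym' a + sym' b := fun a b => by simp [sym']
    rw [hadd, sym'_mul_x0, sym'_mul_x1, sym'_ofSym', sym'_ofSym', ← hpq]
    ring
  refine ⟨proj (u - (1, 0)) (ofSym' p), proj (u - (1, 0)) (ofSym' q), proj_mem _ _, proj_mem _ _,
    ?_⟩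
  have h := congrArg (proj u) he
  rwa [proj_eq hφ, map_add, proj_mul_gen (a := u - (1, 0)) _ 0 (by simp [wt]),
    proj_mul_gen (a := u - (1, 0)) _ 1 (by simp [wt])] at h

theorem d_common {u : ℤ × ℤ} {f g : Weyl k} (hf : f ∈ Piece k u) (hg : g ∈ Piece k u)
    (h : f * gen 2 + g * gen 3 = 0) :
    ∃ ψ ∈ Piece k (u + (1, -1)), f = ψ * gen 3 ∧ g = -(ψ * gen 2) := by
  have h1 := congrArg sym h
  rw [map_add, (sym_mul_d f).1, (sym_mul_d g).2, map_zero] at h1
  have hdvd : (X 3 : Sym k) ∣ sym f := by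
    have h2 : (X 3 : Sym k) ∣ X 2 * sym f := ⟨-sym g, by linear_combination h1⟩
    rcases (MvPolynomial.X_prime (R := k) (i := (3 : Fin 5))).dvd_mul.1 h2 with hh | hh
    · simp [X_dvd_X] at hh
    · exact hh
  obtain ⟨q, hq⟩ := hdvd
  have hq2 : sym g = -(X 2 * q) := by
    rw [hq] at h1
    refine mul_left_cancel₀ (X_ne_zero (3 : Fin 5)) ?_
    linear_combination h1
  have e1 : f = ofSym q * gen 3 := sym_injective (by rw [(sym_mul_d _).2, sym_ofSym, hq])
  have e2 : g = -(ofSym q * gen 2) :=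
    sym_injective (by rw [sym_neg, (sym_mul_d _).1, sym_ofSym, hq2])
  refine ⟨proj _ (ofSym q), proj_mem _ _, ?_, ?_⟩
  · have := congrArg (proj u) e1
    rwa [proj_eq hf, proj_mul_gen (a := u + (1, -1)) _ 3 (by simp [wt, Prod.ext_iff])] at this
  · have := congrArg (proj u) e2
    rwa [proj_eq hg, proj_neg,
      proj_mul_gen (a := u + (1, -1)) _ 2 (by simp [wt, Prod.ext_iff])] at this

/-- Evaluation of symbols on the constant polynomial. -/
noncomputable def evP : Sym k →ₐ[k] Pol k := aeval ![X 0, X 1, 0, 0, 1]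

theorem polRep_one (φ : Weyl k) : polRep k φ 1 = evP (sym φ) := by
  conv_lhs => rw [← ofSym_sym φ]
  generalize sym φ = f
  refine sym_ext (F := ((LinearMap.applyₗ (1 : Pol k)).comp (polRep k).toLinearMap).comp ofSym)
    (G := evP.toLinearMap) (fun s => ?_) f
  have hd : ∀ (j : Fin 2) (n : ℕ),
      ((pderiv j).toLinearMap ^ n) (1 : Pol k) = 0 ^ n := by
    intro j n
    induction n with
    | zero => simp
    | succ n ih =>
      rw [pow_succ', Module.End.mul_apply, ih]
      rcases n with _ | n <;> simp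
  have hp : ∀ (g : Pol k) (n : ℕ) (h : Pol k), (pmul g ^ n) h = g ^ n * h := by
    intro g n h
    simp [pmul, LinearMap.pow_mulLeft]
  simp only [LinearMap.coe_comp, Function.comp_apply, AlgHom.toLinearMap_apply, ofSym_monomial]
  simp only [
    LinearMap.applyₗ_apply_apply, ordMon, map_mul, map_pow, polRep, liftWeyl_gen, evP,
    monomial_eq_prod, aeval_X, Module.End.mul_apply]
  simp only [polGen, Matrix.cons_val, Matrix.cons_val_zero, Matrix.cons_val_one, one_pow,
    Module.End.one_apply, hd, mul_one, hp]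
  rcases s 3 with _ | n <;> rcases s 2 with _ | p <;> simp [hd]

theorem aug_kernel {u : ℤ × ℤ} {φ : Weyl k} (hφ : φ ∈ Piece k u) (h : polRep k φ 1 = 0) :
    ∃ f g, f ∈ Piece k (u + (1, -1)) ∧ g ∈ Piece k (u + (1, -1)) ∧
      φ = f * gen 2 + g * gen 3 := by
  classical
  rw [polRep_one] at h
  have hm : sym φ ∈ Ideal.span (X '' ({2, 3} : Set (Fin 5))) := by
    rw [mem_ideal_span_X_image]
    intro s hs
    by_contra hne
    push Not at hne
    have h2 : s 2 = 0 := hne 2 (by simp)
    have h3 : s 3 = 0 := hne 3 (by simp)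
    refine mem_support_iff.1 hs ?_
    have hev := congrArg (coeff (Finsupp.single 0 (s 0) + Finsupp.single 1 (s 1))) h
    rw [as_sum (sym φ), map_sum, coeff_sum, coeff_zero,
      Finset.sum_eq_single s (fun r hr hrs => ?_) (fun hn => absurd hs hn)] at hev
    · simpa [evP, aeval_monomial, Finsupp.prod_fintype, Fin.prod_univ_five, h2, h3,
        X_pow_eq_monomial, monomial_mul, coeff_monomial] using hev
    · rw [evP, aeval_monomial, Finsupp.prod_fintype _ _ (fun i => pow_zero _),
        Fin.prod_univ_five]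
      by_cases hr2 : r 2 = 0
      · by_cases hr3 : r 3 = 0
        · simp [hr2, hr3, X_pow_eq_monomial, monomial_mul, coeff_monomial]
          intro he
          exfalso
          apply hrs
          have e0 := DFunLike.congr_fun he 0
          have e1 := DFunLike.congr_fun he 1
          simp at e0 e1
          have w1 : Finsupp.weight wt r = u := hφ (mem_support_iff.1 hr)
          have w2 : Finsupp.weight wt s = u := hφ (mem_support_iff.1 hs)
          have := congrArg Prod.snd (w1.trans w2.symm)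
          rw [weight_wt, weight_wt] at this
          simp [wt, hr2, hr3, h2, h3] at this
          ext i
          fin_cases i <;> simp_all
        · simp [hr3]
      · simp [hr2]
  rw [Set.image_pair, Ideal.mem_span_pair] at hm
  obtain ⟨p, q, hpq⟩ := hm
  have he : φ = ofSym p * gen 2 + ofSym q * gen 3 := by
    apply sym_injective
    rw [map_add, (sym_mul_d _).1, (sym_mul_d _).2, sym_ofSym, sym_ofSym, ← hpq]
    ring
  refine ⟨proj _ (ofSym p), proj _ (ofSym q), proj_mem _ _, proj_mem _ _, ?_⟩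
  have h' := congrArg (proj u) he
  rwa [proj_eq hφ, map_add,
    proj_mul_gen (a := u + (1, -1)) _ 2 (by simp [wt, Prod.ext_iff]),
    proj_mul_gen (a := u + (1, -1)) _ 3 (by simp [wt, Prod.ext_iff])] at h'


end Vale.Agent.P195.CE
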