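import Vale.Agent.P195.CE.L0Res
import Vale.Agent.P195.CE.Acyclic

/-!
# `Ext` from `L 0` to `R` and to the projective of the first vertex
-/

namespace Vale.Agent.P195.CE

open CategoryTheory CategoryTheory.Abelian

variable {k : Type} [Field k]

theorem homRes_repr {n : ℕ} (f : PRes k n →ₗ[Rt k] Rt k) :
    ∃ μ : Gen 0 → Par k, f = homRes n μ := by
  choose μ hμ using fun g : DegGen n =>
    exists_homCol g.1.vW (f.comp (LinearMap.single (Rt k) (fun g : DegGen n => Col k (pos g.1.vW)) g))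
  refine ⟨fun g => if h : g.deg = n then μ ⟨g, h⟩ else 0, LinearMap.pi_ext fun g c => ?_⟩
  rw [homRes_apply, Finset.sum_eq_single g (fun g' _ h => by simp [h]) (by simp), Pi.single_eq_same,
    dif_pos g.2, ← hμ]
  rfl

variable (k) in
/-- The resolution terms are acyclic for `R`. -/
theorem ext_PRes_R [CharZero k] (n j : ℕ) (hj : 1 ≤ j) :
    ∀ e : Ext.{0} (ModuleCat.of (Rt k) (PRes k n)) (ModuleCat.of (Rt k) (Rt k)) j, e = 0 :=
  ext_zero_of_retract₁ (ι := DegGen n) (fun g => ModuleCat.of (Rt k) (Col k (pos g.1.vW)))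
    (fun g => ModuleCat.ofHom (LinearMap.proj g : PRes k n →ₗ[Rt k] Col k (pos g.1.vW)))
    (fun g => ModuleCat.ofHom
      (LinearMap.single (Rt k) (fun g : DegGen n => Col k (pos g.1.vW)) g))
    (by
      refine ModuleCat.hom_ext (LinearMap.ext fun x => ?_)
      simp [ModuleCat.hom_sum, LinearMap.sum_apply, Finset.univ_sum_single])
    (fun g => ext_Col_R g.1.vW j hj)

theorem vRep_x1_cancel {α β : Par k} (h : (vRep k (gen 0)).comp α = (vRep k (gen 0)).comp β) :
    α = β := by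
  have := congrArg (fun γ : Par k => (xInv k).comp γ) h
  simpa only [← LinearMap.comp_assoc, ← Module.End.mul_eq_comp, xInv_mul, Module.End.one_eq_id,
    LinearMap.id_comp] using this

theorem vRep_x1_comp (α : Par k) : (vRep k (gen 0)).comp ((xInv k).comp α) = α := by
  rw [← LinearMap.comp_assoc, ← Module.End.mul_eq_comp, mul_xInv, Module.End.one_eq_id,
    LinearMap.id_comp]

theorem dPar_C2 (μ : Gen 0 → Par k) (i : Fin 2) (h : ∀ l j, μ (.C1 l j) = 0) :
    dPar μ (.C2 i) = (vRep k (gen 1)).comp (μ (.A2 i.succ)) -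
      (vRep k (gen 0)).comp (μ (.A2 i.castSucc)) := by
  fin_cases i <;>
    simp [dPar, sum_gen, Kmat, kap, Fin.sum_univ_three, h, LinearMap.neg_comp,
      sub_eq_add_neg] <;>
    abel

theorem ext_L0_R [CharZero k] (j : ℕ) (hj : 3 ≤ j) :
    ∀ e : Ext.{0} (ModuleCat.of (Rt k) (Lmod k 0)) (ModuleCat.of (Rt k) (Rt k)) j, e = 0 := by
  obtain ⟨i, rfl⟩ : ∃ i, j = i + 1 := ⟨j - 1, by omega⟩
  refine ext_zero_of_complex _ _ (PRes k) (dRes k) (augRes k) augRes_surjective exact_dRes_augRes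
    exact_dRes (ext_PRes_R k) i fun f _ => ?_
  obtain ⟨ν, rfl⟩ := homRes_repr f
  rcases Nat.lt_or_ge i 3 with hi | hi
  · obtain rfl : i = 2 := by omega
    let a1 : Par k := -(xInv k).comp (ν (.C2 1))
    let a0 : Par k := (xInv k).comp ((vRep k (gen 1)).comp a1 - ν (.C2 0))
    let μ : Gen 0 → Par k := fun
      | .A2 j => if j = 0 then a0 else if j = 1 then a1 else 0
      | _ => 0
    refine ⟨homRes 2 μ, ?_⟩
    rw [homRes_comp_dRes]
    refine homRes_congr fun g hg => ?_
    cases g with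
    | C2 i =>
      rw [dPar_C2 μ i (fun _ _ => rfl)]
      obtain rfl | rfl : i = 0 ∨ i = 1 := by fin_cases i <;> simp
      · simp [μ, a0, vRep_x1_comp]
      · simp [μ, a1, LinearMap.comp_neg, vRep_x1_comp]
    | _ => simp [Gen.deg] at hg
  · refine ⟨0, LinearMap.ext fun c => ?_⟩
    rw [LinearMap.comp_apply, LinearMap.zero_apply, homRes_apply, Finset.sum_eq_zero]
    rintro ⟨g, hg⟩ _
    cases g <;> simp [Gen.deg] at hg <;> omega

/-! ### Values in the projective of the first vertex -/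

variable (k) in
/-- The projection of parameters to the first vertex. -/
noncomputable def P00 : Zc k × k →ₗ[k] Zc k × k :=
  (LinearMap.inl k (Zc k) k).comp ((rhoZ k (eV k (0, 0))).comp (LinearMap.fst k (Zc k) k))

theorem rhoZ_eV_apply (v : W) (z : Zc k) (q : W) :
    rhoZ k (eV k v) z (0, q) = if q = v then z (0, q) else 0 := acy_eV_rho v z (0, q)

/-- A parameter at the first vertex. -/
noncomputable def N00 (r : Weyl k) : Par k := nrow (Pi.single ((0 : Fin 2), (0 : Fin 3)) r)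

theorem N00_apply (r : Weyl k) (z : Zc k) (c : k) :
    N00 r (z, c) = vRep k r (z (0, (0, 0))) := by
  rw [N00, nrow_apply, Finset.sum_eq_single ((0 : Fin 2), (0 : Fin 3))]
  · simp
  · intro q _ hq; simp [hq]
  · simp

theorem N00_sub (r s : Weyl k) : N00 (r - s) = N00 r - N00 s := by
  rw [N00, N00, N00, Pi.single_sub, map_sub]

theorem vRep_comp_N00 (a r : Weyl k) : (vRep k a).comp (N00 r) = N00 (a * r) := by
  refine LinearMap.ext fun ⟨z, c⟩ => ?_
  rw [LinearMap.comp_apply, N00_apply, N00_apply, map_mul, Module.End.mul_apply]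

theorem N00_mem {v : W} {r : Weyl k} (h : r ∈ Piece k (pos v + (1, 0))) : N00 r ∈ NR k v := by
  refine mem_NR.2 ⟨_, fun q => ?_, rfl⟩
  by_cases hq : q = ((0 : Fin 2), (0 : Fin 3))
  · subst hq
    rw [Pi.single_eq_same]
    simpa [pos] using h
  · simp [hq]

theorem nrow_comp_P00 (f : W → Weyl k) : (nrow f).comp (P00 k) = N00 (f (0, 0)) := by
  refine LinearMap.ext fun ⟨z, c⟩ => ?_
  rw [LinearMap.comp_apply, N00_apply]
  show nrow f (rhoZ k (eV k (0, 0)) z, 0) = _
  rw [nrow_apply, Finset.sum_eq_single ((0 : Fin 2), (0 : Fin 3))]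
  · rw [rhoZ_eV_apply, if_pos rfl]
  · intro q _ hq
    rw [rhoZ_eV_apply, if_neg hq, map_zero]
  · simp

theorem P00_idem : (P00 k).comp (P00 k) = P00 k := by
  refine LinearMap.ext fun ⟨z, c⟩ => ?_
  show (rhoZ k (eV k (0, 0)) (rhoZ k (eV k (0, 0)) z), (0 : k)) = (rhoZ k (eV k (0, 0)) z, 0)
  rw [← Module.End.mul_apply, ← map_mul, eV_mul_self]

theorem tW_mul_e00 (v : W) (μ : Par k) : tW 1 v μ * e00 k = tW 1 v (μ.comp (P00 k)) := by
  ext1
  · simp [e00]
  · simp only [Rt.mul_j, tW_j, tW_a, e00, hat_a, hat_j, hat_y, map_zero, LinearMap.zero_apply,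
      outer_zero_right, zero_add, add_zero, rJ_mk]
    congr 1
  · have : P00 k ((0 : Zc k), (1 : k)) = 0 := by simp [P00]
    simp [e00, this]
  · simp [e00]
  · simp [e00]

theorem homRes_mul_e00 (n : ℕ) (μ : Gen 0 → Par k) (c : PRes k n) :
    homRes n μ c * e00 k = homRes n (fun g => (μ g).comp (P00 k)) c := by
  simp only [homRes_apply, homCol_apply, Finset.sum_mul, tW_mul_e00, LinearMap.comp_assoc]

theorem e00_mul_self : e00 k * e00 k = e00 k := by
  have h0 : tauM 0 (slot ((0 : Fin 2), (0 : Fin 3)) (0, 0) (1 : Weyl k)) = 0 := by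
    refine Matrix.ext fun i j => ?_
    simp only [tauM, Matrix.map_apply, slot_apply, Matrix.zero_apply]
    split_ifs <;> simp [slope]
  ext1 <;> simp [e00, eV_mul_self, xiZ, xiT, Xi]
  simp [eV, h0]

variable (k) in
/-- The projective of the first vertex. -/
noncomputable abbrev P0e := Submodule.span (Rt k) ({e00 k} : Set (Rt k))

variable (k) in
/-- The projection to the projective of the first vertex. -/
noncomputable def qe : Rt k →ₗ[Rt k] P0e k :=
  (LinearMap.toSpanSingleton (Rt k) (Rt k) (e00 k)).codRestrict (P0e k)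
    fun r => Submodule.smul_mem _ r (Submodule.mem_span_singleton_self _)

theorem mul_e00_of_mem {x : Rt k} (hx : x ∈ P0e k) : x * e00 k = x := by
  obtain ⟨r, rfl⟩ := Submodule.mem_span_singleton.1 hx
  rw [smul_eq_mul, mul_assoc, e00_mul_self]

theorem qe_subtype : (qe k).comp (P0e k).subtype = LinearMap.id :=
  LinearMap.ext fun p => Subtype.ext (mul_e00_of_mem p.2)

/-- The normal form of the residue. -/
theorem residue_split {r0 r1 : Weyl k} (h0 : r0 ∈ Piece k (2, 2)) (h1 : r1 ∈ Piece k (2, 2)) :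
    ∃ g : Fin 3 → Weyl k, (∀ i, g i ∈ Piece k (1, 2)) ∧
      gen 1 * g 1 - gen 0 * g 0 = r0 ∧ gen 1 * g 2 - gen 0 * g 1 = r1 := by
  obtain ⟨a', ha', b', hb', e1⟩ := piece_split (by simp) h1
  norm_num at ha' hb'
  have hb1 : gen 1 * a' ∈ Piece k (2, 2) := by simpa [wt] using gen_mul_mem_piece ha' 1
  obtain ⟨a1, ha1, b1, hb1', e0⟩ := piece_split (φ := r0 + gen 1 * a') (by simp) (add_mem h0 hb1)
  norm_num at ha1 hb1'
  obtain ⟨a2, ha2, c, hc, e2⟩ := piece_split (by simp) hb1'
  norm_num at ha2 hc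
  refine ⟨![-(a1 + gen 1 * a2), -a' + gen 1 * c, b' + gen 0 * c], fun i => ?_, ?_, ?_⟩
  · have g1 : ∀ φ : Weyl k, φ ∈ Piece k (0, 2) → gen 1 * φ ∈ Piece k (1, 2) := fun φ hφ => by
      simpa [wt] using gen_mul_mem_piece hφ 1
    have g0 : gen 0 * c ∈ Piece k (1, 2) := by simpa [wt] using gen_mul_mem_piece hc 0
    fin_cases i
    · exact piece_neg_mem (add_mem ha1 (g1 _ ha2))
    · exact add_mem (piece_neg_mem ha') (g1 _ hc)
    · exact add_mem hb' g0
  · have hx : (gen 0 : Weyl k) * gen 1 = gen 1 * gen 0 := gen_x_comm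
    have : r0 = gen 0 * a1 + gen 1 * (gen 0 * a2 + gen 1 * c) - gen 1 * a' := by
      rw [← e2, ← e0]; abel
    rw [this]
    simp [mul_add, mul_neg, ← mul_assoc, hx]
    abel
  · have hx : (gen 0 : Weyl k) * gen 1 = gen 1 * gen 0 := gen_x_comm
    rw [e1]
    simp [mul_add, mul_neg, ← mul_assoc, hx]
    abel

theorem dA_top [CharZero k] : dA (k := k) 1 2 2 1 = gen 3 * gen 0 ∧ dA (k := k) 1 2 2 0 = 0 := by
  constructor <;> simp [dA, dcoef, dx, smul_smul]

theorem dPar_A2_two [CharZero k] (μ : Gen 0 → Par k)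
    (h1 : ∀ j, μ (.A1 1 j) = 0) :
    dPar μ (.A2 2) = (vRep k (gen 3)).comp ((vRep k (gen 0)).comp (μ (.A1 0 1))) := by
  simp [dPar, sum_gen, Kmat, Fin.sum_univ_two, h1, dA_top.1, dA_top.2, map_mul,
    Module.End.mul_eq_comp, LinearMap.comp_assoc]

theorem dPar_C1 (μ : Gen 0 → Par k) (l : Fin 2) :
    dPar μ (.C1 l 0) = (vRep k (gen 0)).comp (μ (.A1 l 0)) -
      (vRep k (gen 1)).comp (μ (.A1 l 1)) := by
  obtain rfl | rfl : l = 0 ∨ l = 1 := by omega
  all_goals
    simp [dPar, sum_gen, Kmat, kap, Fin.sum_univ_two, sub_eq_add_neg, LinearMap.neg_comp]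
    try abel

/-- A cocycle in degree two is a coboundary. -/
theorem par_exact [CharZero k] (h : Gen 0 → Par k) (hd : ∀ i, dPar h (.C2 i) = 0) :
    ∃ s : Gen 0 → Par k, ∀ g : Gen 0, g.deg = 2 → dPar s g = h g := by
  let s1 : Gen 0 → Par k := fun
    | .A1 l j => if j = 0 then (xInv k).comp (h (.C1 l 0)) else 0
    | _ => 0
  let h2 := h - dPar s1
  have hC : ∀ l j, h2 (.C1 l j) = 0 := fun l j => by
    obtain rfl : j = 0 := by omega
    simp [h2, s1, dPar_C1, vRep_x1_comp]
  obtain ⟨T, hT⟩ : ∃ T : Par k, (vRep k (gen 3)).comp ((vRep k (gen 0)).comp T) = h2 (.A2 2) := by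
    refine ⟨(xInv k).comp (((isUnit_vRep_d (k := k)).unit⁻¹ :
      (Module.End k (V k))ˣ).val.comp (h2 (.A2 2))), ?_⟩
    rw [vRep_x1_comp, ← LinearMap.comp_assoc, ← Module.End.mul_eq_comp,
      (isUnit_vRep_d (k := k)).mul_val_inv, Module.End.one_eq_id, LinearMap.id_comp]
  let s2 : Gen 0 → Par k := fun
    | .A1 l j => if l = 0 then (if j = 0 then (xInv k).comp ((vRep k (gen 1)).comp T) else T) else 0
    | _ => 0
  let h3 := h2 - dPar s2
  have hC3 : ∀ l j, h3 (.C1 l j) = 0 := fun l j => by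
    have := hC l j
    obtain rfl : j = 0 := by omega
    obtain rfl | rfl : l = 0 ∨ l = 1 := by omega
    · simp [h3, this, s2, dPar_C1, vRep_x1_comp]
    · simp [h3, this, s2, dPar_C1]
  have htop : h3 (.A2 2) = 0 := by
    simp only [h3, Pi.sub_apply]
    rw [dPar_A2_two s2 (fun j => by simp [s2])]
    simp [s2, hT]
  have hd3 : ∀ i, dPar h3 (.C2 i) = 0 := fun i => by
    simp [h3, h2, dPar_sub, dPar_dPar, hd i]
  have e1 : h3 (.A2 1) = 0 := vRep_x1_cancel (by
    have := hd3 1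
    rw [dPar_C2 h3 1 hC3] at this
    simpa [htop, sub_eq_zero] using this)
  have e0 : h3 (.A2 0) = 0 := vRep_x1_cancel (by
    have := hd3 0
    rw [dPar_C2 h3 0 hC3] at this
    simpa [e1, sub_eq_zero] using this)
  refine ⟨s1 + s2, fun g hg => ?_⟩
  have hz : h3 g = 0 := by
    cases g with
    | A2 i =>
      obtain rfl | rfl | rfl : i = 0 ∨ i = 1 ∨ i = 2 := by fin_cases i <;> simp
      exacts [e0, e1, htop]
    | C1 l j => exact hC3 l j
    | _ => simp [Gen.deg] at hg
  simp only [h3, h2, Pi.sub_apply, sub_eq_zero] at hz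
  rw [dPar_add, Pi.add_apply, ← hz]
  abel

theorem ext_L0_e00 [CharZero k] : ∀ e : Ext.{0} (ModuleCat.of (Rt k) (Lmod k 0))
    (ModuleCat.of (Rt k) (Submodule.span (Rt k) ({e00 k} : Set (Rt k)))) 2, e = 0 := by
  refine ext_zero_of_complex _ _ (PRes k) (dRes k) (augRes k) augRes_surjective exact_dRes_augRes
    exact_dRes (fun n j hj => ?_) 1 fun f hf => ?_
  · exact ext_zero_of_retract (ι := Fin 1) (fun _ => ModuleCat.ofHom (P0e k).subtype)
      (fun _ => ModuleCat.ofHom (qe k))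
      (by rw [Fin.sum_univ_one]; exact ModuleCat.hom_ext qe_subtype) (ext_PRes_R k n j hj)
  obtain ⟨ν, hν⟩ := homRes_repr ((P0e k).subtype.comp f)
  let h : Gen 0 → Par k := fun g => (ν g).comp (P00 k)
  have hfh : (P0e k).subtype.comp f = homRes 2 h := LinearMap.ext fun c => by
    rw [← homRes_mul_e00, ← LinearMap.congr_fun hν c]
    exact (mul_e00_of_mem (f c).2).symm
  have hcyc : homRes 3 (dPar h) = 0 := by
    rw [← homRes_comp_dRes, ← hfh, LinearMap.comp_assoc, hf, LinearMap.comp_zero]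
  have hr : ∀ i : Fin 2, ∃ r ∈ Piece k (2, 2), dPar h (.C2 i) = N00 r := fun i => by
    have hz : tW 1 (Gen.C2 i : Gen 0).vW (dPar h (.C2 i)) = 0 := by
      rw [← homRes_cdelta 3 (dPar h) ⟨.C2 i, rfl⟩, hcyc, LinearMap.zero_apply]
    obtain ⟨F, hF, hFe⟩ := mem_NR.1 ((tW_one_eq_zero _ _).1 hz)
    refine ⟨F (0, 0), by simpa [Gen.vW, pos] using hF (0, 0), ?_⟩
    rw [← nrow_comp_P00, hFe]
    refine LinearMap.ext fun x => ?_
    have hx : P00 k (P00 k x) = P00 k x := LinearMap.congr_fun P00_idem x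
    simp [dPar, h, LinearMap.sum_apply, hx]
  choose r hr hr' using hr
  obtain ⟨g, hg, eg0, eg1⟩ := residue_split (hr 0) (hr 1)
  let c : Gen 0 → Par k := fun
    | .A2 i => N00 (g i)
    | _ => 0
  have hc : ∀ i, dPar c (.C2 i) = N00 (r i) := fun i => by
    rw [dPar_C2 c i (fun _ _ => rfl)]
    show (vRep k (gen 1)).comp (N00 (g i.succ)) - (vRep k (gen 0)).comp (N00 (g i.castSucc)) = _
    rw [vRep_comp_N00, vRep_comp_N00, ← N00_sub]
    obtain rfl | rfl : i = 0 ∨ i = 1 := by fin_cases i <;> simp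
    · exact congrArg N00 eg0
    · exact congrArg N00 eg1
  obtain ⟨s, hs⟩ := par_exact (h - c) fun i => by rw [dPar_sub, Pi.sub_apply, hr', hc, sub_self]
  refine ⟨(qe k).comp (homRes 1 s), ?_⟩
  have key : (homRes 1 s).comp (dRes k 1) = (P0e k).subtype.comp f := by
    rw [hfh, homRes_comp_dRes, homRes_congr hs]
    refine LinearMap.ext fun x => ?_
    simp only [homRes_apply]
    refine Finset.sum_congr rfl fun a _ => ?_
    have hzero : homCol a.1.vW (c a.1) (x a) = 0 := by
      obtain ⟨g0, hg0⟩ := a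
      cases g0 with
      | A2 i =>
        rw [homCol_apply]
        refine Finset.sum_eq_zero fun q _ => ?_
        rw [vRep_comp_N00, tW_one_eq_zero]
        refine N00_mem ?_
        have := mul_mem_piece (mem_Colsub.1 (x ⟨.A2 i, hg0⟩).2 q) (hg i)
        convert this using 2
        simp [Gen.vW, pos]
      | _ => simp [c, homCol_apply]
    have : homCol a.1.vW ((h - c) a.1) = homCol a.1.vW (h a.1) - homCol a.1.vW (c a.1) := by
      rw [eq_sub_iff_add_eq, ← homCol_add, Pi.sub_apply, sub_add_cancel]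
    rw [this, LinearMap.sub_apply, hzero, sub_zero]
  rw [LinearMap.comp_assoc, key, ← LinearMap.comp_assoc, qe_subtype, LinearMap.id_comp]

end Vale.Agent.P195.CE
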