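import Vale.Agent.P195.CE.HomQ
import Vale.Agent.P195.CE.L0R

/-!
# Assembly of the counterexample
-/

namespace Vale.Agent.P195.CE

open CategoryTheory CategoryTheory.Abelian MvPolynomial

variable {k : Type} [Field k] [CharZero k]

theorem one_mem_L0 : (Pi.single ((0, 0) : W) (1 : Pol k) : W → Pol k) ∈ Lsub k 0 :=
  PolDeg_mem_Lsub_single (K := 0) (by
    simpa [PolDeg, pos] using isWeightedHomogeneous_one k (fun _ : Fin 2 => (1 : ℤ)))

variable (k) in
/-- The generator of `L 0`. -/
noncomputable def x00 : Lmod k 0 := ⟨_, one_mem_L0⟩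

theorem e00_smul_x00 : e00 k • x00 k = x00 k := by
  refine Subtype.ext (funext fun q => ?_)
  rw [e00, rt_smul_L, hat_a, eV_smul_L]
  by_cases hq : q = (0, 0) <;> simp [x00, hq]

theorem x00_generates (l : Lmod k 0) : ∃ r : Rt k, r • x00 k = l := by
  have h : ∀ q : W, ∃ φ ∈ Piece k (pos q), polRep k φ 1 = l.1 q := by
    intro q
    have hb := pos_bounds q
    obtain ⟨r, hr, he⟩ := aug_surj (m := 0) (k := k) (pos q) hb.1 hb.2.2.1 (l.1 q) (by
      intro d hd
      have := mem_Lsub.1 l.2 q hd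
      simp [Finsupp.weight_apply, Finsupp.sum_fintype, Fin.sum_univ_two] at this ⊢
      omega)
    refine ⟨r (Gen.A0 0), by simpa [Gen.vtx, Prod.mk_zero_zero] using hr.2 (Gen.A0 0), ?_⟩
    rw [← he, aug, Finset.sum_eq_single (Gen.A0 (0 : Fin 1))]
    · simp [augMon]
    · intro g _ hg
      cases g with
      | A0 i => exact absurd (congrArg Gen.A0 (Fin.ext (by omega) : i = 0)) hg
      | _ => simp [augMon]
    · simp
  choose φ hφ hφ' using h
  have hc : (fun i : Ix => if i.1 = 0 then φ i.2 else 0) ∈ Asub k ((0, 0) : W) := by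
    rw [mem_Asub]
    intro i
    obtain ⟨w, q⟩ := i
    fin_cases w
    · simpa [tgt_zero, pos] using hφ q
    · simp
  refine ⟨hat (ofCol ((0, 0) : W) ⟨_, hc⟩), Subtype.ext (funext fun q => ?_)⟩
  rw [rt_smul_L, hat_a, Lmod_smul, polAct_apply, Finset.sum_eq_single ((0, 0) : W)]
  · simp [x00, blk, ofCol, colMat, hφ']
  · intro b _ hb; simp [x00, hb]
  · simp

theorem cubic_ne_zero : ∃ x : Lmod k 3, x ≠ 0 := by
  refine ⟨⟨Pi.single ((0, 0) : W) (X 0 ^ 3), PolDeg_mem_Lsub_single (K := 3) ?_⟩, fun h => ?_⟩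
  · simpa [PolDeg, pos] using (isWeightedHomogeneous_X k (fun _ : Fin 2 => (1 : ℤ)) 0).pow 3
  · have := congrFun (congrArg Subtype.val h) ((0, 0) : W)
    simp at this

/-- The counterexample, from the Hom data of `L 0` into itself. -/
theorem exists_counterexample (h0 : HomData k 0 0) :
    ∃ (M : Type) (_ : AddCommGroup M) (_ : Module (Rt k) M), Module.Finite (Rt k) M ∧
      (∀ i, 1 ≤ i → Subsingleton (Ext.{0} (ModuleCat.of (Rt k) M) (ModuleCat.of (Rt k) M) i) ∧
        Subsingleton (Ext.{0} (ModuleCat.of (Rt k) M) (ModuleCat.of (Rt k) (Rt k)) i)) ∧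
      ¬ Module.Projective (Rt k) M := by
  refine counterexample_of_data (k := k) (fun m => Lmod k m) (fun m => Tmod k m)
    (fun m => Lincl k m) (fun m => Tproj k m) Lincl_injective Tproj_surjective exact_Lincl_Tproj
    ?_ ?_ ?_ cubic_ne_zero (e00 k) ?_ (x00 k) e00_smul_x00 x00_generates ext_L0_R ext_L0_e00
  · intro m j hj
    rcases eq_or_ne m 0 with rfl | hm
    · exact ext_T_L h0 j hj
    · exact ext_T_L (homData_of_ne hm.symm) j hj
  · intro m hm φ
    exact hom_T_L (by omega) φ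
  · intro m hm j e
    rcases Nat.eq_zero_or_pos j with rfl | hj
    · exact Vale.Agent.P176.ext_zero_of_hom
        (fun f => ModuleCat.hom_ext (hom_T_L (by omega) f.hom)) e
    · exact ext_T_L (homData_of_ne (by omega)) j hj e
  · exact hat_eV_idem _

end Vale.Agent.P195.CE
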