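import Vale.Agent.P195.CE.HomOps
import Vale.Agent.P195.CE.CplxExact

/-!
# Exactness of the cochain complex with values in a module of polynomials

For `K ≠ m` the complex `Hom(K_m, L_K)` has a contraction up to the scalar `K - m`.
-/

namespace Vale.Agent.P195.CE

open MvPolynomial

variable {k : Type} [Field k] {m : ℕ}

variable (k) in
/-- Polynomials of degree `N`. -/
noncomputable def Hd (N : ℤ) : Submodule k (Pol k) :=
  weightedHomogeneousSubmodule k (fun _ : Fin 2 => (1 : ℤ)) N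

theorem mem_Hd {N : ℤ} {f : Pol k} :
    f ∈ Hd k N ↔ IsWeightedHomogeneous (fun _ : Fin 2 => (1 : ℤ)) f N := Iff.rfl

theorem euler_of_mem {N : ℤ} {f : Pol k} (hf : f ∈ Hd k N) : Euler (N : k) f := by
  unfold Euler
  rw [as_sum f]
  simp only [map_sum, Finset.mul_sum, Finset.smul_sum, ← Finset.sum_add_distrib]
  refine Finset.sum_congr rfl fun s hs => ?_
  rw [X_mul_pderiv_monomial, X_mul_pderiv_monomial, ← Nat.cast_smul_eq_nsmul k,
    ← Nat.cast_smul_eq_nsmul k, ← add_smul]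
  congr 1
  have h := hf (mem_support_iff.1 hs)
  rw [Finsupp.weight_apply, Finsupp.sum_fintype _ _ (fun i => by simp), Fin.sum_univ_two] at h
  rw [← h]
  simp

theorem X_mul_mem_Hd {N N' : ℤ} {f : Pol k} (hf : f ∈ Hd k N) (i : Fin 2) (h : N' = N + 1) :
    X i * f ∈ Hd k N' := by
  subst h
  rw [add_comm]
  exact IsWeightedHomogeneous.mul (isWeightedHomogeneous_X k _ i) hf

theorem pderiv_mem_Hd {N N' : ℤ} {f : Pol k} (hf : f ∈ Hd k N) (i : Fin 2) (h : N = N' + 1) :
    pderiv i f ∈ Hd k N' :=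
  IsWeightedHomogeneous.pderiv hf h.symm

theorem cOp_mem {N N' : ℤ} {F : ℤ → Pol k} (hF : ∀ i, F i ∈ Hd k N) (n : k) (h : N = N' + 1)
    (i : ℤ) : cOp n F i ∈ Hd k N' :=
  sub_mem (Submodule.smul_mem _ _ (pderiv_mem_Hd (hF _) _ h))
    (Submodule.smul_mem _ _ (pderiv_mem_Hd (hF _) _ h))

theorem oOp₀_mem {N N' : ℤ} {F G : ℤ → Pol k} (hF : ∀ i, F i ∈ Hd k N) (hG : ∀ i, G i ∈ Hd k N)
    (M : k) (h : N = N' + 1) (i : ℤ) : oOp₀ M F G i ∈ Hd k N' := by
  refine sub_mem (sub_mem ?_ ?_) ?_ <;> refine Submodule.smul_mem _ _ (Submodule.smul_mem _ _ ?_)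
  exacts [pderiv_mem_Hd (hF _) _ h, pderiv_mem_Hd (hF _) _ h, pderiv_mem_Hd (hG _) _ h]

theorem oOp₁_mem {N N' : ℤ} {F G : ℤ → Pol k} (hF : ∀ i, F i ∈ Hd k N) (hG : ∀ i, G i ∈ Hd k N)
    (M : k) (h : N = N' + 1) (i : ℤ) : oOp₁ M F G i ∈ Hd k N' := by
  refine sub_mem (add_mem ?_ ?_) ?_ <;> refine Submodule.smul_mem _ _ (Submodule.smul_mem _ _ ?_)
  exacts [pderiv_mem_Hd (hF _) _ h, pderiv_mem_Hd (hG _) _ h, pderiv_mem_Hd (hG _) _ h]

/-! ### The differential on cochains -/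

/-- The differential on cochains. -/
noncomputable def hD (h : Gen m → Pol k) (g : Gen m) : Pol k :=
  ∑ g', polRep k (Kmat m g g') (h g')

theorem hD_smul (c : k) (h : Gen m → Pol k) (g : Gen m) :
    hD (fun g' => c • h g') g = c • hD h g := by
  simp [hD, map_smul, Finset.smul_sum]

theorem polRep_sub (a b : Weyl k) : polRep k (a - b) = polRep k a - polRep k b :=
  map_sub (polRep k) a b

theorem polRep_neg (a : Weyl k) : polRep k (-a) = -polRep k a :=
  map_neg (polRep k) a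

theorem polRep_dx (l e : Fin 2) (f : Pol k) : polRep k (dx l e) f = pderiv l (X e * f) := by
  fin_cases l <;> fin_cases e <;> simp [dx, polRep, polGen, pmul]

theorem polRep_dA (l : Fin 2) (n i i' : ℕ) (f : Pol k) : polRep k (dA l n i i') f =
    (n : k)⁻¹ • ((dcoef 0 n i i' : k) • pderiv l (X 0 * f) +
      (dcoef 1 n i i' : k) • pderiv l (X 1 * f)) - (dcoef l n i i' : k) • f := by
  simp [dA, polRep_sub, polRep_dx, smul_add]
  simp [polRep, polGen]

theorem polRep_dC (l : Fin 2) (q i i' : ℕ) (f : Pol k) : polRep k (dC l q i i') f =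
    ((q + 1 : ℕ) : k)⁻¹ • ((dcoef 0 q i i' : k) • pderiv l (X 0 * f) +
      (dcoef 1 q i i' : k) • pderiv l (X 1 * f)) -
      (((q + 2 : ℕ) : k) / ((q + 1 : ℕ) : k) * dcoef l q i i') • f := by
  simp [dC, polRep_sub, polRep_dx, smul_add]
  simp [polRep, polGen]

theorem sum_dcoef_cast {n i : ℕ} (hi : i ≤ n) (l : Fin 2) (Φ : ℤ → Pol k) :
    ∑ i' : Fin n, (dcoef l n i i' : k) • Φ ((i' : ℕ) : ℤ) =
      if l = 0 then (i : k) • Φ ((i : ℤ) - 1) else ((n : k) - (i : k)) • Φ (i : ℤ) := by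
  obtain rfl | rfl : l = 0 ∨ l = 1 := by omega
  · rw [sum_dcoef_zero hi fun j => Φ (j : ℤ)]
    rcases i with _ | i <;> simp
  · rw [sum_dcoef_one hi fun j => Φ (j : ℤ), Nat.cast_sub hi]
    simp

theorem sum_polRep_dA [CharZero k] (l : Fin 2) {n i : ℕ} (hn : n ≠ 0) (hi : i ≤ n)
    (F : ℤ → Pol k) : ∑ i' : Fin n, polRep k (dA l n i i') (F ((i' : ℕ) : ℤ)) =
      (n : k)⁻¹ • lOp (n : k) (n : k) l F (i : ℤ) := by
  have h0 := sum_dcoef_cast (k := k) hi 0 fun j => pderiv l (X 0 * F j)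
  have h1 := sum_dcoef_cast (k := k) hi 1 fun j => pderiv l (X 1 * F j)
  have h2 := sum_dcoef_cast (k := k) hi l F
  simp only [↓reduceIte, one_ne_zero, Fin.isValue] at h0 h1
  simp only [polRep_dA, Finset.sum_sub_distrib, ← Finset.smul_sum, Finset.sum_add_distrib, h0, h1,
    h2, lOp, smul_sub, smul_smul, inv_mul_cancel₀ (Nat.cast_ne_zero.2 hn : (n : k) ≠ 0), one_smul,
    Int.cast_natCast]

theorem sum_polRep_dC [CharZero k] (l : Fin 2) {q i : ℕ} (hi : i ≤ q) (F : ℤ → Pol k) :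
    ∑ i' : Fin q, polRep k (dC l q i i') (F ((i' : ℕ) : ℤ)) =
      ((q + 1 : ℕ) : k)⁻¹ • lOp ((q + 2 : ℕ) : k) (q : k) l F (i : ℤ) := by
  have h0 := sum_dcoef_cast (k := k) hi 0 fun j => pderiv l (X 0 * F j)
  have h1 := sum_dcoef_cast (k := k) hi 1 fun j => pderiv l (X 1 * F j)
  have h2 := sum_dcoef_cast (k := k) hi l F
  simp only [↓reduceIte, one_ne_zero, Fin.isValue] at h0 h1
  simp only [polRep_dC, Finset.sum_sub_distrib, mul_smul, ← Finset.smul_sum,
    Finset.sum_add_distrib, h0, h1, h2, lOp, smul_sub, Int.cast_natCast]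
  congr 1
  rw [smul_smul, div_eq_inv_mul]

theorem sum_polRep_kap {n i : ℕ} (hi : i < n) (F : ℤ → Pol k) :
    ∑ i' : Fin (n + 1), polRep k (kap i i') (F ((i' : ℕ) : ℤ)) = kOp F (i : ℤ) := by
  simp only [kap, polRep_sub, LinearMap.sub_apply, Finset.sum_sub_distrib, kOp]
  congr 1
  · rw [Finset.sum_eq_single ⟨i + 1, by omega⟩ (fun b _ hb => ?_) (by simp)]
    · simp [polRep, polGen, pmul]
    · have : (b : ℕ) ≠ i + 1 := fun h => hb (Fin.ext h)
      simp [this]
  · rw [Finset.sum_eq_single ⟨i, by omega⟩ (fun b _ hb => ?_) (by simp)]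
    · simp [polRep, polGen, pmul]
    · have : (b : ℕ) ≠ i := fun h => hb (Fin.ext h)
      simp [this]

section cells

variable [CharZero k] {h : Gen m → Pol k} {F F' : ℤ → Pol k} {G : Fin 2 → ℤ → Pol k}

omit [CharZero k] in
theorem hD_A0 (h : Gen m → Pol k) (i : Fin (m + 1)) : hD h (.A0 i) = 0 := by
  simp [hD, Kmat]

theorem hD_A1 (hF : ∀ j : Fin (m + 1), h (.A0 j) = F j) (l : Fin 2) (i : Fin (m + 2)) :
    hD h (.A1 l i) = dA₁ (m : k) l F i := by
  have e := sum_polRep_dA (k := k) l (Nat.succ_ne_zero m) (Nat.lt_succ_iff.1 i.2) F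
  simp [hD, sum_gen, Kmat, hF, dA₁] at e ⊢
  exact e

theorem hD_A2 (hG : ∀ l (j : Fin (m + 2)), h (.A1 l j) = G l j) (i : Fin (m + 3)) :
    hD h (.A2 i) = dA₂ (m : k) (G 0) (G 1) i := by
  have e0 := sum_polRep_dA (k := k) 0 (Nat.succ_ne_zero (m + 1)) (Nat.lt_succ_iff.1 i.2) (G 1)
  have e1 := sum_polRep_dA (k := k) 1 (Nat.succ_ne_zero (m + 1)) (Nat.lt_succ_iff.1 i.2) (G 0)
  simp [hD, sum_gen, Kmat, hG, dA₂, polRep_neg, Finset.sum_neg_distrib, add_assoc,
    one_add_one_eq_two] at e0 e1 ⊢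
  rw [e0, e1, sub_eq_add_neg]

omit [CharZero k] in
theorem hD_C0 (hF : ∀ j : Fin (m + 1), h (.A0 j) = F j) (i : Fin m) :
    hD h (.C0 i) = kOp F i := by
  have e := sum_polRep_kap (k := k) i.2 F
  simp [hD, sum_gen, Kmat, hF] at e ⊢
  exact e

theorem hD_C1 (hH : ∀ j : Fin m, h (.C0 j) = F j) (hG : ∀ l (j : Fin (m + 2)), h (.A1 l j) = G l j)
    (l : Fin 2) (i : Fin (m + 1)) : hD h (.C1 l i) = dC₁ (m : k) l F (G l) i := by
  have e0 := sum_polRep_dC (k := k) l (Nat.lt_succ_iff.1 i.2) F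
  have e1 := sum_polRep_kap (k := k) i.2 (G l)
  obtain rfl | rfl : l = 0 ∨ l = 1 := by omega
  all_goals
    simp [hD, sum_gen, Kmat, hH, hG, dC₁, polRep_neg, Finset.sum_neg_distrib] at e0 e1 ⊢
    rw [e0, e1]
    abel

theorem hD_C2 (hF : ∀ j : Fin (m + 3), h (.A2 j) = F j)
    (hG : ∀ l (j : Fin (m + 1)), h (.C1 l j) = G l j) (i : Fin (m + 2)) :
    hD h (.C2 i) = dC₂ (m : k) F (G 0) (G 1) i := by
  have e := sum_polRep_kap (k := k) (n := m + 2) i.2 F
  have e0 := sum_polRep_dC (k := k) 1 (Nat.lt_succ_iff.1 i.2) (G 0)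
  have e1 := sum_polRep_dC (k := k) 0 (Nat.lt_succ_iff.1 i.2) (G 1)
  simp [hD, sum_gen, Kmat, hF, hG, dC₂, polRep_neg, Finset.sum_neg_distrib, add_assoc,
    one_add_one_eq_two] at e e0 e1 ⊢
  rw [e, e0, e1, sub_eq_add_neg, add_assoc]

end cells

/-- Extension of a cell by zero. -/
noncomputable def ext (N : ℕ) (f : Fin N → Pol k) (i : ℤ) : Pol k :=
  if h : 0 ≤ i ∧ i.toNat < N then f ⟨i.toNat, h.2⟩ else 0

@[simp]
theorem ext_coe {N : ℕ} (f : Fin N → Pol k) (i : Fin N) : ext N f ((i : ℕ) : ℤ) = f i := by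
  simp [ext]

theorem ext_mem {N : ℕ} {f : Fin N → Pol k} {S : Submodule k (Pol k)} (hf : ∀ i, f i ∈ S)
    (i : ℤ) : ext N f i ∈ S := by
  unfold ext
  split_ifs <;> simp [hf]

/-- Zero coefficient on the boundary, or an index in range. -/
theorem smul_pred_eq_zero {n : ℕ} {Φ : ℤ → Pol k} (h : ∀ j : Fin n, Φ ((j : ℕ) : ℤ) = 0)
    (i : Fin (n + 1)) :
    (((i : ℕ) : ℤ) : k) • Φ (((i : ℕ) : ℤ) - 1) = 0 ∧
      ((n : k) - (((i : ℕ) : ℤ) : k)) • Φ ((i : ℕ) : ℤ) = 0 := by
  constructor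
  · refine Fin.cases (by simp) (fun j => ?_) i
    simp [h j]
  · refine Fin.lastCases (by simp) (fun j => ?_) i
    simp [h j]

theorem cOp_eq_zero {n : ℕ} {Φ : ℤ → Pol k} (h : ∀ j : Fin n, Φ ((j : ℕ) : ℤ) = 0)
    (i : Fin (n + 1)) : cOp (n : k) Φ i = 0 := by
  rw [cOp, (smul_pred_eq_zero (Φ := fun j => pderiv 1 (Φ j)) (by simp [h]) i).1,
    (smul_pred_eq_zero (Φ := fun j => pderiv 0 (Φ j)) (by simp [h]) i).2, sub_zero]

theorem oOp_eq_zero {Φ Ψ : ℤ → Pol k} (h : ∀ j : Fin (m + 1), Φ ((j : ℕ) : ℤ) = 0)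
    (h' : ∀ j : Fin (m + 1), Ψ ((j : ℕ) : ℤ) = 0) (i : Fin (m + 2)) :
    oOp₀ (m : k) Φ Ψ i = 0 ∧ oOp₁ (m : k) Φ Ψ i = 0 := by
  have a := fun l => smul_pred_eq_zero (Φ := fun j => pderiv l (Φ j)) (by simp [h]) i
  have b := fun l => smul_pred_eq_zero (Φ := fun j => pderiv l (Ψ j)) (by simp [h']) i
  simp only [Nat.cast_add, Nat.cast_one] at a b
  constructor
  · simp only [oOp₀, (a 0).2, (a 1).1, (b 0).1, smul_zero, sub_zero]
  · simp only [oOp₁, (a 1).2, (b 0).2, (b 1).1, smul_zero, sub_zero, add_zero]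

theorem hom_exact {k : Type} [Field k] [CharZero k] {m : ℕ} (K : ℤ) (hK : K ≠ m) (p : ℕ)
    (h : Gen m → Pol k)
    (hh : ∀ g, MvPolynomial.IsWeightedHomogeneous (fun _ : Fin 2 => (1 : ℤ)) (h g) (K + g.vtx.1))
    (hp : ∀ g, g.deg ≠ p → h g = 0)
    (hd : ∀ g, ∑ g', polRep k (Kmat m g g') (h g') = 0) :
    ∃ u : Gen m → Pol k,
      (∀ g, MvPolynomial.IsWeightedHomogeneous (fun _ : Fin 2 => (1 : ℤ)) (u g) (K + g.vtx.1)) ∧
      (∀ g, g.deg + 1 ≠ p → u g = 0) ∧ ∀ g, ∑ g', polRep k (Kmat m g g') (u g') = h g := by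
  have hne : (K : k) - (m : k) ≠ 0 := by
    rw [sub_ne_zero]; exact_mod_cast hK
  suffices H : ∃ U : Gen m → Pol k, (∀ g, U g ∈ Hd k (K + g.vtx.1)) ∧
      (∀ g, g.deg + 1 ≠ p → U g = 0) ∧ ∀ g, hD U g = ((K : k) - (m : k)) • h g by
    obtain ⟨U, h1, h2, h3⟩ := H
    refine ⟨fun g => ((K : k) - (m : k))⁻¹ • U g, fun g => Submodule.smul_mem _ _ (h1 g),
      fun g hg => by simp [h2 g hg], fun g => ?_⟩
    show hD (fun g => ((K : k) - (m : k))⁻¹ • U g) g = h g
    rw [hD_smul, h3, smul_smul, inv_mul_cancel₀ hne, one_smul]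
  have hA : (m : k) + 1 ≠ 0 := Nat.cast_add_one_ne_zero m
  have hB : (m : k) + 2 ≠ 0 := by exact_mod_cast Nat.succ_ne_zero (m + 1)
  let F := ext (m + 1) fun i => h (.A0 i)
  let G : Fin 2 → ℤ → Pol k := fun l => ext (m + 2) fun i => h (.A1 l i)
  let A := ext (m + 3) fun i => h (.A2 i)
  let H := ext m fun i => h (.C0 i)
  let J : Fin 2 → ℤ → Pol k := fun l => ext (m + 1) fun i => h (.C1 l i)
  let Z := ext (m + 2) fun i => h (.C2 i)
  have mF : ∀ i, F i ∈ Hd k K := ext_mem fun i => by simpa [mem_Hd, Gen.vtx] using hh (.A0 i)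
  have mG : ∀ l i, G l i ∈ Hd k K := fun l => ext_mem fun i => by
    simpa [mem_Hd, Gen.vtx] using hh (.A1 l i)
  have mA : ∀ i, A i ∈ Hd k K := ext_mem fun i => by simpa [mem_Hd, Gen.vtx] using hh (.A2 i)
  have mH : ∀ i, H i ∈ Hd k (K + 1) := ext_mem fun i => by simpa [mem_Hd, Gen.vtx] using hh (.C0 i)
  have mJ : ∀ l i, J l i ∈ Hd k (K + 1) := fun l => ext_mem fun i => by
    simpa [mem_Hd, Gen.vtx] using hh (.C1 l i)
  have mZ : ∀ i, Z i ∈ Hd k (K + 1) := ext_mem fun i => by simpa [mem_Hd, Gen.vtx] using hh (.C2 i)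
  have eF := fun i => euler_of_mem (mF i)
  have eG := fun l i => euler_of_mem (mG l i)
  have eA := fun i => euler_of_mem (mA i)
  have hcast : ((K + 1 : ℤ) : k) = (K : k) + 1 := by push_cast; ring
  have eH : ∀ i, Euler ((K : k) + 1) (H i) := fun i => hcast ▸ euler_of_mem (mH i)
  have eJ : ∀ l i, Euler ((K : k) + 1) (J l i) := fun l i => hcast ▸ euler_of_mem (mJ l i)
  have eZ : ∀ i, Euler ((K : k) + 1) (Z i) := fun i => hcast ▸ euler_of_mem (mZ i)
  have dF1 : ∀ l (i : Fin (m + 2)), dA₁ (m : k) l F i = 0 := fun l i =>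
    (hD_A1 (fun j => by simp [F]) l i).symm.trans (hd _)
  have dF2 : ∀ i : Fin m, kOp F i = 0 := fun i =>
    (hD_C0 (fun j => by simp [F]) i).symm.trans (hd _)
  have dG1 : ∀ i : Fin (m + 3), dA₂ (m : k) (G 0) (G 1) i = 0 := fun i =>
    (hD_A2 (G := G) (fun l j => by simp [G]) i).symm.trans (hd _)
  have dG2 : ∀ l (i : Fin (m + 1)), dC₁ (m : k) l H (G l) i = 0 := fun l i =>
    (hD_C1 (F := H) (G := G) (fun j => by simp [H]) (fun l j => by simp [G])
      l i).symm.trans (hd _)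
  have dJ : ∀ i : Fin (m + 2), dC₂ (m : k) A (J 0) (J 1) i = 0 := fun i =>
    (hD_C2 (G := J) (fun j => by simp [A]) (fun l j => by simp [J])
      i).symm.trans (hd _)
  rcases p with _ | _ | _ | _ | p
  · refine ⟨0, fun g => zero_mem _, fun g _ => rfl, fun g => ?_⟩
    simp only [hD, Pi.zero_apply, map_zero, Finset.sum_const_zero]
    cases g with
    | A0 i =>
      have key := ident_A0 (M := (m : k)) (K := (K : k)) hA F i (eF i)
      have a0 := dF1 0 i.succ
      have a1 := dF1 1 i.castSucc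
      simp only [Fin.val_succ, Fin.val_castSucc, Nat.cast_add, Nat.cast_one] at a0 a1
      rw [a0, a1, cOp_eq_zero dF2 i, smul_zero, add_zero, add_zero] at key
      simpa [F] using key
    | _ => rw [hp _ (by simp [Gen.deg]), smul_zero]
  · let u : ℤ → Pol k := fun j => xOp (G 0) (G 1) j + ((m : k) + 1)⁻¹ • cOp (m : k) H j
    let U : Gen m → Pol k := fun
      | .A0 i => u i
      | _ => 0
    have mu : ∀ j, u j ∈ Hd k K := fun j => add_mem (add_mem (mG 0 _) (mG 1 _))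
      (Submodule.smul_mem _ _ (cOp_mem mH _ rfl j))
    refine ⟨U, fun g => ?_, fun g hg => ?_, fun g => ?_⟩
    · cases g with
      | A0 i => simpa [U, Gen.vtx] using mu i
      | _ => exact zero_mem _
    · cases g <;> simp [Gen.deg, U] at hg ⊢
    · cases g with
      | A0 i => rw [hD_A0, hp _ (by simp [Gen.deg]), smul_zero]
      | A1 l i =>
        rw [hD_A1 (F := u) (fun j => rfl)]
        have a0 := dG1 i.castSucc
        have a1 := dG1 i.succ
        simp only [Fin.val_succ, Fin.val_castSucc, Nat.cast_add, Nat.cast_one] at a0 a1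
        obtain ⟨o0, o1⟩ := oOp_eq_zero (dG2 0) (dG2 1) i
        obtain rfl | rfl : l = 0 ∨ l = 1 := by omega
        · have key := ident_A1_zero (K := (K : k)) hA hB (G 0) (G 1) H i (eG 0 i)
          rw [a0, o0, add_zero, add_zero] at key
          simpa [u, G] using key
        · have key := ident_A1_one (K := (K : k)) hA hB (G 0) (G 1) H i (eG 1 i)
          rw [a1, o1, sub_zero, add_zero] at key
          simpa [u, G] using key
      | A2 i =>
        rw [hD_A2 (G := 0) (fun l j => rfl), hp _ (by simp [Gen.deg]), smul_zero]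
        simp [dA₂, lOp]
      | C0 i =>
        rw [hD_C0 (F := u) (fun j => rfl)]
        have key := ident_C0 (K := (K : k)) hA (G 0) (G 1) H i (eH i)
        have a0 := dG2 0 i.succ
        have a1 := dG2 1 i.castSucc
        simp only [Fin.val_succ, Fin.val_castSucc, Nat.cast_add, Nat.cast_one] at a0 a1
        rw [a0, a1, add_zero, add_zero] at key
        simpa [u, H] using key
      | C1 l i =>
        rw [hD_C1 (F := 0) (G := 0) (fun j => rfl) (fun l j => rfl), hp _ (by simp [Gen.deg]),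
          smul_zero]
        simp [dC₁, lOp, kOp]
      | C2 i =>
        rw [hD_C2 (F := 0) (G := 0) (fun j => rfl) (fun l j => rfl), hp _ (by simp [Gen.deg]),
          smul_zero]
        simp [dC₂, lOp, kOp]
  · let u₀ : ℤ → Pol k := fun j => A j + oOp₀ (m : k) (J 0) (J 1) j
    let u₁ : ℤ → Pol k := fun j => -A (j + 1) + oOp₁ (m : k) (J 0) (J 1) j
    let V : Fin 2 → ℤ → Pol k := fun l => if l = 0 then u₀ else u₁
    let U : Gen m → Pol k := fun
      | .A1 l i => V l i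
      | .C0 i => xOp (J 0) (J 1) i
      | _ => 0
    have mV : ∀ l j, V l j ∈ Hd k K := fun l j => by
      obtain rfl | rfl : l = 0 ∨ l = 1 := by omega
      · exact add_mem (mA _) (oOp₀_mem (mJ 0) (mJ 1) _ rfl j)
      · exact add_mem (neg_mem (mA _)) (oOp₁_mem (mJ 0) (mJ 1) _ rfl j)
    refine ⟨U, fun g => ?_, fun g hg => ?_, fun g => ?_⟩
    · cases g with
      | A1 l i => simpa [U, Gen.vtx] using mV l i
      | C0 i => simpa [U, Gen.vtx] using
          (show xOp (J 0) (J 1) (((i : ℕ) : ℤ)) ∈ Hd k (K + 1) from add_mem (mJ 0 _) (mJ 1 _))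
      | _ => exact zero_mem _
    · cases g <;> simp [Gen.deg, U] at hg ⊢
    · cases g with
      | A0 i => rw [hD_A0, hp _ (by simp [Gen.deg]), smul_zero]
      | A1 l i =>
        rw [hD_A1 (F := 0) (fun j => rfl), hp _ (by simp [Gen.deg]), smul_zero]
        simp [dA₁, lOp]
      | A2 i =>
        rw [hD_A2 (G := V) (fun l j => rfl)]
        have key := ident_A2 (K := (K : k)) hA hB A (J 0) (J 1) i (eA i)
        have z := cOp_eq_zero dJ i
        push_cast at z
        rw [z, smul_zero, add_zero] at key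
        simpa [V, u₀, u₁, A] using key
      | C0 i =>
        rw [hD_C0 (F := 0) (fun j => rfl), hp _ (by simp [Gen.deg]), smul_zero]
        simp [kOp]
      | C1 l i =>
        rw [hD_C1 (F := xOp (J 0) (J 1)) (G := V) (fun j => rfl) (fun l j => rfl)]
        have a0 := dJ i.castSucc
        have a1 := dJ i.succ
        simp only [Fin.val_succ, Fin.val_castSucc, Nat.cast_add, Nat.cast_one] at a0 a1
        obtain rfl | rfl : l = 0 ∨ l = 1 := by omega
        · have key := ident_C1_zero (K := (K : k)) hA hB A (J 0) (J 1) i (eJ 0 i)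
          rw [a0, add_zero] at key
          simpa [V, u₀, J] using key
        · have key := ident_C1_one (K := (K : k)) hA hB A (J 0) (J 1) i (eJ 1 i)
          rw [a1, sub_zero] at key
          simpa [V, u₁, J] using key
      | C2 i =>
        rw [hD_C2 (F := 0) (G := 0) (fun j => rfl) (fun l j => rfl), hp _ (by simp [Gen.deg]),
          smul_zero]
        simp [dC₂, lOp, kOp]
  · let W : ℤ → Pol k := fun j => ((m : k) + 2)⁻¹ • cOp ((m : k) + 2) Z j
    let V : Fin 2 → ℤ → Pol k := fun l => if l = 0 then Z else fun j => -Z (j + 1)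
    let U : Gen m → Pol k := fun
      | .A2 i => W i
      | .C1 l i => V l i
      | _ => 0
    refine ⟨U, fun g => ?_, fun g hg => ?_, fun g => ?_⟩
    · cases g with
      | A2 i => simpa [U, W, Gen.vtx] using Submodule.smul_mem _ _ (cOp_mem mZ _ rfl _)
      | C1 l i =>
        obtain rfl | rfl : l = 0 ∨ l = 1 := by omega
        · simpa [U, V, Gen.vtx] using mZ _
        · simpa [U, V, Gen.vtx] using mZ _
      | _ => exact zero_mem _
    · cases g <;> simp [Gen.deg, U] at hg ⊢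
    · cases g with
      | A0 i => rw [hD_A0, hp _ (by simp [Gen.deg]), smul_zero]
      | A1 l i =>
        rw [hD_A1 (F := 0) (fun j => rfl), hp _ (by simp [Gen.deg]), smul_zero]
        simp [dA₁, lOp]
      | A2 i =>
        rw [hD_A2 (G := 0) (fun l j => rfl), hp _ (by simp [Gen.deg]), smul_zero]
        simp [dA₂, lOp]
      | C0 i =>
        rw [hD_C0 (F := 0) (fun j => rfl), hp _ (by simp [Gen.deg]), smul_zero]
        simp [kOp]
      | C1 l i =>
        rw [hD_C1 (F := 0) (G := 0) (fun j => rfl) (fun l j => rfl), hp _ (by simp [Gen.deg]),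
          smul_zero]
        simp [dC₁, lOp, kOp]
      | C2 i =>
        rw [hD_C2 (F := W) (G := V) (fun j => rfl) (fun l j => rfl)]
        have key := ident_C2 (K := (K : k)) hB Z i (eZ i)
        simpa [W, V, Z] using key
  · refine ⟨0, fun g => zero_mem _, fun g _ => rfl, fun g => ?_⟩
    have : h g = 0 := hp g (by cases g <;> simp [Gen.deg])
    simp [hD, this]

end Vale.Agent.P195.CE
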