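import Vale.Agent.P195.CE.Periodic
import Vale.Agent.P195.CE.HomExact

/-!
# What is needed of the Hom complex of the complex of `m` into `L K`
-/

namespace Vale.Agent.P195.CE

variable {k : Type} [Field k] [CharZero k] {m : ℕ}

/-- The cochain differential of the Spencer complex. -/
noncomputable def kD (h : Gen m → Pol k) (g : Gen m) : Pol k :=
  ∑ g', polRep k (Kmat m g g') (h g')

/-- The cochain operator of the correction of degree three. -/
noncomputable def sD (h : Gen m → Pol k) (g : Gen m) : Pol k :=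
  ∑ g', polRep k (sigma k m g g') (h g')

/-- Cochains of degree `p` with values in `L K`. -/
def IsCo (K p : ℕ) (h : Gen m → Pol k) : Prop :=
  (∀ g, h g ∈ PolDeg k ((K : ℤ) + g.vtx.1)) ∧ ∀ g, g.deg ≠ p → h g = 0

variable (k m) in
/-- The exactness statements used for the periodic resolution. -/
structure HomData (K : ℕ) : Prop where
  /-- degree zero -/
  e0 : ∀ c : ℕ, c ≠ 0 → ∀ h w : Gen m → Pol k, IsCo K 0 h → IsCo K 2 w → (∀ g, kD h g = 0) →
    (∀ g, kD w g + c • sD h g = 0) → h = 0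
  /-- degree one -/
  e1 : ∀ h : Gen m → Pol k, IsCo K 1 h → (∀ g, kD h g = 0) →
    ∃ u, IsCo K 0 u ∧ ∀ g, kD u g = h g
  /-- degree two -/
  e2 : ∀ h : Gen m → Pol k, IsCo K 2 h → (∀ g, kD h g = 0) →
    ∃ u, IsCo K 1 u ∧ ∀ g, kD u g = h g
  /-- degree three -/
  e3 : ∀ c : ℕ, c ≠ 0 → ∀ h : Gen m → Pol k, IsCo K 3 h →
    ∃ u0 u2, IsCo K 0 u0 ∧ IsCo K 2 u2 ∧ (∀ g, kD u0 g = 0) ∧
      ∀ g, kD u2 g + c • sD u0 g = h g

theorem Gen.deg_eq_three_kD {g : Gen m} (h : Gen m → Pol k) (hh : ∀ g, g.deg ≠ 3 → h g = 0) :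
    kD h g = 0 := by
  refine Finset.sum_eq_zero fun g' _ => ?_
  by_cases h3 : g'.deg = 3
  · have := deg_le_three g
    rw [Kmat_support g g' (by omega)]
    simp
  · rw [hh g' h3, map_zero]

/-- Away from `K = m` the complex is exact. -/
theorem homData_of_ne {K : ℕ} (hK : K ≠ m) : HomData k m K := by
  have key : ∀ p (h : Gen m → Pol k), IsCo K p h → (∀ g, kD h g = 0) →
      ∃ u, IsCo K (p - 1) u ∧ (p = 0 → u = 0) ∧ ∀ g, kD u g = h g := by
    intro p h hh hd
    obtain ⟨u, hu, hp, he⟩ := hom_exact (K : ℤ) (by exact_mod_cast hK) p h hh.1 hh.2 hd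
    exact ⟨u, ⟨hu, fun g hg => hp g fun h' => hg (by omega)⟩,
      fun h0 => funext fun g => hp g (by omega), he⟩
  refine ⟨fun c hc h w hh _ hd _ => ?_, fun h hh hd => ?_, fun h hh hd => ?_,
    fun c hc h hh => ?_⟩
  · obtain ⟨u, -, hu0, he⟩ := key 0 h hh hd
    funext g
    rw [← he g, hu0 rfl]
    simp [kD]
  · obtain ⟨u, hu, -, he⟩ := key 1 h hh hd
    exact ⟨u, hu, he⟩
  · obtain ⟨u, hu, -, he⟩ := key 2 h hh hd
    exact ⟨u, hu, he⟩
  · obtain ⟨u, hu, -, he⟩ := key 3 h hh (fun g => Gen.deg_eq_three_kD h hh.2)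
    exact ⟨0, u, ⟨fun g => zero_mem _, fun g _ => rfl⟩, hu, fun g => by simp [kD],
      fun g => by rw [he g]; simp [sD]⟩

end Vale.Agent.P195.CE
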