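import Vale.Agent.P195.CE.Cplx
import Mathlib.Tactic.Module
import Mathlib.Tactic.LinearCombination
import Mathlib.Tactic.FieldSimp

/-!
# Operations on cochains and the contraction identities

Cells are functions on `ℤ` with values in polynomials in two variables. The parameter `M` stands
for `m`, `K` for the degree of the coefficient module.
-/

namespace Vale.Agent.P195.CE

open MvPolynomial

variable {k : Type} [Field k]

/-- Vertical operator, before normalisation. -/
noncomputable def lOp (β n : k) (l : Fin 2) (F : ℤ → Pol k) (i : ℤ) : Pol k :=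
  (i : k) • pderiv l (X 0 * F (i - 1)) + (n - i) • pderiv l (X 1 * F i) -
    β • (if l = 0 then (i : k) • F (i - 1) else (n - i) • F i)

/-- Horizontal operator. -/
noncomputable def kOp (F : ℤ → Pol k) (i : ℤ) : Pol k := X 1 * F (i + 1) - X 0 * F i

/-- Contraction by multiplication. -/
noncomputable def xOp (F G : ℤ → Pol k) (i : ℤ) : Pol k := F (i + 1) + G i

/-- Contraction by derivatives. -/
noncomputable def cOp (n : k) (F : ℤ → Pol k) (i : ℤ) : Pol k :=
  (i : k) • pderiv 1 (F (i - 1)) - (n - i) • pderiv 0 (F i)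

/-- First component of the mixed contraction. -/
noncomputable def oOp₀ (M : k) (F G : ℤ → Pol k) (i : ℤ) : Pol k :=
  (M + 1)⁻¹ • ((M + 1 - i) • pderiv 0 (F i)) - (M + 2)⁻¹ • ((i : k) • pderiv 1 (F (i - 1))) -
    ((M + 1)⁻¹ * (M + 2)⁻¹) • ((i : k) • pderiv 0 (G (i - 1)))

/-- Second component of the mixed contraction. -/
noncomputable def oOp₁ (M : k) (F G : ℤ → Pol k) (i : ℤ) : Pol k :=
  ((M + 1)⁻¹ * (M + 2)⁻¹) • ((M + 1 - i) • pderiv 1 (F i)) +
    (M + 2)⁻¹ • ((M + 1 - i) • pderiv 0 (G i)) - (M + 1)⁻¹ • ((i : k) • pderiv 1 (G (i - 1)))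

/-- The `A` differential out of cell `A0`. -/
noncomputable def dA₁ (M : k) (l : Fin 2) (F : ℤ → Pol k) (i : ℤ) : Pol k :=
  (M + 1)⁻¹ • lOp (M + 1) (M + 1) l F i

/-- The `A` differential out of cells `A1`. -/
noncomputable def dA₂ (M : k) (F G : ℤ → Pol k) (i : ℤ) : Pol k :=
  (M + 2)⁻¹ • lOp (M + 2) (M + 2) 1 F i - (M + 2)⁻¹ • lOp (M + 2) (M + 2) 0 G i

/-- The component in `C1`. -/
noncomputable def dC₁ (M : k) (l : Fin 2) (H G : ℤ → Pol k) (i : ℤ) : Pol k :=
  (M + 1)⁻¹ • lOp (M + 2) M l H i - kOp G i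

/-- The component in `C2`. -/
noncomputable def dC₂ (M : k) (F H H' : ℤ → Pol k) (i : ℤ) : Pol k :=
  kOp F i + (M + 2)⁻¹ • lOp (M + 3) (M + 1) 1 H i - (M + 2)⁻¹ • lOp (M + 3) (M + 1) 0 H' i

/-- The Euler relation in degree `N`. -/
def Euler (N : k) (f : Pol k) : Prop := X 0 * pderiv 0 f + X 1 * pderiv 1 f = N • f

theorem pderiv_one_zero (f : Pol k) : pderiv 1 (pderiv 0 f) = pderiv 0 (pderiv 1 f) :=
  pderiv_commP 1 0 f

variable {M K : k}

theorem ident_A0 (hA : M + 1 ≠ 0) (F : ℤ → Pol k) (i : ℤ) (e : Euler K (F i)) :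
    dA₁ M 0 F (i + 1) + dA₁ M 1 F i + (M + 1)⁻¹ • cOp M (kOp F) i = (K - M) • F i := by
  simp only [dA₁, dA₂, dC₁, dC₂, lOp, kOp, xOp, cOp, oOp₀, oOp₁, Euler, pderiv_mul,
    pderiv_X, Pi.single_apply, pderiv_one_zero, map_add, map_sub, map_smul, Derivation.map_smul, map_neg, map_zero,
    mul_add, mul_sub, mul_neg, mul_smul_comm, add_sub_cancel_right, sub_add_cancel,
    Int.cast_add, Int.cast_sub, Int.cast_one, Fin.isValue, ↓reduceIte, one_ne_zero, zero_ne_one,
    one_mul, zero_mul, zero_add, add_zero] at *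
  linear_combination (norm := skip) e
  match_scalars <;> field_simp <;> ring

theorem ident_A1_zero (hA : M + 1 ≠ 0) (hB : M + 2 ≠ 0) (F G H : ℤ → Pol k) (i : ℤ)
    (e : Euler K (F i)) :
    dA₁ M 0 (fun j => xOp F G j + (M + 1)⁻¹ • cOp M H j) i + dA₂ M F G i +
      oOp₀ M (dC₁ M 0 H F) (dC₁ M 1 H G) i = (K - M) • F i := by
  simp only [dA₁, dA₂, dC₁, dC₂, lOp, kOp, xOp, cOp, oOp₀, oOp₁, Euler, pderiv_mul,
    pderiv_X, Pi.single_apply, pderiv_one_zero, map_add, map_sub, map_smul, Derivation.map_smul, map_neg, map_zero,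
    mul_add, mul_sub, mul_neg, mul_smul_comm, add_sub_cancel_right, sub_add_cancel,
    Int.cast_add, Int.cast_sub, Int.cast_one, Fin.isValue, ↓reduceIte, one_ne_zero, zero_ne_one,
    one_mul, zero_mul, zero_add, add_zero] at *
  linear_combination (norm := skip) e
  match_scalars <;> field_simp <;> ring

theorem ident_A1_one (hA : M + 1 ≠ 0) (hB : M + 2 ≠ 0) (F G H : ℤ → Pol k) (i : ℤ)
    (e : Euler K (G i)) :
    dA₁ M 1 (fun j => xOp F G j + (M + 1)⁻¹ • cOp M H j) i - dA₂ M F G (i + 1) +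
      oOp₁ M (dC₁ M 0 H F) (dC₁ M 1 H G) i = (K - M) • G i := by
  simp only [dA₁, dA₂, dC₁, dC₂, lOp, kOp, xOp, cOp, oOp₀, oOp₁, Euler, pderiv_mul,
    pderiv_X, Pi.single_apply, pderiv_one_zero, map_add, map_sub, map_smul, Derivation.map_smul, map_neg, map_zero,
    mul_add, mul_sub, mul_neg, mul_smul_comm, add_sub_cancel_right, sub_add_cancel,
    Int.cast_add, Int.cast_sub, Int.cast_one, Fin.isValue, ↓reduceIte, one_ne_zero, zero_ne_one,
    one_mul, zero_mul, zero_add, add_zero] at *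
  linear_combination (norm := skip) e
  match_scalars <;> field_simp <;> ring

theorem ident_C0 (hA : M + 1 ≠ 0) (F G H : ℤ → Pol k) (i : ℤ) (e : Euler (K + 1) (H i)) :
    kOp (fun j => xOp F G j + (M + 1)⁻¹ • cOp M H j) i + dC₁ M 0 H F (i + 1) + dC₁ M 1 H G i =
      (K - M) • H i := by
  simp only [dA₁, dA₂, dC₁, dC₂, lOp, kOp, xOp, cOp, oOp₀, oOp₁, Euler, pderiv_mul,
    pderiv_X, Pi.single_apply, pderiv_one_zero, map_add, map_sub, map_smul, Derivation.map_smul, map_neg, map_zero,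
    mul_add, mul_sub, mul_neg, mul_smul_comm, add_sub_cancel_right, sub_add_cancel,
    Int.cast_add, Int.cast_sub, Int.cast_one, Fin.isValue, ↓reduceIte, one_ne_zero, zero_ne_one,
    one_mul, zero_mul, zero_add, add_zero] at *
  linear_combination (norm := skip) e
  match_scalars <;> field_simp <;> ring

theorem ident_A2 (hA : M + 1 ≠ 0) (hB : M + 2 ≠ 0) (F H H' : ℤ → Pol k) (i : ℤ)
    (e : Euler K (F i)) :
    dA₂ M (fun j => F j + oOp₀ M H H' j) (fun j => -F (j + 1) + oOp₁ M H H' j) i +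
      (M + 2)⁻¹ • cOp (M + 2) (dC₂ M F H H') i = (K - M) • F i := by
  simp only [dA₁, dA₂, dC₁, dC₂, lOp, kOp, xOp, cOp, oOp₀, oOp₁, Euler, pderiv_mul,
    pderiv_X, Pi.single_apply, pderiv_one_zero, map_add, map_sub, map_smul, Derivation.map_smul, map_neg, map_zero,
    mul_add, mul_sub, mul_neg, mul_smul_comm, add_sub_cancel_right, sub_add_cancel,
    Int.cast_add, Int.cast_sub, Int.cast_one, Fin.isValue, ↓reduceIte, one_ne_zero, zero_ne_one,
    one_mul, zero_mul, zero_add, add_zero] at *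
  linear_combination (norm := skip) e
  match_scalars <;> field_simp <;> ring

theorem ident_C1_zero (hA : M + 1 ≠ 0) (hB : M + 2 ≠ 0) (F H H' : ℤ → Pol k) (i : ℤ)
    (e : Euler (K + 1) (H i)) :
    dC₁ M 0 (xOp H H') (fun j => F j + oOp₀ M H H' j) i + dC₂ M F H H' i = (K - M) • H i := by
  simp only [dA₁, dA₂, dC₁, dC₂, lOp, kOp, xOp, cOp, oOp₀, oOp₁, Euler, pderiv_mul,
    pderiv_X, Pi.single_apply, pderiv_one_zero, map_add, map_sub, map_smul, Derivation.map_smul, map_neg, map_zero,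
    mul_add, mul_sub, mul_neg, mul_smul_comm, add_sub_cancel_right, sub_add_cancel,
    Int.cast_add, Int.cast_sub, Int.cast_one, Fin.isValue, ↓reduceIte, one_ne_zero, zero_ne_one,
    one_mul, zero_mul, zero_add, add_zero] at *
  linear_combination (norm := skip) e
  match_scalars <;> field_simp <;> ring

theorem ident_C1_one (hA : M + 1 ≠ 0) (hB : M + 2 ≠ 0) (F H H' : ℤ → Pol k) (i : ℤ)
    (e : Euler (K + 1) (H' i)) :
    dC₁ M 1 (xOp H H') (fun j => -F (j + 1) + oOp₁ M H H' j) i - dC₂ M F H H' (i + 1) =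
      (K - M) • H' i := by
  simp only [dA₁, dA₂, dC₁, dC₂, lOp, kOp, xOp, cOp, oOp₀, oOp₁, Euler, pderiv_mul,
    pderiv_X, Pi.single_apply, pderiv_one_zero, map_add, map_sub, map_smul, Derivation.map_smul, map_neg, map_zero,
    mul_add, mul_sub, mul_neg, mul_smul_comm, add_sub_cancel_right, sub_add_cancel,
    Int.cast_add, Int.cast_sub, Int.cast_one, Fin.isValue, ↓reduceIte, one_ne_zero, zero_ne_one,
    one_mul, zero_mul, zero_add, add_zero] at *
  linear_combination (norm := skip) e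
  match_scalars <;> field_simp <;> ring

theorem ident_C2 (hB : M + 2 ≠ 0) (H : ℤ → Pol k) (i : ℤ) (e : Euler (K + 1) (H i)) :
    dC₂ M (fun j => (M + 2)⁻¹ • cOp (M + 2) H j) H (fun j => -H (j + 1)) i = (K - M) • H i := by
  simp only [dA₁, dA₂, dC₁, dC₂, lOp, kOp, xOp, cOp, oOp₀, oOp₁, Euler, pderiv_mul,
    pderiv_X, Pi.single_apply, pderiv_one_zero, map_add, map_sub, map_smul, Derivation.map_smul, map_neg, map_zero,
    mul_add, mul_sub, mul_neg, mul_smul_comm, add_sub_cancel_right, sub_add_cancel,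
    Int.cast_add, Int.cast_sub, Int.cast_one, Fin.isValue, ↓reduceIte, one_ne_zero, zero_ne_one,
    one_mul, zero_mul, zero_add, add_zero] at *
  linear_combination (norm := skip) e
  match_scalars <;> field_simp <;> ring

end Vale.Agent.P195.CE
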