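import Vale.Agent.P195.CE.PeriodicExact
import Vale.Agent.P195.CE.HomData
import Vale.Agent.P195.CE.HomTools
import Mathlib.Tactic.LinearCombination

/-!
# `Ext` from `T m` into `L K`
-/

namespace Vale.Agent.P195.CE

open CategoryTheory CategoryTheory.Abelian

variable {k : Type} [Field k] [CharZero k] {m K : ℕ}

theorem PolDeg_mem_Lsub_single {v : W} {p : Pol k} (hp : p ∈ PolDeg k ((K : ℤ) + (pos v).1)) :
    Pi.single v p ∈ Lsub k K := mem_Lsub.2 fun q => by
  rcases eq_or_ne q v with rfl | h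
  · simpa using hp
  · simp [h]

theorem blk_slot (v v' : W) (x : Weyl k) (hx : slot v v' x ∈ ALG k) (p q : W) :
    blk (⟨slot v v' x, hx⟩ : Alg k) p q = if p = v ∧ q = v' then x else 0 := by
  show slot v v' x (0, p) (0, q) = _
  rw [slot_apply]
  simp

theorem slot_smul_L (v v' : W) (x : Weyl k) (hx : slot v v' x ∈ ALG k) (p : Lmod k K) (q : W) :
    ((⟨slot v v' x, hx⟩ : Alg k) • p).1 q = if q = v then polRep k x (p.1 v') else 0 := by
  rw [Lmod_smul, polAct_apply]
  simp only [blk_slot]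
  by_cases hq : q = v
  · rw [if_pos hq, Finset.sum_eq_single v' (fun l _ hl => by simp [hl]) (by simp)]
    simp [hq]
  · rw [if_neg hq]
    exact Finset.sum_eq_zero fun l _ => by simp [hq]

theorem eV_smul_L (v : W) (p : Lmod k K) (q : W) :
    (eV k v • p).1 q = if q = v then p.1 v else 0 := by
  rw [eV, slot_smul_L, map_one]
  rfl

theorem single_mem_Qsub {N : ℕ} {g : Gen m} (hg : RIdx N g) :
    ((Pi.single g (hat (eV k g.vW)), 0) : Amb k m) ∈ Qsub k m N := by
  refine mem_Qsub.2 ⟨fun g' => ?_, fun g' => ⟨fun _ => map_zero _, fun _ => rfl⟩⟩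
  rcases eq_or_ne g' g with rfl | h
  · exact ⟨fun _ => by simp [hat_eV_idem], fun h => absurd hg h⟩
  · simp [h]

/-- Scalar times an idempotent stays in the resolution. -/
theorem smul_single_eq {N : ℕ} {x : Amb k m} (hx : x ∈ Qsub k m N) (g : Gen m) (hg : RIdx N g) :
    ((Pi.single g (x.1 g), 0) : Amb k m) = x.1 g • (Pi.single g (hat (eV k g.vW)), 0) := by
  refine Prod.ext ?_ (smul_zero (x.1 g)).symm
  show Pi.single g (x.1 g) = x.1 g • Pi.single g (hat (eV k g.vW))
  rw [← Pi.single_smul, smul_eq_mul, ((mem_Qsub.1 hx).1 g).1 hg]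

theorem hom_snd_zero {N : ℕ} (f : Qmod k m N →ₗ[Rt k] Lmod k K) (g : Gen m) {q : Pc k}
    (hg : PIdx N g) (hq : pmulA (eV k g.vW) q = q)
    (h : ((0, Pi.single g q) : Amb k m) ∈ Qsub k m N) : f ⟨(0, Pi.single g q), h⟩ = 0 := by
  have hmem : ∀ q : Pc k, pmulA (eV k g.vW) q = q →
      ((0, Pi.single g q) : Amb k m) ∈ Qsub k m N := by
    intro q hq
    refine mem_Qsub.2 ⟨fun g' => ⟨fun _ => zero_mul _, fun _ => rfl⟩, fun g' => ?_⟩
    rcases eq_or_ne g' g with rfl | hne
    · exact ⟨fun _ => by simpa using hq, fun h => absurd hg h⟩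
    · simp [hne]
  let φ : LinearMap.eqLocus (pmulA (eV k g.vW)) LinearMap.id →ₗ[Rt k] Lmod k K :=
    f.comp (((LinearMap.inr (Rt k) (Gen m → Rt k) (Gen m → Pc k)).comp
      ((LinearMap.single (Rt k) (fun _ : Gen m => Pc k) g).comp (Submodule.subtype _))).codRestrict
        (Qsub k m N) fun q => hmem q.1 q.2)
  suffices φ ⟨q, hq⟩ = 0 from this
  have kill : ∀ (r : Rt k) (z : LinearMap.eqLocus (pmulA (eV k g.vW)) LinearMap.id), r.a = 0 →
      φ (r • z) = 0 := by
    intro r z hr
    rw [map_smul, rt_smul_L, hr, zero_smul]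
  let b := Module.finBasis k (Zc k)
  have hb : ∀ l, ((0 : EZ k), b.coord l ∘ₗ rhoZ k (eV k g.vW)) ∈
      LinearMap.eqLocus (pmulA (k := k) (eV k g.vW)) LinearMap.id := fun l => by
    rw [LinearMap.mem_eqLocus, LinearMap.id_apply]
    refine Prod.ext (by rw [pmulA_fst, zero_mul]) ?_
    rw [pmulA_snd, LinearMap.comp_assoc, ← Module.End.mul_eq_comp, ← map_mul, eV_mul_self]
  have hdec : (⟨q, hq⟩ : LinearMap.eqLocus (pmulA (eV k g.vW)) LinearMap.id) =
      (∑ l, (⟨0, 0, q.1 (b l), 0, 0⟩ : Rt k) • ⟨_, hb l⟩) +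
        (⟨0, 0, 0, 0, 1⟩ : Rt k) • ⟨q, hq⟩ := by
    apply Subtype.ext
    simp only [Submodule.coe_add, AddSubmonoidClass.coe_finsetSum, Submodule.coe_smul]
    refine Prod.ext ?_ ?_
    · refine b.ext fun i => ?_
      have h1 : q.1 * rhoZ k (eV k g.vW) = q.1 := congrArg Prod.fst hq
      simp only [Prod.fst_add, Prod.fst_sum, Pc.smul_fst, LinearMap.add_apply, LinearMap.sum_apply,
        map_zero, zero_mul, zero_add, outer_zero_left, LinearMap.zero_apply, add_zero]
      conv_lhs => rw [← h1, Module.End.mul_apply,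
        ← b.sum_repr (rhoZ k (eV k g.vW) (b i)), map_sum]
      simp [outer]
    · simp [Prod.snd_sum]
  rw [hdec, map_add, map_sum, kill _ _ rfl, add_zero]
  exact Finset.sum_eq_zero fun l _ => kill _ _ rfl

/-- A homomorphism is determined by its values at the idempotents. -/
theorem hom_decomp {N : ℕ} (f : Qmod k m N →ₗ[Rt k] Lmod k K) (x : Qmod k m N) :
    f x = ∑ g, x.1.1 g • (if hg : RIdx N g then
      f ⟨(Pi.single g (hat (eV k g.vW)), 0), single_mem_Qsub hg⟩ else 0) := by
  obtain ⟨hr, hp⟩ := mem_Qsub.1 x.2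
  have h1 : ∀ g, ((Pi.single g (x.1.1 g), 0) : Amb k m) ∈ Qsub k m N := fun g => by
    by_cases hg : RIdx N g
    · rw [smul_single_eq x.2 g hg]
      exact Submodule.smul_mem _ _ (single_mem_Qsub hg)
    · rw [(hr g).2 hg, Pi.single_zero]
      exact zero_mem _
  have h2 : ∀ g, ((0, Pi.single g (x.1.2 g)) : Amb k m) ∈ Qsub k m N := fun g => by
    refine mem_Qsub.2 ⟨fun g' => ⟨fun _ => zero_mul _, fun _ => rfl⟩, fun g' => ?_⟩
    rcases eq_or_ne g' g with rfl | hne
    · simpa using hp g'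
    · simp [hne]
  have hx : x = (∑ g, (⟨_, h1 g⟩ : Qmod k m N)) + ∑ g, ⟨_, h2 g⟩ := by
    apply Subtype.ext
    simp only [Submodule.coe_add, AddSubmonoidClass.coe_finsetSum]
    refine Prod.ext ?_ ?_
    · simp [Prod.fst_sum, Finset.univ_sum_single]
    · simp [Prod.snd_sum, Finset.univ_sum_single]
  conv_lhs => rw [hx, map_add, map_sum, map_sum]
  rw [Finset.sum_eq_zero (s := Finset.univ) (f := fun g => f ⟨_, h2 g⟩), add_zero]
  · refine Finset.sum_congr rfl fun g _ => ?_
    split_ifs with hg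
    · rw [← map_smul]
      exact congrArg f (Subtype.ext (smul_single_eq x.2 g hg))
    · rw [smul_zero]
      exact (congrArg f (Subtype.ext (a1 := (⟨_, h1 g⟩ : Qmod k m N)) (a2 := 0)
        (show ((Pi.single g (x.1.1 g), 0) : Amb k m) = 0 by
          rw [(hr g).2 hg, Pi.single_zero]; rfl))).trans (map_zero f)
  · intro g _
    by_cases hg : PIdx N g
    · exact hom_snd_zero f g hg ((hp g).1 hg) (h2 g)
    · exact (congrArg f (Subtype.ext (a1 := (⟨_, h2 g⟩ : Qmod k m N)) (a2 := 0)
        (show ((0, Pi.single g (x.1.2 g)) : Amb k m) = 0 by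
          rw [(hp g).2 hg, Pi.single_zero]; rfl))).trans (map_zero f)

/-- The values of a homomorphism. -/
noncomputable def Lval {N : ℕ} (f : Qmod k m N →ₗ[Rt k] Lmod k K) (g : Gen m) : Pol k :=
  if hg : RIdx N g then (f ⟨(Pi.single g (hat (eV k g.vW)), 0), single_mem_Qsub hg⟩).1 g.vW else 0

theorem Lval_pos {N : ℕ} (f : Qmod k m N →ₗ[Rt k] Lmod k K) {g : Gen m} (hg : RIdx N g) :
    Lval f g = (f ⟨(Pi.single g (hat (eV k g.vW)), 0), single_mem_Qsub hg⟩).1 g.vW := dif_pos hg

theorem Lval_mem {N : ℕ} (f : Qmod k m N →ₗ[Rt k] Lmod k K) (g : Gen m) :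
    Lval f g ∈ PolDeg k ((K : ℤ) + g.vtx.1) := by
  unfold Lval
  split_ifs
  · rw [← Gen.pos_vW]
    exact mem_Lsub.1 (Subtype.property _) _
  · exact zero_mem _

/-- The element of `L` with one value. -/
noncomputable def Lone (g : Gen m) (p : Pol k) (hp : p ∈ PolDeg k ((K : ℤ) + g.vtx.1)) : Lmod k K :=
  ⟨Pi.single g.vW p, PolDeg_mem_Lsub_single (by rwa [Gen.pos_vW])⟩

theorem hom_eq_Lone {N : ℕ} (f : Qmod k m N →ₗ[Rt k] Lmod k K) {g : Gen m} (hg : RIdx N g) :
    f ⟨(Pi.single g (hat (eV k g.vW)), 0), single_mem_Qsub hg⟩ = Lone g (Lval f g) (Lval_mem f g) := by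
  set z := f ⟨(Pi.single g (hat (eV k g.vW)), 0), single_mem_Qsub hg⟩ with hz
  have hfix : hat (eV k g.vW) • z = z := by
    rw [hz, ← map_smul]
    refine congrArg f (Subtype.ext ?_)
    refine Prod.ext ?_ (smul_zero _)
    show hat (eV k g.vW) • Pi.single g (hat (eV k g.vW)) = Pi.single g (hat (eV k g.vW))
    rw [← Pi.single_smul, smul_eq_mul, hat_eV_idem]
  refine Subtype.ext (funext fun q => ?_)
  rw [← hfix, rt_smul_L, hat_a, eV_smul_L]
  show _ = Pi.single (M := fun _ => Pol k) g.vW (Lval f g) q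
  rw [Lval_pos f hg, ← hz]
  by_cases hq : q = g.vW <;> simp [hq]

/-- The homomorphism with given values. -/
noncomputable def homOf (u : Gen m → Pol k) (hu : ∀ g, u g ∈ PolDeg k ((K : ℤ) + g.vtx.1)) :
    Amb k m →ₗ[Rt k] Lmod k K :=
  ∑ g, (LinearMap.toSpanSingleton (Rt k) (Lmod k K) (Lone g (u g) (hu g))).comp
    ((LinearMap.proj g).comp (LinearMap.fst _ _ _))

theorem homOf_apply (u : Gen m → Pol k) (hu : ∀ g, u g ∈ PolDeg k ((K : ℤ) + g.vtx.1))
    (x : Amb k m) : homOf u hu x = ∑ g, x.1 g • Lone g (u g) (hu g) := by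
  simp [homOf]

theorem hom_eq_homOf {N : ℕ} (f : Qmod k m N →ₗ[Rt k] Lmod k K) (x : Qmod k m N) :
    f x = homOf (Lval f) (Lval_mem f) x.1 := by
  rw [hom_decomp f x, homOf_apply]
  refine Finset.sum_congr rfl fun g _ => ?_
  split_ifs with hg
  · rw [hom_eq_Lone f hg]
  · rw [((mem_Qsub.1 x.2).1 g).2 hg, zero_smul, zero_smul]

theorem sum_val (f : Gen m → Lmod k K) (q : W) : (∑ g, f g).1 q = ∑ g, (f g).1 q := by
  rw [AddSubmonoidClass.coe_finsetSum, Finset.sum_apply]

theorem Dm_smul_val (g g' : Gen m) (p : Lmod k K) :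
    (Dm k m g g' • p).1 g.vW = polRep k (Kmat m g g') (p.1 g'.vW) := by
  unfold Dm
  rw [slot_smul_L, if_pos rfl]

theorem Sm_smul_val (g g' : Gen m) (p : Lmod k K) :
    (Sm k m g g' • p).1 g.vW = polRep k (sigma k m g g') (p.1 g'.vW) := by
  unfold Sm
  rw [slot_smul_L, if_pos rfl]

theorem Lone_val (g : Gen m) (p : Pol k) (hp : p ∈ PolDeg k ((K : ℤ) + g.vtx.1)) :
    (Lone g p hp).1 g.vW = p := by
  simp [Lone]

/-- The value at an idempotent of a homomorphism composed with the differential. -/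
theorem homOf_dR (N : ℕ) (u : Gen m → Pol k) (hu : ∀ g, u g ∈ PolDeg k ((K : ℤ) + g.vtx.1))
    (g : Gen m) :
    (homOf u hu (dAmb k m N (Pi.single g (hat (eV k g.vW)), 0))).1 g.vW =
      kD u g + coef N • sD u g := by
  rw [homOf_apply, sum_val, kD, sD, Finset.smul_sum, ← Finset.sum_add_distrib]
  refine Finset.sum_congr rfl fun g' _ => ?_
  have hd : (dAmb k m N ((Pi.single g (hat (eV k g.vW)), 0) : Amb k m)).1 g' =
      hat (eV k g.vW) * Dh k m g g' + coef N • (hat (eV k g.vW) * Sh k m g g') := by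
    show dR k m N (Pi.single g (hat (eV k g.vW)), 0) g' = _
    simp only [dR_apply, Pi.add_apply, Pi.smul_apply, rvec_apply, Pi.zero_apply, map_zero,
      zero_add]
    rw [Finset.sum_eq_single g (fun h _ hh => by simp [hh]) (by simp),
      Finset.sum_eq_single g (fun h _ hh => by simp [hh]) (by simp)]
    simp
  rw [hd, add_smul, smul_assoc]
  show ((hat (eV k g.vW) * Dh k m g g') • Lone g' (u g') (hu g') +
    coef N • ((hat (eV k g.vW) * Sh k m g g') • Lone g' (u g') (hu g'))).1 g.vW = _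
  have e1 : (hat (eV k g.vW) * Dh k m g g').a = Dm k m g g' := by
    simp only [Rt.mul_a, hat_a, Dh, Matrix.map_apply]
    exact Subtype.ext (by simp [Dm, eV, slot_mul])
  have e2 : (hat (eV k g.vW) * Sh k m g g').a = Sm k m g g' := by
    simp only [Rt.mul_a, hat_a, Sh, Matrix.map_apply]
    exact Subtype.ext (by simp [Sm, eV, slot_mul])
  rw [rt_smul_L, rt_smul_L, e1, e2, Submodule.coe_add, Pi.add_apply]
  simp only [Submodule.coe_smul_of_tower, Pi.smul_apply, Dm_smul_val, Sm_smul_val, Lone_val]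

theorem comp_qd_val {N : ℕ} (f : Qmod k m N →ₗ[Rt k] Lmod k K) {g : Gen m} (hg : RIdx (N + 1) g) :
    ((f.comp (qd k m N)) ⟨(Pi.single g (hat (eV k g.vW)), 0), single_mem_Qsub hg⟩).1 g.vW =
      kD (Lval f) g + coef (N + 1) • sD (Lval f) g := by
  rw [LinearMap.comp_apply, hom_eq_homOf f, qd_val]
  exact homOf_dR (N + 1) _ _ g

theorem sigma_polRep_mem {u : Gen m → Pol k} (hu : ∀ g, u g ∈ PolDeg k ((K : ℤ) + g.vtx.1))
    (g : Gen m) : sD u g ∈ PolDeg k ((K : ℤ) + g.vtx.1) := by
  refine sum_mem fun g' _ => ?_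
  have := polRep_mem (sigma_mem g g') (hu g')
  convert this using 2
  simp only [Prod.fst_sub]; ring

theorem kD_add (u v : Gen m → Pol k) (g : Gen m) : kD (u + v) g = kD u g + kD v g := by
  simp [kD, Finset.sum_add_distrib]

theorem sD_add (u v : Gen m → Pol k) (g : Gen m) : sD (u + v) g = sD u g + sD v g := by
  simp [sD, Finset.sum_add_distrib]

theorem kD_supp {u : Gen m → Pol k} {p : ℕ} (hu : ∀ g, g.deg ≠ p → u g = 0) (g : Gen m)
    (hg : g.deg ≠ p + 1) : kD u g = 0 := by
  refine Finset.sum_eq_zero fun g' _ => ?_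
  by_cases h : g'.deg = p
  · rw [Kmat_support g g' (by omega)]; simp
  · rw [hu g' h, map_zero]

theorem sD_supp_deg {u : Gen m → Pol k} {p : ℕ} (hu : ∀ g, g.deg ≠ p → u g = 0) (g : Gen m)
    (hg : g.deg ≠ p + 3) : sD u g = 0 := by
  refine Finset.sum_eq_zero fun g' _ => ?_
  by_cases h : g'.deg = p
  · rw [sigma_supp g g' (by omega)]; simp
  · rw [hu g' h, map_zero]

/-- The degree `p` part. -/
noncomputable def part (h : Gen m → Pol k) (p : ℕ) : Gen m → Pol k := fun g => if g.deg = p then h g else 0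

theorem part_isCo {h : Gen m → Pol k} (hh : ∀ g, h g ∈ PolDeg k ((K : ℤ) + g.vtx.1)) (p : ℕ) :
    IsCo K p (part h p) :=
  ⟨fun g => by unfold part; split_ifs <;> simp [hh g], fun g hg => if_neg hg⟩

theorem kD_part (h : Gen m → Pol k) (p : ℕ) (g : Gen m) :
    kD (part h p) g = if g.deg = p + 1 then kD h g else 0 := by
  split_ifs with hg
  · refine Finset.sum_congr rfl fun g' _ => ?_
    by_cases hp : g'.deg = p
    · rw [part, if_pos hp]
    · rw [Kmat_support g g' (by omega)]; simp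
  · exact kD_supp (fun g' h' => if_neg h') g hg

theorem sD_part (h : Gen m → Pol k) (g : Gen m) : sD (part h 0) g = sD h g := by
  refine Finset.sum_congr rfl fun g' _ => ?_
  by_cases hp : g'.deg = 0
  · rw [part, if_pos hp]
  · have := deg_le_three g
    rw [sigma_supp g g' (by omega)]; simp

/-- The Hom complex of the resolution is exact. -/
theorem solve (hD : HomData k m K) (i : ℕ) (h : Gen m → Pol k)
    (hh : ∀ g, h g ∈ PolDeg k ((K : ℤ) + g.vtx.1)) (hs : ∀ g, ¬RIdx (i + 1) g → h g = 0)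
    (hc : ∀ g : Gen m, RIdx (i + 1 + 1) g → kD h g + coef (i + 1 + 1) • sD h g = 0) :
    ∃ u : Gen m → Pol k, (∀ g, u g ∈ PolDeg k ((K : ℤ) + g.vtx.1)) ∧
      (∀ g, ¬RIdx i g → u g = 0) ∧
      ∀ g, RIdx (i + 1) g → kD u g + coef (i + 1) • sD u g = h g := by
  have hc' : ∀ g : Gen m, kD h g + coef (i + 1 + 1) • sD h g = 0 := by
    intro g
    by_cases hg : RIdx (i + 1 + 1) g
    · exact hc g hg
    have h1 : kD h g = 0 := by
      refine Finset.sum_eq_zero fun g' _ => ?_
      by_cases hd : g.deg = g'.deg + 1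
      · rw [hs g' (fun hr => hg ⟨by have := hr.1; omega, by have := hr.1; have := hr.2; omega⟩),
          map_zero]
      · rw [Kmat_support g g' hd]; simp
    have h2 : coef (i + 1 + 1) • sD h g = 0 := by
      rw [sD, Finset.smul_sum]
      refine Finset.sum_eq_zero fun g' _ => ?_
      by_cases hd : g.deg = g'.deg + 3
      · by_cases hr : RIdx (i + 1) g'
        · have := deg_le_three g
          rw [show coef (i + 1 + 1) = 0 by
            by_contra hne
            exact hg ⟨by simp only [coef] at hne; omega,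
              by simp only [coef] at hne; have := hr.2; omega⟩, zero_smul]
        · rw [hs g' hr, map_zero, smul_zero]
      · rw [sigma_supp g g' hd]; simp
    rw [h1, h2, add_zero]
  rcases Nat.even_or_odd' (i + 1) with ⟨j, hj | hj⟩
  · have h1z : ∀ p, p = 1 ∨ p = 3 → part h p = 0 := fun p hp => funext fun g => by
      unfold part
      split_ifs with hg
      · exact hs g fun hr => by have := hr.2; have := hr.1; omega
      · rfl
    have hc3 : ∀ g, kD (part h 2) g + coef (i + 1 + 1) • sD (part h 0) g = 0 := by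
      intro g
      rw [kD_part, sD_part]
      split_ifs with hg
      · exact hc' g
      · rw [← sD_part, sD_supp_deg (part_isCo hh 0).2 g (by omega), smul_zero, add_zero]
    have hd0 : ∀ g, kD (part h 0) g = 0 := by
      intro g
      rw [kD_part]
      split_ifs with hg
      · have := hc' g
        rwa [← sD_part, sD_supp_deg (part_isCo hh 0).2 g (by omega), smul_zero, add_zero] at this
      · rfl
    have h0 := hD.e0 (coef (i + 1 + 1)) (by simp only [coef]; omega) _ _ (part_isCo hh 0)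
      (part_isCo hh 2) hd0 hc3
    have hd2 : ∀ g, kD (part h 2) g = 0 := fun g => by
      have := hc3 g
      rw [h0] at this
      simpa [sD] using this
    obtain ⟨u, hu, hue⟩ := hD.e2 _ (part_isCo hh 2) hd2
    refine ⟨u, hu.1, fun g hg => hu.2 g fun h1 => hg ⟨by omega, by omega⟩, fun g hg => ?_⟩
    rw [sD_supp_deg hu.2 g (by have := deg_le_three g; omega), smul_zero, add_zero, hue g]
    have := hg.2; have := hg.1; have := deg_le_three g
    rcases (by omega : g.deg = 0 ∨ g.deg = 2) with hd | hd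
    · simp only [part, if_neg (by omega : ¬g.deg = 2)]
      exact (congrFun h0 g).symm.trans (if_pos hd)
    · simp [part, hd]
  · have hd1 : ∀ g, kD (part h 1) g = 0 := by
      intro g
      rw [kD_part]
      split_ifs with hg
      · have := hc' g
        rwa [← sD_part, sD_supp_deg (part_isCo hh 0).2 g (by omega), smul_zero, add_zero] at this
      · rfl
    obtain ⟨u0, hu0, hu0e⟩ := hD.e1 _ (part_isCo hh 1) hd1
    by_cases hi : i = 0
    · subst hi
      refine ⟨u0, hu0.1, fun g hg => hu0.2 g fun h1 => hg ⟨by omega, by omega⟩, fun g hg => ?_⟩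
      have := hg.2; have := hg.1
      rw [show coef (0 + 1) = 0 from rfl, zero_smul, add_zero, hu0e g]
      simp [part, (by omega : g.deg = 1)]
    · let h3 : Gen m → Pol k := fun g =>
        if g.deg = 3 then h g - coef (i + 1) • sD u0 g else 0
      have h3co : IsCo K 3 h3 := ⟨fun g => by
        simp only [h3]; split_ifs
        · exact sub_mem (hh g) (nsmul_mem (sigma_polRep_mem hu0.1 g) _)
        · exact zero_mem _, fun g hg => if_neg hg⟩
      obtain ⟨v0, v2, hv0, hv2, hv0d, hve⟩ :=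
        hD.e3 (coef (i + 1)) (by simp only [coef]; omega) h3 h3co
      refine ⟨u0 + v0 + v2, fun g => add_mem (add_mem (hu0.1 g) (hv0.1 g)) (hv2.1 g),
        fun g hg => ?_, fun g hg => ?_⟩
      · have h0' : g.deg ≠ 0 := fun h1 => hg ⟨by omega, by omega⟩
        have h2' : g.deg ≠ 2 := fun h1 => hg ⟨by omega, by omega⟩
        simp [hu0.2 g h0', hv0.2 g h0', hv2.2 g h2']
      · have := hg.2; have := hg.1; have := deg_le_three g
        rw [kD_add, kD_add, sD_add, sD_add, hu0e g, hv0d g, add_zero,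
          sD_supp_deg hv2.2 g (by omega), add_zero]
        rcases (by omega : g.deg = 1 ∨ g.deg = 3) with hd | hd
        · rw [kD_supp hv2.2 g (by omega), sD_supp_deg hu0.2 g (by omega),
            sD_supp_deg hv0.2 g (by omega)]
          simp [part, hd]
        · have e := hve g
          simp only [h3, if_pos hd] at e
          rw [show part h 1 g = 0 from if_neg (by omega), smul_add]
          linear_combination e

/-- `Ext` from `T m` to `L K` vanishes in positive degrees. -/
theorem ext_T_L (hD : HomData k m K) (j : ℕ) (hj : 1 ≤ j) :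
    ∀ e : Ext.{0} (ModuleCat.of (Rt k) (Tmod k m)) (ModuleCat.of (Rt k) (Lmod k K)) j, e = 0 := by
  obtain ⟨i, rfl⟩ := Nat.exists_eq_add_of_le' hj
  refine ext_zero_of_complex _ (Tmod k m) (fun n => Qmod k m n) (fun n => qd k m n) (qeps k m)
    qeps_surjective exact_qd_zero exact_qd ?_ i ?_
  · intro n l hl e
    obtain ⟨l, rfl⟩ := Nat.exists_eq_add_of_le' hl
    exact Ext.eq_zero_of_projective e
  intro f hf
  obtain ⟨u, hu, hus, hue⟩ := solve hD i (Lval f) (Lval_mem f) (fun g hg => dif_neg hg)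
    (fun g hg => by
      rw [← comp_qd_val f hg, hf]
      rfl)
  refine ⟨(homOf u hu).comp (Qsub k m i).subtype, LinearMap.ext fun x => ?_⟩
  set g' := ((homOf u hu).comp (Qsub k m i).subtype).comp (qd k m i) with hg'
  show g' x = f x
  rw [hom_eq_homOf g' x, hom_eq_homOf f x]
  have : Lval g' = Lval f := by
    funext g
    by_cases hg : RIdx (i + 1) g
    · rw [Lval_pos g' hg, ← hue g hg]
      exact homOf_dR (i + 1) u hu g
    · rw [Lval, dif_neg hg, Lval, dif_neg hg]
  simp only [this]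

/-- There are no maps from `T m` to `L K` unless `K = m`. -/
theorem hom_T_L (hK : K ≠ m) (φ : Tmod k m →ₗ[Rt k] Lmod k K) : φ = 0 := by
  set f := φ.comp (qeps k m) with hf
  have hh : IsCo K 0 (Lval f) :=
    ⟨Lval_mem f, fun g hg => dif_neg fun hr => hg (Nat.le_zero.1 hr.1)⟩
  have hd : ∀ g, kD (Lval f) g = 0 := by
    intro g
    by_cases hg : RIdx 1 g
    · have e := comp_qd_val f hg
      rw [show coef (0 + 1) = 0 from rfl, zero_smul, add_zero] at e
      rw [← e, hf, LinearMap.comp_apply, LinearMap.comp_apply, qeps_qd, map_zero]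
      rfl
    · refine kD_supp hh.2 g fun h1 => hg ⟨by omega, by omega⟩
  obtain ⟨u, -, hu0, he⟩ := hom_exact (K : ℤ) (by exact_mod_cast hK) 0 (Lval f) hh.1 hh.2 hd
  have h0 : Lval f = fun _ => 0 := funext fun g => by
    rw [← he g]
    exact Finset.sum_eq_zero fun g' _ => by rw [hu0 g' (by omega), map_zero]
  refine LinearMap.ext fun t => ?_
  obtain ⟨x, rfl⟩ := qeps_surjective t
  show f x = 0
  rw [hom_eq_homOf f x, homOf_apply]
  refine Finset.sum_eq_zero fun g _ => ?_
  have : Lone g (Lval f g) (Lval_mem f g) = (0 : Lmod k K) :=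
    Subtype.ext (by simp [Lone, h0])
  rw [this, smul_zero]

end Vale.Agent.P195.CE
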