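import Vale.Agent.P195.CE.CplxExact
import Vale.Agent.P195.CE.HomR
import Vale.Agent.P195.CE.HomTools

/-!
# The Spencer resolution of `L 0` over `R`
-/

namespace Vale.Agent.P195.CE

open CategoryTheory CategoryTheory.Abelian

variable {k : Type} [Field k]

/-- Generators of one degree. -/
abbrev DegGen (n : ℕ) := {g : Gen 0 // g.deg = n}

variable (k) in
/-- The terms of the resolution. -/
abbrev PRes (n : ℕ) := (g : DegGen n) → Col k (pos g.1.vW)

theorem Kmat_mem_pos (g g' : Gen 0) :
    Kmat (k := k) 0 g g' ∈ Piece k (pos g.vW - pos g'.vW) := by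
  rw [Gen.pos_vW, Gen.pos_vW]; exact Kmat_mem g g'

variable (k) in
/-- The differential of the resolution. -/
noncomputable def dRes (n : ℕ) : PRes k (n + 1) →ₗ[Rt k] PRes k n :=
  LinearMap.pi fun g' => ∑ g : DegGen (n + 1),
    (colMul (Kmat 0 g.1 g'.1) (Kmat_mem_pos g.1 g'.1)).comp (LinearMap.proj g)

theorem dRes_apply (n : ℕ) (c : PRes k (n + 1)) (g' : DegGen n) (q : W) :
    (dRes k n c g').1 q = ∑ g : DegGen (n + 1), (c g).1 q * Kmat 0 g.1 g'.1 := by
  simp [dRes, LinearMap.sum_apply, colMul_apply]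

/-- A row of the resolution at a vertex. -/
noncomputable def rowAt {n : ℕ} (c : PRes k n) (q : W) (g : Gen 0) : Weyl k :=
  if h : g.deg = n then (c ⟨g, h⟩).1 q else 0

theorem rowAt_coe {n : ℕ} (c : PRes k n) (q : W) (g : DegGen n) : rowAt c q g.1 = (c g).1 q := by
  simp [rowAt, g.2]

theorem isRow_rowAt {n : ℕ} (c : PRes k n) (q : W) : IsRow (pos q) n (rowAt c q) := by
  refine ⟨fun g hg => dif_neg hg, fun g => ?_⟩
  unfold rowAt
  split_ifs with h
  · rw [← Gen.pos_vW]; exact mem_Colsub.1 (c ⟨g, h⟩).2 q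
  · exact zero_mem _

/-- The element of the resolution with prescribed rows. -/
noncomputable def ofRows {n : ℕ} (r : W → Gen 0 → Weyl k) (h : ∀ q, IsRow (pos q) n (r q)) :
    PRes k n :=
  fun g => ⟨fun q => r q g.1, mem_Colsub.2 fun q => by rw [Gen.pos_vW]; exact (h q).2 g.1⟩

theorem rowAt_ofRows {n : ℕ} (r : W → Gen 0 → Weyl k) (h : ∀ q, IsRow (pos q) n (r q)) (q : W) :
    rowAt (ofRows r h) q = r q := by
  funext g
  unfold rowAt
  split_ifs with hg
  · rfl
  · exact ((h q).1 g hg).symm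

theorem sum_degGen {M : Type*} [AddCommMonoid M] (n : ℕ) (F : Gen 0 → M)
    (h : ∀ g, g.deg ≠ n → F g = 0) : ∑ g : DegGen n, F g.1 = ∑ g, F g := by
  rw [← Finset.sum_subtype (Finset.univ.filter fun g : Gen 0 => g.deg = n) (by simp) F,
    Finset.sum_filter_of_ne]
  intro g _ hg
  by_contra hne
  exact hg (h g hne)

theorem rowAt_dRes (n : ℕ) (c : PRes k (n + 1)) (q : W) :
    rowAt (dRes k n c) q = Matrix.vecMul (rowAt c q) (Kmat 0) := by
  funext g'
  show _ = ∑ g, rowAt c q g * Kmat 0 g g'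
  by_cases hg : g'.deg = n
  · rw [show g' = (⟨g', hg⟩ : DegGen n).1 from rfl, rowAt_coe, dRes_apply,
      ← sum_degGen (n + 1) _ (fun g h => by simp [rowAt, h])]
    exact Finset.sum_congr rfl fun g _ => by rw [rowAt_coe]
  · rw [rowAt, dif_neg hg, eq_comm]
    refine Finset.sum_eq_zero fun g _ => ?_
    unfold rowAt
    split_ifs with h
    · rw [Kmat_support g g' (by omega), mul_zero]
    · exact zero_mul _

theorem pRes_ext {n : ℕ} {c c' : PRes k n} (h : ∀ q, rowAt c q = rowAt c' q) : c = c' :=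
  funext fun g => Subtype.ext (funext fun q => by rw [← rowAt_coe, ← rowAt_coe, h q])

theorem rowAt_zero (n : ℕ) (q : W) : rowAt (0 : PRes k n) q = 0 := by
  funext g
  unfold rowAt
  split_ifs <;> rfl

theorem pos_fst_nonneg (q : W) : 0 ≤ (pos q).1 := (pos_bounds q).1

theorem exact_dRes [CharZero k] (n : ℕ) : Function.Exact (dRes k (n + 1)) (dRes k n) := by
  intro c
  constructor
  · intro h
    have hr : ∀ q, ∃ r, IsRow (pos q) (n + 1 + 1) r ∧ Matrix.vecMul r (Kmat 0) = rowAt c q :=
      fun q => exact_deg (pos q) (pos_fst_nonneg q) (n + 1) (by omega) _ (isRow_rowAt c q)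
        (by rw [← rowAt_dRes, h, rowAt_zero])
    choose r hr1 hr2 using hr
    exact ⟨ofRows r hr1, pRes_ext fun q => by rw [rowAt_dRes, rowAt_ofRows, hr2]⟩
  · rintro ⟨b, rfl⟩
    refine pRes_ext fun q => ?_
    rw [rowAt_dRes, rowAt_dRes, rowAt_zero, Matrix.vecMul_vecMul, Kmat_sq, Matrix.vecMul_zero]

theorem aug_mul (a : Weyl k) (r : Gen 0 → Weyl k) :
    aug (fun g => a * r g) = polRep k a (aug r) := by
  simp [aug, map_sum]

theorem aug_mem (q : W) (r : Gen 0 → Weyl k) (hr : IsRow (pos q) 0 r) :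
    aug r ∈ PolDeg k (pos q).1 := by
  refine sum_mem fun g _ => ?_
  cases g with
  | A0 i =>
    have hone : (augMon (k := k) (Gen.A0 i : Gen 0)) ∈ PolDeg k 0 := by
      simp only [augMon, Fin.val_eq_zero, Nat.sub_zero, pow_zero, mul_one]
      exact MvPolynomial.isWeightedHomogeneous_one k (fun _ : Fin 2 => (1 : ℤ))
    simpa [Gen.vtx] using polRep_mem (hr.2 (.A0 i)) hone
  | _ => simp [augMon]

variable (k) in
/-- The augmentation. -/
noncomputable def augRes : PRes k 0 →ₗ[Rt k] Lmod k 0 where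
  toFun c := ⟨fun q => aug (rowAt c q), mem_Lsub.2 fun q => by
    simpa using aug_mem q _ (isRow_rowAt c q)⟩
  map_add' c d := Subtype.ext (funext fun q => by
    show aug (rowAt (c + d) q) = aug (rowAt c q) + aug (rowAt d q)
    have : rowAt (c + d) q = rowAt c q + rowAt d q := by
      funext g
      show rowAt (c + d) q g = rowAt c q g + rowAt d q g
      unfold rowAt
      split_ifs
      · rfl
      · exact (add_zero _).symm
    simp [this, aug, Finset.sum_add_distrib])
  map_smul' r c := Subtype.ext (funext fun q => by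
    rw [RingHom.id_apply, rt_smul_L, Lmod_smul, polAct_apply]
    show aug (rowAt (r • c) q) = _
    have : rowAt (r • c) q = ∑ q', fun g => blk r.a q q' * rowAt c q' g := by
      funext g
      rw [Finset.sum_apply]
      unfold rowAt
      split_ifs with h
      · rfl
      · simp
    rw [this]
    have hs : ∀ F : W → Gen 0 → Weyl k, aug (∑ q', F q') = ∑ q', aug (F q') := fun F => by
      simp only [aug, Finset.sum_apply, map_sum, LinearMap.sum_apply]
      exact Finset.sum_comm
    rw [hs]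
    simp only [aug_mul])

theorem isHomogeneous_of_polDeg {n : ℤ} {f : Pol k} (hn : 0 ≤ n) (hf : f ∈ PolDeg k n) :
    MvPolynomial.IsHomogeneous f n.toNat := by
  intro s hs
  have := hf hs
  simp [Finsupp.weight_apply, Finsupp.sum_fintype, Fin.sum_univ_two] at this ⊢
  omega

theorem augRes_surjective [CharZero k] : Function.Surjective (augRes k) := by
  intro p
  have hr : ∀ q, ∃ r : Gen 0 → Weyl k, IsRow (pos q) 0 r ∧ aug r = p.1 q := fun q =>
    aug_surj (pos q) (pos_bounds q).1 (pos_bounds q).2.2.1 _ (by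
      rw [zero_add]
      exact isHomogeneous_of_polDeg (pos_bounds q).1 (by simpa using mem_Lsub.1 p.2 q))
  choose r hr1 hr2 using hr
  exact ⟨ofRows r hr1, Subtype.ext (funext fun q => by
    show aug (rowAt (ofRows r hr1) q) = _
    rw [rowAt_ofRows, hr2])⟩

theorem exact_dRes_augRes [CharZero k] : Function.Exact (dRes k 0) (augRes k) := by
  intro c
  constructor
  · intro h
    have hr : ∀ q, ∃ r, IsRow (pos q) 1 r ∧ Matrix.vecMul r (Kmat 0) = rowAt c q :=
      fun q => exact_aug (pos q) (pos_fst_nonneg q) _ (isRow_rowAt c q)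
        (congrFun (congrArg Subtype.val h) q)
    choose r hr1 hr2 using hr
    exact ⟨ofRows r hr1, pRes_ext fun q => by rw [rowAt_dRes, rowAt_ofRows, hr2]⟩
  · rintro ⟨b, rfl⟩
    refine Subtype.ext (funext fun q => ?_)
    show aug (rowAt (dRes k 0 b) q) = 0
    rw [rowAt_dRes, aug_vecMul]

/-! ### Cochains -/

theorem homCol_add (v : W) (μ ν : Par k) : homCol v (μ + ν) = homCol v μ + homCol v ν := by
  refine LinearMap.ext fun c => ?_
  simp [homCol_apply, LinearMap.comp_add, Finset.sum_add_distrib]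

theorem homCol_colMul {v v' : W} {z : Weyl k} (hz : z ∈ Piece k (pos v - pos v')) (μ : Par k)
    (c : Col k (pos v)) : homCol v' μ (colMul z hz c) = homCol v ((vRep k z).comp μ) c := by
  simp [homCol_apply, colMul_apply, Module.End.mul_eq_comp, LinearMap.comp_assoc]

theorem homCol_sum {ι : Type*} (s : Finset ι) (v : W) (μ : ι → Par k) :
    homCol v (∑ i ∈ s, μ i) = ∑ i ∈ s, homCol v (μ i) :=
  map_sum (⟨⟨homCol v, LinearMap.ext fun c => by simp [homCol_apply]⟩, homCol_add v⟩ :
    Par k →+ (Col k (pos v) →ₗ[Rt k] Rt k)) μ s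

/-- The homomorphism out of a term of the resolution given by parameters. -/
noncomputable def homRes (n : ℕ) (μ : Gen 0 → Par k) : PRes k n →ₗ[Rt k] Rt k :=
  ∑ g : DegGen n, (homCol g.1.vW (μ g.1)).comp (LinearMap.proj g)

theorem homRes_apply (n : ℕ) (μ : Gen 0 → Par k) (c : PRes k n) :
    homRes n μ c = ∑ g : DegGen n, homCol g.1.vW (μ g.1) (c g) := by
  simp [homRes, LinearMap.sum_apply]

/-- The differential on parameters. -/
noncomputable def dPar (μ : Gen 0 → Par k) (g : Gen 0) : Par k :=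
  ∑ g', (vRep k (Kmat 0 g g')).comp (μ g')

theorem dPar_add (μ ν : Gen 0 → Par k) : dPar (μ + ν) = dPar μ + dPar ν := by
  funext g
  simp [dPar, LinearMap.comp_add, Finset.sum_add_distrib]

theorem dPar_sub (μ ν : Gen 0 → Par k) : dPar (μ - ν) = dPar μ - dPar ν := by
  funext g
  simp [dPar, LinearMap.comp_sub, Finset.sum_sub_distrib]

theorem dPar_dPar [CharZero k] (μ : Gen 0 → Par k) : dPar (dPar μ) = 0 := by
  funext g
  refine LinearMap.ext fun z => ?_
  simp only [dPar, LinearMap.sum_apply, LinearMap.comp_apply, map_sum, Pi.zero_apply,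
    LinearMap.zero_apply]
  rw [Finset.sum_comm]
  refine Finset.sum_eq_zero fun g'' _ => ?_
  have h : ∑ g', vRep k (Kmat 0 g g') * vRep k (Kmat 0 g' g'') = 0 := by
    simp only [← map_mul, ← map_sum]
    rw [← Matrix.mul_apply, Kmat_sq, Matrix.zero_apply, map_zero]
  simpa [LinearMap.sum_apply] using LinearMap.congr_fun h (μ g'' z)

theorem homRes_comp_dRes (n : ℕ) (μ : Gen 0 → Par k) :
    (homRes n μ).comp (dRes k n) = homRes (n + 1) (dPar μ) := by
  refine LinearMap.ext fun c => ?_
  rw [LinearMap.comp_apply, homRes_apply, homRes_apply]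
  simp only [dRes, LinearMap.pi_apply, LinearMap.sum_apply, LinearMap.comp_apply,
    LinearMap.proj_apply, map_sum, homCol_colMul]
  rw [Finset.sum_comm]
  refine Finset.sum_congr rfl fun g _ => ?_
  rw [← LinearMap.sum_apply, ← homCol_sum, dPar, sum_degGen n
    (fun g' => (vRep k (Kmat 0 g.1 g')).comp (μ g'))]
  intro g' hg'
  rw [Kmat_support g.1 g' (by have := g.2; omega), map_zero, LinearMap.zero_comp]

theorem homRes_congr {n : ℕ} {μ ν : Gen 0 → Par k} (h : ∀ g, g.deg = n → μ g = ν g) :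
    homRes n μ = homRes n ν :=
  Finset.sum_congr rfl fun g _ => by rw [h g.1 g.2]

theorem homRes_cdelta (n : ℕ) (μ : Gen 0 → Par k) (g : DegGen n) :
    homRes n μ (Pi.single g (cdelta g.1.vW)) = tW 1 g.1.vW (μ g.1) := by
  rw [homRes_apply, Finset.sum_eq_single g (fun g' _ h => by simp [h]) (by simp), Pi.single_eq_same,
    homCol_apply, Finset.sum_eq_single g.1.vW (fun q _ h => by simp [cdelta, h]) (by simp)]
  simp [cdelta, Module.End.one_eq_id]

theorem ext_zero_of_retract₁ {C : Type*} [Category C] [Abelian C] [HasExt.{0} C] {Y P : C}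
    {n : ℕ} {ι : Type*} [Fintype ι] (Z : ι → C) (a : ∀ i, P ⟶ Z i) (b : ∀ i, Z i ⟶ P)
    (hid : ∑ i, a i ≫ b i = 𝟙 P) (h : ∀ i, ∀ e : Ext (Z i) Y n, e = 0)
    (x : Ext P Y n) : x = 0 := by
  calc x = (Ext.mk₀ (∑ i, a i ≫ b i)).comp x (zero_add n) := by rw [hid, Ext.mk₀_id_comp]
    _ = 0 := by
      rw [Ext.mk₀_sum, Ext.sum_comp]
      refine Finset.sum_eq_zero fun i _ => ?_
      rw [← Ext.mk₀_comp_mk₀, Ext.comp_assoc_of_second_deg_zero,
        h i ((Ext.mk₀ (b i)).comp x (zero_add n)), Ext.comp_zero]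

end Vale.Agent.P195.CE
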