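import Vale.Agent.P195.CE.Weyl
import Mathlib.RingTheory.MvPolynomial.EulerIdentity
import Mathlib.LinearAlgebra.Prod
import Mathlib.RingTheory.Finiteness.Finsupp

/-!
# Grading and universal property of the homogenised Weyl algebra
-/

namespace Vale.Agent.P195.CE

open MvPolynomial

variable {k : Type} [Field k]

/-- The bidegrees of the generators. -/
def wt : Fin 5 → ℤ × ℤ := ![(1, 0), (1, 0), (-1, 1), (-1, 1), (0, 1)]

variable (k) in
/-- Symbols of bidegree `d`. -/
noncomputable def Deg (d : ℤ × ℤ) : Submodule k (Sym k) := weightedHomogeneousSubmodule k wt d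

variable (k) in
/-- Elements of bidegree `d`. -/
noncomputable def Piece (d : ℤ × ℤ) : Submodule k (Weyl k) := (Deg k d).comap sym

theorem mem_piece {d : ℤ × ℤ} {φ : Weyl k} : φ ∈ Piece k d ↔ sym φ ∈ Deg k d := Iff.rfl

theorem mul_mem_deg {a b : ℤ × ℤ} {f g : Sym k} (hf : f ∈ Deg k a) (hg : g ∈ Deg k b) :
    f * g ∈ Deg k (a + b) :=
  IsWeightedHomogeneous.mul hf hg

theorem X_mem_deg (i : Fin 5) : (X i : Sym k) ∈ Deg k (wt i) := isWeightedHomogeneous_X k wt i

theorem pderiv_mem_deg {a : ℤ × ℤ} {f : Sym k} (hf : f ∈ Deg k a) (i : Fin 5) :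
    pderiv i f ∈ Deg k (a - wt i) :=
  IsWeightedHomogeneous.pderiv hf (by abel)

theorem lGen_mem_deg {a : ℤ × ℤ} {f : Sym k} (hf : f ∈ Deg k a) (i : Fin 5) :
    lGen i f ∈ Deg k (wt i + a) := by
  fin_cases i
  · exact mul_mem_deg (X_mem_deg 0) hf
  · exact mul_mem_deg (X_mem_deg 1) hf
  · refine add_mem (mul_mem_deg (X_mem_deg 2) hf) ?_
    have := mul_mem_deg (X_mem_deg 4) (pderiv_mem_deg hf 0)
    rwa [show wt 4 + (a - wt 0) = wt 2 + a by simp [wt, Prod.ext_iff]; omega] at this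
  · refine add_mem (mul_mem_deg (X_mem_deg 3) hf) ?_
    have := mul_mem_deg (X_mem_deg 4) (pderiv_mem_deg hf 1)
    rwa [show wt 4 + (a - wt 1) = wt 3 + a by simp [wt, Prod.ext_iff]; omega] at this
  · exact mul_mem_deg (X_mem_deg 4) hf

theorem one_mem_piece : (1 : Weyl k) ∈ Piece k 0 := isWeightedHomogeneous_one k wt

theorem gen_mem_piece (i : Fin 5) : (gen i : Weyl k) ∈ Piece k (wt i) := by
  simpa [mem_piece] using X_mem_deg (k := k) i

theorem gen_mul_mem_piece {a : ℤ × ℤ} {φ : Weyl k} (hφ : φ ∈ Piece k a) (i : Fin 5) :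
    gen i * φ ∈ Piece k (wt i + a) := by
  rw [mem_piece, sym_gen_mul]
  exact lGen_mem_deg hφ i

theorem gen_pow_mul_mem_piece {a : ℤ × ℤ} {φ : Weyl k} (hφ : φ ∈ Piece k a) (i : Fin 5) (n : ℕ) :
    gen i ^ n * φ ∈ Piece k (n • wt i + a) := by
  induction n with
  | zero => simpa using hφ
  | succ n ih =>
    rw [pow_succ', mul_assoc, succ_nsmul', add_assoc]
    exact gen_mul_mem_piece ih i

theorem ofSym_monomial (s : Fin 5 →₀ ℕ) : ofSym (monomial s (1 : k)) = ordMon gen s :=
  ordLift_monomial _ _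

theorem weight_wt (s : Fin 5 →₀ ℕ) :
    Finsupp.weight wt s = s 0 • wt 0 + (s 1 • wt 1 + (s 2 • wt 2 + (s 3 • wt 3 + s 4 • wt 4))) := by
  rw [Finsupp.weight_apply, Finsupp.sum_fintype _ _ (fun i => by simp), Fin.sum_univ_five]
  abel

theorem mul_mem_piece {a b : ℤ × ℤ} {φ ψ : Weyl k} (hφ : φ ∈ Piece k a) (hψ : ψ ∈ Piece k b) :
    φ * ψ ∈ Piece k (a + b) := by
  suffices h : ∀ f ∈ Deg k a, ofSym f * ψ ∈ Piece k (a + b) by
    simpa using h _ hφ
  intro f hf
  rw [as_sum f, map_sum, Finset.sum_mul]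
  refine sum_mem fun s hs => ?_
  have hw : Finsupp.weight wt s = a := hf (mem_support_iff.1 hs)
  rw [show monomial s (coeff s f) = coeff s f • monomial s (1 : k) by simp [smul_monomial],
    map_smul, smul_mul_assoc, ofSym_monomial]
  refine Submodule.smul_mem _ _ ?_
  simp only [ordMon, mul_assoc]
  rw [← hw, weight_wt, add_assoc, add_assoc, add_assoc, add_assoc]
  exact gen_pow_mul_mem_piece (gen_pow_mul_mem_piece (gen_pow_mul_mem_piece
    (gen_pow_mul_mem_piece (gen_pow_mul_mem_piece hψ 4 _) 3 _) 2 _) 1 _) 0 _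

/-- Five elements satisfying the relations of the homogenised Weyl algebra. -/
structure IsWeyl {E : Type*} [Ring E] (g : Fin 5 → E) : Prop where
  x01 : g 0 * g 1 = g 1 * g 0
  d23 : g 2 * g 3 = g 3 * g 2
  d20 : g 2 * g 0 = g 0 * g 2 + g 4
  d31 : g 3 * g 1 = g 1 * g 3 + g 4
  d21 : g 2 * g 1 = g 1 * g 2
  d30 : g 3 * g 0 = g 0 * g 3
  h_comm : ∀ i, g 4 * g i = g i * g 4

section lift

variable {E : Type*} [Ring E] [Algebra k E] {g : Fin 5 → E}

theorem mul_pow_of_comm {E : Type*} [Ring E] {x y z : E} (h : y * x = x * y + z)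
    (hz : z * x = x * z) (n : ℕ) : y * x ^ n = x ^ n * y + n • (x ^ (n - 1) * z) := by
  induction n with
  | zero => simp
  | succ n ih =>
    rw [pow_succ, ← mul_assoc, ih, add_mul, mul_assoc, h, mul_add, smul_mul_assoc,
      mul_assoc (x ^ (n - 1)) z x, hz, ← mul_assoc (x ^ (n - 1)) x z]
    rcases n with _ | n
    · simp
    · rw [Nat.add_sub_cancel, ← pow_succ, Nat.add_sub_cancel, succ_nsmul _ (n + 1),
        ← mul_assoc (x ^ (n + 1)) x y]
      abel

theorem ordMon_add_single (s : Fin 5 →₀ ℕ) (g : Fin 5 → E) (i : Fin 5) :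
    ordMon g (s + Finsupp.single i 1) =
      g 0 ^ (s 0 + if i = 0 then 1 else 0) * g 1 ^ (s 1 + if i = 1 then 1 else 0) *
        g 2 ^ (s 2 + if i = 2 then 1 else 0) * g 3 ^ (s 3 + if i = 3 then 1 else 0) *
        g 4 ^ (s 4 + if i = 4 then 1 else 0) := by
  simp [ordMon, Finsupp.single_apply]

theorem ordLift_X_mul (i : Fin 5) (s : Fin 5 →₀ ℕ) :
    ordLift (k := k) g (X i * monomial s 1) = ordMon g (s + Finsupp.single i 1) := by
  rw [X, monomial_mul, one_mul, add_comm, ordLift_monomial]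

theorem ordLift_T_pderiv (v : Fin 5) (s : Fin 5 →₀ ℕ) :
    ordLift (k := k) g (X 4 * pderiv v (monomial s 1)) =
      s v • ordMon g (s - Finsupp.single v 1 + Finsupp.single 4 1) := by
  rw [pderiv_monomial, one_mul, X, monomial_mul, one_mul, add_comm, ← mul_one (s v : k),
    ← smul_eq_mul, ← smul_monomial, map_smul, ordLift_monomial, Nat.cast_smul_eq_nsmul]

theorem ordLift_lGen (hg : IsWeyl g) (i : Fin 5) (f : Sym k) :
    ordLift g (lGen i f) = g i * ordLift (k := k) g f := by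
  suffices h : (ordLift (k := k) g).comp (lGen i) =
      (LinearMap.mulLeft k (g i)).comp (ordLift (k := k) g) from
    congrArg (fun T : Sym k →ₗ[k] E => T f) h
  refine (MvPolynomial.basisMonomials (Fin 5) k).ext fun s => ?_
  simp only [coe_basisMonomials, LinearMap.coe_comp, Function.comp_apply, LinearMap.mulLeft_apply,
    ordLift_monomial]
  fin_cases i
  · simp [lGen, mulOp, ordLift_X_mul, ordMon_add_single, ordMon, pow_succ', mul_assoc]
  · have h1 : g 1 * g 0 ^ s 0 = g 0 ^ s 0 * g 1 := (Commute.pow_right hg.x01.symm _).eq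
    simp only [lGen, mulOp, Fin.isValue, Fin.mk_one, Matrix.cons_val_one, Matrix.cons_val_zero,
      LinearMap.mulLeft_apply, ordLift_X_mul, ordMon_add_single]
    simp only [Fin.isValue, Fin.reduceEq, if_false, if_true, add_zero, ordMon]
    rw [pow_succ']
    simp only [← mul_assoc]
    rw [h1]
  · have h1 : g 2 * g 0 ^ s 0 = g 0 ^ s 0 * g 2 + s 0 • (g 0 ^ (s 0 - 1) * g 4) :=
      mul_pow_of_comm hg.d20 (hg.h_comm 0) _
    have h2 : g 2 * g 1 ^ s 1 = g 1 ^ s 1 * g 2 := (Commute.pow_right hg.d21 _).eq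
    have h4 : ∀ (j : Fin 5) (n : ℕ), g 4 * g j ^ n = g j ^ n * g 4 := fun j n =>
      (Commute.pow_right (hg.h_comm j) n).eq
    simp only [lGen, mulOp, Fin.isValue, Fin.reduceFinMk, Matrix.cons_val, LinearMap.add_apply,
      Module.End.mul_apply, LinearMap.mulLeft_apply, Derivation.coeFn_coe, map_add,
      ordLift_X_mul, ordLift_T_pderiv, ordMon_add_single]
    simp only [ordMon, Finsupp.tsub_apply, Finsupp.single_apply]
    simp only [Fin.isValue, Fin.reduceEq, if_false, if_true, add_zero, tsub_zero, ← mul_assoc]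
    rw [h1, add_mul, add_mul, add_mul, add_mul]
    congr 1
    · simp only [mul_assoc]
      rw [← mul_assoc (g 2) (g 1 ^ s 1), h2, mul_assoc, pow_succ', mul_assoc]
    · simp only [smul_mul_assoc, mul_assoc]
      congr 2
      rw [← mul_assoc (g 4) (g 1 ^ s 1), h4, mul_assoc, ← mul_assoc (g 4) (g 2 ^ s 2), h4,
        mul_assoc, ← mul_assoc (g 4) (g 3 ^ s 3), h4, mul_assoc, pow_succ']
  · have h1 : g 3 * g 0 ^ s 0 = g 0 ^ s 0 * g 3 := (Commute.pow_right hg.d30 _).eq
    have h2 : g 3 * g 1 ^ s 1 = g 1 ^ s 1 * g 3 + s 1 • (g 1 ^ (s 1 - 1) * g 4) :=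
      mul_pow_of_comm hg.d31 (hg.h_comm 1) _
    have h3 : g 3 * g 2 ^ s 2 = g 2 ^ s 2 * g 3 := (Commute.pow_right hg.d23.symm _).eq
    have h4 : ∀ (j : Fin 5) (n : ℕ), g 4 * g j ^ n = g j ^ n * g 4 := fun j n =>
      (Commute.pow_right (hg.h_comm j) n).eq
    simp only [lGen, mulOp, Fin.isValue, Fin.reduceFinMk, Matrix.cons_val, LinearMap.add_apply,
      Module.End.mul_apply, LinearMap.mulLeft_apply, Derivation.coeFn_coe, map_add,
      ordLift_X_mul, ordLift_T_pderiv, ordMon_add_single]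
    simp only [ordMon, Finsupp.tsub_apply, Finsupp.single_apply]
    simp only [Fin.isValue, Fin.reduceEq, if_false, if_true, add_zero, tsub_zero, ← mul_assoc]
    rw [h1, mul_assoc (g 0 ^ s 0) (g 3), h2, mul_add, add_mul, add_mul, add_mul]
    congr 1
    · simp only [mul_assoc]
      rw [← mul_assoc (g 3) (g 2 ^ s 2), h3, mul_assoc, pow_succ', mul_assoc]
    · simp only [mul_smul_comm, smul_mul_assoc, mul_assoc]
      congr 3
      rw [← mul_assoc (g 4) (g 2 ^ s 2), h4, mul_assoc, ← mul_assoc (g 4) (g 3 ^ s 3), h4,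
        mul_assoc, pow_succ']
  · have h4 : Commute (g 4) (g 0 ^ s 0 * g 1 ^ s 1 * g 2 ^ s 2 * g 3 ^ s 3) := by
      have c : ∀ j, Commute (g 4) (g j ^ s j) := fun j => Commute.pow_right (hg.h_comm j) _
      exact (((c 0).mul_right (c 1)).mul_right (c 2)).mul_right (c 3)
    simp only [lGen, mulOp, Fin.isValue, Fin.reduceFinMk, Matrix.cons_val,
      LinearMap.mulLeft_apply, ordLift_X_mul, ordMon_add_single]
    simp only [Fin.reduceEq, if_false, if_true, add_zero, ordMon]
    rw [pow_succ', ← mul_assoc, ← mul_assoc (g 4), h4.eq]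

theorem adjoin_gen : Algebra.adjoin k (Set.range (gen (k := k))) = ⊤ := by
  refine eq_top_iff.2 fun φ _ => ?_
  rw [← ofSym_sym φ]
  generalize sym φ = f
  rw [as_sum f, map_sum]
  refine sum_mem fun s _ => ?_
  rw [show monomial s (coeff s f) = coeff s f • monomial s (1 : k) by simp [smul_monomial],
    map_smul, ofSym_monomial]
  refine Subalgebra.smul_mem _ ?_ _
  have h : ∀ i, gen (k := k) i ∈ Algebra.adjoin k (Set.range (gen (k := k))) :=
    fun i => Algebra.subset_adjoin ⟨i, rfl⟩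
  exact mul_mem (mul_mem (mul_mem (mul_mem (pow_mem (h 0) _) (pow_mem (h 1) _))
    (pow_mem (h 2) _)) (pow_mem (h 3) _)) (pow_mem (h 4) _)

theorem ordLift_one : ordLift (k := k) g 1 = 1 := by
  rw [← C_1, C_apply, ordLift_monomial]
  simp [ordMon]

/-- The algebra map determined by five elements satisfying the relations. -/
noncomputable def liftWeyl (g : Fin 5 → E) (hg : IsWeyl g) : Weyl k →ₐ[k] E where
  toFun φ := ordLift g (sym φ)
  map_one' := by rw [sym_one, ordLift_one]
  map_zero' := by simp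
  map_add' _ _ := by simp
  map_mul' φ ψ := by
    have h : φ ∈ Algebra.adjoin k (Set.range (gen (k := k))) := by simp [adjoin_gen]
    induction h using Algebra.adjoin_induction generalizing ψ with
    | mem x hx =>
      obtain ⟨i, rfl⟩ := hx
      rw [sym_gen_mul, ordLift_lGen hg]
      congr 1
      rw [sym_gen, ← mul_one (X i : Sym k), show (1 : Sym k) = monomial 0 1 by simp, ordLift_X_mul,
        ordMon_add_single]
      fin_cases i <;> simp
    | algebraMap r => simp [Algebra.algebraMap_eq_smul_one, ordLift_one]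
    | add x y _ _ hx hy => simp only [add_mul, map_add, hx, hy]
    | mul x y _ _ hx hy => rw [mul_assoc, hx, hy, hx, mul_assoc]
  commutes' r := by simp [Algebra.algebraMap_eq_smul_one, ordLift_one]

@[simp]
theorem liftWeyl_gen (hg : IsWeyl g) (i : Fin 5) : liftWeyl (k := k) g hg (gen i) = g i := by
  show ordLift g (sym (gen i)) = g i
  rw [sym_gen, ← mul_one (X i : Sym k), show (1 : Sym k) = monomial 0 1 by simp, ordLift_X_mul,
    ordMon_add_single]
  fin_cases i <;> simp

theorem algHom_ext {f f' : Weyl k →ₐ[k] E} (h : ∀ i, f (gen i) = f' (gen i)) : f = f' := by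
  ext φ
  have hφ : φ ∈ Algebra.adjoin k (Set.range (gen (k := k))) := by simp [adjoin_gen]
  exact AlgHom.adjoin_le_equalizer f f' (by rintro _ ⟨i, rfl⟩; exact h i) hφ

end lift

end Vale.Agent.P195.CE
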