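import Vale.Agent.P195.CE.Ring
import Mathlib.Algebra.Module.LinearMap.Basic
import Mathlib.Algebra.Algebra.Opposite
import Mathlib.Algebra.Module.Prod
import Mathlib.Algebra.MvPolynomial.Division
import Mathlib.Tactic.LinearCombination

/-!
# Modules over `A`, and short exact sequences between them
-/

namespace Vale.Agent.P195.CE

open MvPolynomial

variable {k : Type} [Field k]

/-- The action of a matrix on families of polynomials. -/
noncomputable def polAct {I J : Type*} [Fintype J] (M : Matrix I J (Weyl k)) :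
    (J → Pol k) →ₗ[k] (I → Pol k) :=
  LinearMap.pi fun i => ∑ j, (polRep k (M i j)).comp (LinearMap.proj j)

theorem polAct_apply {I J : Type*} [Fintype J] (M : Matrix I J (Weyl k)) (p : J → Pol k) (i : I) :
    polAct M p i = ∑ j, polRep k (M i j) (p j) := by
  simp [polAct]

theorem polAct_mul {I J L : Type*} [Fintype J] [Fintype L] (M : Matrix I J (Weyl k))
    (N : Matrix J L (Weyl k)) (p : L → Pol k) : polAct (M * N) p = polAct M (polAct N p) := by
  funext i
  simp only [polAct_apply, Matrix.mul_apply, map_sum, LinearMap.sum_apply, map_mul,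
    Module.End.mul_apply]
  rw [Finset.sum_comm]

theorem polAct_one {I : Type*} [Fintype I] [DecidableEq I] (p : I → Pol k) :
    polAct (1 : Matrix I I (Weyl k)) p = p := by
  funext i
  rw [polAct_apply, Finset.sum_eq_single i (fun j _ h => by simp [Matrix.one_apply_ne h.symm])
    (by simp)]
  simp

theorem polAct_add {I J : Type*} [Fintype J] (M N : Matrix I J (Weyl k)) (p : J → Pol k) :
    polAct (M + N) p = polAct M p + polAct N p := by
  funext i; simp [polAct_apply, Finset.sum_add_distrib]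

theorem polAct_zero {I J : Type*} [Fintype J] (p : J → Pol k) :
    polAct (0 : Matrix I J (Weyl k)) p = 0 := by
  funext i; simp [polAct_apply]

theorem polAct_mem {I J : Type*} [Fintype J] {u : I → ℤ × ℤ} {v : J → ℤ × ℤ}
    {M : Matrix I J (Weyl k)} (hM : M ∈ Graded k u v) {m : ℤ} {p : J → Pol k}
    (hp : ∀ j, p j ∈ PolDeg k (m + (v j).1)) (i : I) : polAct M p i ∈ PolDeg k (m + (u i).1) := by
  rw [polAct_apply]
  refine sum_mem fun j _ => ?_
  have := polRep_mem (hM i j) (hp j)
  convert this using 2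
  simp only [Prod.fst_sub]; ring

/-- The diagonal block. -/
noncomputable def blk (a : Alg k) : Matrix W W (Weyl k) :=
  fun p q => (a : Matrix Ix Ix (Weyl k)) (0, p) (0, q)

theorem alg_upper (a : Alg k) (p q : W) : (a : Matrix Ix Ix (Weyl k)) (0, p) (1, q) = 0 :=
  ((commute_shift_iff _).1 a.2.2).1 p q

theorem alg_diag (a : Alg k) (p q : W) :
    (a : Matrix Ix Ix (Weyl k)) (1, p) (1, q) = blk a p q :=
  ((commute_shift_iff _).1 a.2.2).2 p q

theorem sum_ix {M : Type*} [AddCommMonoid M] (f : Ix → M) :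
    ∑ i, f i = (∑ q, f (0, q)) + ∑ q, f (1, q) := by
  rw [Fintype.sum_prod_type, Fin.sum_univ_two]

theorem blk_mem (a : Alg k) : blk a ∈ Graded k pos pos := fun p q => by
  have := a.2.1 (0, p) (0, q)
  rwa [tgt_zero, tgt_zero] at this

theorem blk_mul (a b : Alg k) : blk (a * b) = blk a * blk b := by
  refine Matrix.ext fun p q => ?_
  show ((a : Matrix Ix Ix (Weyl k)) * b) (0, p) (0, q) = _
  rw [Matrix.mul_apply, sum_ix, Matrix.mul_apply]
  simp [alg_upper, blk]

theorem blk_one : blk (1 : Alg k) = 1 := by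
  refine Matrix.ext fun p q => ?_
  show (1 : Matrix Ix Ix (Weyl k)) (0, p) (0, q) = _
  simp [Matrix.one_apply]

theorem blk_add (a b : Alg k) : blk (a + b) = blk a + blk b := rfl

theorem blk_zero : blk (0 : Alg k) = 0 := rfl

variable (k) in
/-- The sets underlying `L`. -/
noncomputable def Lsub (m : ℕ) : Submodule k (W → Pol k) :=
  Submodule.pi Set.univ fun q => PolDeg k ((m : ℤ) + (pos q).1)

variable (k) in
/-- The module `L m` of polynomials of degree `m + a`. -/
abbrev Lmod (m : ℕ) := ↥(Lsub k m)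

theorem mem_Lsub {m : ℕ} {p : W → Pol k} :
    p ∈ Lsub k m ↔ ∀ q, p q ∈ PolDeg k ((m : ℤ) + (pos q).1) := by
  simp [Lsub]

noncomputable instance (m : ℕ) : Module (Alg k) (Lmod k m) where
  smul a p := ⟨polAct (blk a) p.1, mem_Lsub.2 (polAct_mem (blk_mem a) (mem_Lsub.1 p.2))⟩
  one_smul p := Subtype.ext (by show polAct (blk (1 : Alg k)) p.1 = _; rw [blk_one, polAct_one])
  mul_smul a b p := Subtype.ext (by
    show polAct (blk (a * b)) p.1 = polAct _ (polAct _ _); rw [blk_mul, polAct_mul])
  smul_zero a := Subtype.ext (map_zero (polAct (blk a)))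
  smul_add a p q := Subtype.ext (map_add (polAct (blk a)) _ _)
  add_smul a b p := Subtype.ext (by
    show polAct (blk (a + b)) p.1 = polAct _ _ + polAct _ _; rw [blk_add, polAct_add])
  zero_smul p := Subtype.ext (polAct_zero _)

theorem Lmod_smul (m : ℕ) (a : Alg k) (p : Lmod k m) : (a • p).1 = polAct (blk a) p.1 := rfl

variable (k) in
/-- The sets underlying `T`. -/
noncomputable def Tsub (m : ℕ) : Submodule k (Ix → Pol k) :=
  Submodule.pi Set.univ fun i => PolDeg k ((m : ℤ) + (tgt i).1)

variable (k) in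
/-- The extension `T m` of `L m` by `L (m+1)`. -/
abbrev Tmod (m : ℕ) := ↥(Tsub k m)

theorem mem_Tsub {m : ℕ} {p : Ix → Pol k} :
    p ∈ Tsub k m ↔ ∀ i, p i ∈ PolDeg k ((m : ℤ) + (tgt i).1) := by
  simp [Tsub]

noncomputable instance (m : ℕ) : Module (Alg k) (Tmod k m) where
  smul a p := ⟨polAct a.1 p.1, mem_Tsub.2 (polAct_mem a.2.1 (mem_Tsub.1 p.2))⟩
  one_smul p := Subtype.ext (polAct_one _)
  mul_smul a b p := Subtype.ext (polAct_mul _ _ _)
  smul_zero a := Subtype.ext (map_zero (polAct a.1))
  smul_add a p q := Subtype.ext (map_add (polAct a.1) _ _)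
  add_smul a b p := Subtype.ext (polAct_add _ _ _)
  zero_smul p := Subtype.ext (polAct_zero _)

theorem Tmod_smul (m : ℕ) (a : Alg k) (p : Tmod k m) : (a • p).1 = polAct a.1 p.1 := rfl

variable (k) in
/-- Columns over the diagonal block with reference degree `t`. -/
noncomputable def Colsub (t : ℤ × ℤ) : Submodule k (W → Weyl k) :=
  Submodule.pi Set.univ fun q => Piece k (pos q - t)

variable (k) in
/-- The projective modules over the diagonal block. -/
abbrev Col (t : ℤ × ℤ) := ↥(Colsub k t)

theorem mem_Colsub {t : ℤ × ℤ} {c : W → Weyl k} :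
    c ∈ Colsub k t ↔ ∀ q, c q ∈ Piece k (pos q - t) := by
  simp [Colsub]

theorem mulVec_mem {I J : Type*} [Fintype J] {u : I → ℤ × ℤ} {v : J → ℤ × ℤ}
    {M : Matrix I J (Weyl k)} (hM : M ∈ Graded k u v) {t : ℤ × ℤ} {c : J → Weyl k}
    (hc : ∀ j, c j ∈ Piece k (v j - t)) (i : I) : M.mulVec c i ∈ Piece k (u i - t) := by
  show ∑ j, M i j * c j ∈ _
  exact sum_mem fun j _ => by simpa using mul_mem_piece (hM i j) (hc j)

noncomputable instance (t : ℤ × ℤ) : Module (Alg k) (Col k t) where
  smul a c := ⟨(blk a).mulVec c.1, mem_Colsub.2 (mulVec_mem (blk_mem a) (mem_Colsub.1 c.2))⟩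
  one_smul c := Subtype.ext (by show (blk (1 : Alg k)).mulVec c.1 = _; rw [blk_one, Matrix.one_mulVec])
  mul_smul a b c := Subtype.ext (by
    show (blk (a * b)).mulVec c.1 = (blk a).mulVec ((blk b).mulVec c.1)
    rw [blk_mul, Matrix.mulVec_mulVec])
  smul_zero a := Subtype.ext (by
    show (blk a).mulVec (0 : W → Weyl k) = 0
    rw [Matrix.mulVec_zero])
  smul_add a c d := Subtype.ext (by
    show (blk a).mulVec (c.1 + d.1) = (blk a).mulVec c.1 + (blk a).mulVec d.1
    rw [Matrix.mulVec_add])
  add_smul a b c := Subtype.ext (by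
    show (blk (a + b)).mulVec c.1 = (blk a).mulVec c.1 + (blk b).mulVec c.1
    rw [blk_add, Matrix.add_mulVec])
  zero_smul c := Subtype.ext (by
    show (blk (0 : Alg k)).mulVec c.1 = 0
    rw [blk_zero, Matrix.zero_mulVec])

theorem Col_smul {t : ℤ × ℤ} (a : Alg k) (c : Col k t) : (a • c).1 = (blk a).mulVec c.1 := rfl

variable (k) in
/-- Columns of `A`. -/
noncomputable def Asub (v : W) : Submodule k (Ix → Weyl k) :=
  Submodule.pi Set.univ fun i => Piece k (tgt i - pos v)

variable (k) in
/-- The projective module `A e_v`. -/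
abbrev Acol (v : W) := ↥(Asub k v)

theorem mem_Asub {v : W} {c : Ix → Weyl k} :
    c ∈ Asub k v ↔ ∀ i, c i ∈ Piece k (tgt i - pos v) := by
  simp [Asub]

noncomputable instance (v : W) : Module (Alg k) (Acol k v) where
  smul a c := ⟨a.1.mulVec c.1, mem_Asub.2 (mulVec_mem a.2.1 (mem_Asub.1 c.2))⟩
  one_smul c := Subtype.ext (Matrix.one_mulVec _)
  mul_smul a b c := Subtype.ext (by
    show (a * b).1.mulVec c.1 = a.1.mulVec (b.1.mulVec c.1)
    rw [Matrix.mulVec_mulVec]; rfl)
  smul_zero a := Subtype.ext (by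
    show a.1.mulVec (0 : Ix → Weyl k) = 0
    rw [Matrix.mulVec_zero])
  smul_add a c d := Subtype.ext (by
    show a.1.mulVec (c.1 + d.1) = a.1.mulVec c.1 + a.1.mulVec d.1
    rw [Matrix.mulVec_add])
  add_smul a b c := Subtype.ext (by
    show (a + b).1.mulVec c.1 = a.1.mulVec c.1 + b.1.mulVec c.1
    rw [← Matrix.add_mulVec]; rfl)
  zero_smul c := Subtype.ext (by
    show (0 : Matrix Ix Ix (Weyl k)).mulVec c.1 = 0
    rw [Matrix.zero_mulVec])

theorem Acol_smul {v : W} (a : Alg k) (c : Acol k v) : (a • c).1 = a.1.mulVec c.1 := rfl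

noncomputable instance instRtL (m : ℕ) : Module (Rt k) (Lmod k m) := Module.compHom _ (toAlg k)

noncomputable instance instRtT (m : ℕ) : Module (Rt k) (Tmod k m) := Module.compHom _ (toAlg k)

noncomputable instance instRtC (t : ℤ × ℤ) : Module (Rt k) (Col k t) := Module.compHom _ (toAlg k)

noncomputable instance instRtA (v : W) : Module (Rt k) (Acol k v) := Module.compHom _ (toAlg k)

/-- Linear maps over `A` are linear over `R`. -/
noncomputable def ofAlgHom {X Y : Type*} [AddCommGroup X] [AddCommGroup Y] [Module (Alg k) X]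
    [Module (Alg k) Y] [Module (Rt k) X] [Module (Rt k) Y]
    (hX : ∀ (r : Rt k) (x : X), r • x = r.a • x) (hY : ∀ (r : Rt k) (y : Y), r • y = r.a • y)
    (f : X →ₗ[Alg k] Y) : X →ₗ[Rt k] Y where
  toFun := f
  map_add' := map_add f
  map_smul' r x := by simp [hX, hY]

theorem rt_smul_L {m : ℕ} (r : Rt k) (p : Lmod k m) : r • p = r.a • p := rfl
theorem rt_smul_T {m : ℕ} (r : Rt k) (p : Tmod k m) : r • p = r.a • p := rfl
theorem rt_smul_C {t : ℤ × ℤ} (r : Rt k) (p : Col k t) : r • p = r.a • p := rfl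
theorem rt_smul_A {v : W} (r : Rt k) (p : Acol k v) : r • p = r.a • p := rfl

variable (k) in
/-- The inclusion `L (m+1) → T m`. -/
noncomputable def Lincl (m : ℕ) : Lmod k (m + 1) →ₗ[Rt k] Tmod k m where
  toFun p := ⟨fun i => if i.1 = 1 then p.1 i.2 else 0, mem_Tsub.2 fun i => by
    obtain ⟨w, q⟩ := i
    fin_cases w
    · simp
    · have := mem_Lsub.1 p.2 q
      simpa [tgt, add_assoc, add_comm, add_left_comm] using this⟩
  map_add' p q := Subtype.ext (funext fun i => by
    simp only [Submodule.coe_add, Pi.add_apply]; split_ifs <;> simp)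
  map_smul' r p := Subtype.ext (funext fun i => by
    obtain ⟨w, q⟩ := i
    rw [RingHom.id_apply]
    show (if w = 1 then polAct (blk r.a) p.1 q else 0) =
      polAct r.a.1 (fun i => if i.1 = 1 then p.1 i.2 else 0) (w, q)
    simp only [polAct_apply]
    rw [sum_ix]
    fin_cases w <;> simp [alg_upper, alg_diag, polAct_apply])

variable (k) in
/-- The projection `T m → L m`. -/
noncomputable def Tproj (m : ℕ) : Tmod k m →ₗ[Rt k] Lmod k m where
  toFun p := ⟨fun q => p.1 (0, q), mem_Lsub.2 fun q => by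
    simpa [tgt_zero] using mem_Tsub.1 p.2 (0, q)⟩
  map_add' p q := rfl
  map_smul' r p := Subtype.ext (funext fun q => by
    rw [RingHom.id_apply, rt_smul_L, Lmod_smul]
    show (r • p).1 (0, q) = _
    rw [rt_smul_T, Tmod_smul, polAct_apply, sum_ix]
    simp [alg_upper, polAct_apply, blk])

theorem Lincl_injective (m : ℕ) : Function.Injective (Lincl k m) := by
  intro p q h
  refine Subtype.ext (funext fun v => ?_)
  simpa [Lincl] using congrFun (congrArg Subtype.val h) (1, v)

theorem Tproj_surjective (m : ℕ) : Function.Surjective (Tproj k m) := by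
  intro p
  refine ⟨⟨fun i => if i.1 = 0 then p.1 i.2 else 0, mem_Tsub.2 fun i => ?_⟩, ?_⟩
  · obtain ⟨w, q⟩ := i
    fin_cases w
    · simpa [tgt_zero] using mem_Lsub.1 p.2 q
    · simp
  · exact Subtype.ext (funext fun q => by simp [Tproj])

theorem exact_Lincl_Tproj (m : ℕ) : Function.Exact (Lincl k m) (Tproj k m) := by
  intro p
  constructor
  · intro h
    refine ⟨⟨fun q => p.1 (1, q), mem_Lsub.2 fun q => ?_⟩, Subtype.ext (funext fun i => ?_)⟩
    · have := mem_Tsub.1 p.2 (1, q)
      simpa [tgt, add_assoc, add_comm, add_left_comm] using this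
    · obtain ⟨w, q⟩ := i
      fin_cases w
      · simpa [Lincl, Tproj] using (congrFun (congrArg Subtype.val h) q).symm
      · simp [Lincl]
  · rintro ⟨x, rfl⟩
    exact Subtype.ext (funext fun q => by simp [Lincl, Tproj])

variable (k) in
/-- The inclusion of the off-diagonal part. -/
noncomputable def Nincl (v : W) : Col k (pos v - (1, 0)) →ₗ[Rt k] Acol k v where
  toFun c := ⟨fun i => if i.1 = 1 then c.1 i.2 else 0, mem_Asub.2 fun i => by
    obtain ⟨w, q⟩ := i
    fin_cases w
    · simp
    · have := mem_Colsub.1 c.2 q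
      simpa [tgt, sub_sub_eq_add_sub] using this⟩
  map_add' p q := Subtype.ext (funext fun i => by
    simp only [Submodule.coe_add, Pi.add_apply]; split_ifs <;> simp)
  map_smul' r p := Subtype.ext (funext fun i => by
    obtain ⟨w, q⟩ := i
    rw [RingHom.id_apply]
    show (if w = 1 then (blk r.a).mulVec p.1 q else 0) =
      r.a.1.mulVec (fun i => if i.1 = 1 then p.1 i.2 else 0) (w, q)
    simp only [Matrix.mulVec, dotProduct]
    rw [sum_ix]
    fin_cases w <;> simp [alg_upper, alg_diag])

variable (k) in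
/-- The projection to the diagonal part. -/
noncomputable def Aproj (v : W) : Acol k v →ₗ[Rt k] Col k (pos v) where
  toFun c := ⟨fun q => c.1 (0, q), mem_Colsub.2 fun q => by
    simpa [tgt_zero] using mem_Asub.1 c.2 (0, q)⟩
  map_add' p q := rfl
  map_smul' r p := Subtype.ext (funext fun q => by
    rw [RingHom.id_apply, rt_smul_C, Col_smul]
    show (r • p).1 (0, q) = _
    rw [rt_smul_A, Acol_smul]
    simp only [Matrix.mulVec, dotProduct]
    rw [sum_ix]
    simp [alg_upper, blk])

theorem Nincl_injective (v : W) : Function.Injective (Nincl k v) := by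
  intro p q h
  refine Subtype.ext (funext fun u => ?_)
  simpa [Nincl] using congrFun (congrArg Subtype.val h) (1, u)

theorem Aproj_surjective (v : W) : Function.Surjective (Aproj k v) := by
  intro p
  refine ⟨⟨fun i => if i.1 = 0 then p.1 i.2 else 0, mem_Asub.2 fun i => ?_⟩, ?_⟩
  · obtain ⟨w, q⟩ := i
    fin_cases w
    · simpa [tgt_zero] using mem_Colsub.1 p.2 q
    · simp
  · exact Subtype.ext (funext fun q => by simp [Aproj])

theorem exact_Nincl_Aproj (v : W) : Function.Exact (Nincl k v) (Aproj k v) := by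
  intro p
  constructor
  · intro h
    refine ⟨⟨fun q => p.1 (1, q), mem_Colsub.2 fun q => ?_⟩, Subtype.ext (funext fun i => ?_)⟩
    · have := mem_Asub.1 p.2 (1, q)
      simpa [tgt, sub_sub_eq_add_sub] using this
    · obtain ⟨w, q⟩ := i
      fin_cases w
      · simpa [Nincl, Aproj] using (congrFun (congrArg Subtype.val h) q).symm
      · simp [Nincl]
  · rintro ⟨x, rfl⟩
    exact Subtype.ext (funext fun q => by simp [Nincl, Aproj])

/-- Generators of the opposite. -/
noncomputable def antiGen : Fin 5 → (Weyl k)ᵐᵒᵖ :=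
  ![MulOpposite.op (gen 0), MulOpposite.op (gen 1), -MulOpposite.op (gen 2),
    -MulOpposite.op (gen 3), MulOpposite.op (gen 4)]

theorem gen_rel (i j : Fin 5) : (gen i : Weyl k) * gen j = gen j * gen i +
    (if (i = 2 ∧ j = 0) ∨ (i = 3 ∧ j = 1) then gen 4 else 0) -
    (if (j = 2 ∧ i = 0) ∨ (j = 3 ∧ i = 1) then gen 4 else 0) := by
  apply sym_injective
  show _ = sym (gen j * gen i + _) - sym _
  rw [map_add, sym_gen_mul, sym_gen_mul, sym_gen, sym_gen]
  fin_cases i <;> fin_cases j <;> simp [lGen, mulOp] <;> ring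

theorem isWeyl_antiGen : IsWeyl (antiGen (k := k)) := by
  constructor
  all_goals first | intro i | skip
  all_goals first | fin_cases i | skip
  all_goals apply MulOpposite.unop_injective
  all_goals simp [antiGen]
  all_goals first
    | (rw [gen_rel]; simp; done)
    | (rw [gen_rel]; simp; abel)

variable (k) in
/-- The anti-automorphism fixing `x` and negating `d`. -/
noncomputable def anti : Weyl k →ₐ[k] (Weyl k)ᵐᵒᵖ := liftWeyl antiGen isWeyl_antiGen

/-- The anti-automorphism as a linear map. -/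
noncomputable def antiF : Weyl k →ₗ[k] Weyl k :=
  (MulOpposite.opLinearEquiv k).symm.toLinearMap.comp (anti k).toLinearMap

theorem antiF_mul (φ ψ : Weyl k) : antiF (φ * ψ) = antiF ψ * antiF φ := by simp [antiF]

theorem antiF_gen (i : Fin 5) : antiF (gen i : Weyl k) = (antiGen (k := k) i).unop := by
  simp [antiF, anti]

theorem antiF_one : antiF (1 : Weyl k) = 1 := by simp [antiF]

theorem antiF_antiF (φ : Weyl k) : antiF (antiF φ) = φ := by
  have hφ : φ ∈ Algebra.adjoin k (Set.range (gen (k := k))) := by simp [adjoin_gen]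
  induction hφ using Algebra.adjoin_induction with
  | mem x hx =>
    obtain ⟨i, rfl⟩ := hx
    rw [antiF_gen]
    fin_cases i <;> simp [antiGen, antiF_gen]
  | algebraMap r => simp [Algebra.algebraMap_eq_smul_one, antiF_one]
  | add x y _ _ hx hy => simp [hx, hy]
  | mul x y _ _ hx hy => simp [antiF_mul, hx, hy]

theorem antiF_mem {d : ℤ × ℤ} {φ : Weyl k} (hφ : φ ∈ Piece k d) : antiF φ ∈ Piece k d := by
  refine piece_induction (P := fun d φ => antiF φ ∈ Piece k d) ?_ ?_ ?_ ?_ ?_ hφ
  · rw [antiF_one]; exact one_mem_piece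
  · intro d; simp
  · intro d φ ψ h h'; simpa using add_mem h h'
  · intro d c φ h; simpa using Submodule.smul_mem _ c h
  · intro d φ i _ h
    rw [antiF_mul, add_comm]
    refine mul_mem_piece h ?_
    rw [antiF_gen]
    fin_cases i
    · exact gen_mem_piece 0
    · exact gen_mem_piece 1
    · simpa [antiGen, mem_piece] using gen_mem_piece (k := k) 2
    · simpa [antiGen, mem_piece] using gen_mem_piece (k := k) 3
    · exact gen_mem_piece 4

theorem antiF_x (e : Fin 2) :
    antiF (gen (if e = 0 then 0 else 1) : Weyl k) = gen (if e = 0 then 0 else 1) := by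
  rw [antiF_gen]; fin_cases e <;> simp [antiGen]

theorem antiF_x0 : antiF (gen 0 : Weyl k) = gen 0 := by rw [antiF_gen]; simp [antiGen]

theorem antiF_x1 : antiF (gen 1 : Weyl k) = gen 1 := by rw [antiF_gen]; simp [antiGen]

/-- Right multiplication by `x₁` and `x₂`: the kernel. -/
theorem x_syzygy {d : ℤ × ℤ} {f g : Weyl k} (hf : f ∈ Piece k d) (hg : g ∈ Piece k d)
    (h : f * gen 0 + g * gen 1 = 0) :
    ∃ c ∈ Piece k (d - (1, 0)), f = c * gen 1 ∧ g = -(c * gen 0) := by
  have h' := congrArg (fun z => sym (antiF z)) h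
  simp only [map_add, map_zero, antiF_mul] at h'
  rw [antiF_x0,
    antiF_x1, sym_gen_mul, sym_gen_mul] at h'
  simp only [lGen, mulOp, Matrix.cons_val_zero, Matrix.cons_val_one, LinearMap.mulLeft_apply] at h'
  have hdvd : (X 1 : Sym k) ∣ X 0 * sym (antiF f) :=
    ⟨-sym (antiF g), by rw [mul_neg, ← add_eq_zero_iff_eq_neg]; exact h'⟩
  obtain ⟨C, hC⟩ := ((X_prime (σ := Fin 5) (R := k) (i := 1)).dvd_or_dvd hdvd).resolve_left
    (by rw [X_dvd_X]; simp)
  have hG : sym (antiF g) = -(X 0 * C) := by
    apply mul_left_cancel₀ (X_ne_zero (1 : Fin 5))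
    rw [hC] at h'
    linear_combination h'
  refine ⟨antiF (ofSym C), antiF_mem ?_, ?_, ?_⟩
  · rw [mem_piece, sym_ofSym]
    have hf' : sym (antiF f) ∈ Deg k d := antiF_mem hf
    intro s hs
    have h2 : coeff (s + Finsupp.single 1 1) (sym (antiF f)) ≠ 0 := by
      rw [hC, mul_comm, coeff_mul_X]; exact hs
    have := hf' h2
    rw [map_add, Finsupp.weight_single, one_smul] at this
    rw [← this]
    simp [wt]
  · rw [← antiF_antiF f, ← antiF_x1, ← antiF_mul]
    congr 1
    apply sym_injective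
    rw [hC, sym_gen_mul, sym_ofSym]
    rfl
  · rw [← antiF_antiF g, ← antiF_x0, ← antiF_mul, ← map_neg]
    congr 1
    apply sym_injective
    rw [hG]
    show _ = sym (-(gen 0 * ofSym C))
    rw [map_neg, sym_gen_mul, sym_ofSym]
    rfl

theorem mul_x_cancel {f : Weyl k} (h : f * gen 1 = 0) : f = 0 := by
  have h' := congrArg (fun z => sym (antiF z)) h
  simp only [map_zero, antiF_mul] at h'
  rw [antiF_x1, sym_gen_mul] at h'
  simp only [lGen, mulOp, Matrix.cons_val_one, Matrix.cons_val_zero, LinearMap.mulLeft_apply,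
    mul_eq_zero, X_ne_zero, false_or] at h'
  have := congrArg antiF (sym_injective (h'.trans (map_zero sym).symm))
  rwa [antiF_antiF, map_zero] at this

/-- Right multiplication between columns. -/
noncomputable def colMul {t t' : ℤ × ℤ} (z : Weyl k) (hz : z ∈ Piece k (t - t')) :
    Col k t →ₗ[Rt k] Col k t' where
  toFun c := ⟨fun q => c.1 q * z, mem_Colsub.2 fun q => by
    simpa using mul_mem_piece (mem_Colsub.1 c.2 q) hz⟩
  map_add' c d := Subtype.ext (funext fun q => add_mul _ _ _)
  map_smul' r c := Subtype.ext (funext fun q => by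
    rw [RingHom.id_apply]
    show (blk r.a).mulVec c.1 q * z = (blk r.a).mulVec (fun q => c.1 q * z) q
    simp [Matrix.mulVec, dotProduct, Finset.sum_mul, mul_assoc])

theorem colMul_apply {t t' : ℤ × ℤ} (z : Weyl k) (hz : z ∈ Piece k (t - t')) (c : Col k t)
    (q : W) : (colMul z hz c).1 q = c.1 q * z := rfl

theorem x_mem_one (t : ℤ × ℤ) (e : Fin 5) (he : e = 0 ∨ e = 1) :
    (gen e : Weyl k) ∈ Piece k (t - (t - (1, 0))) := by
  rw [sub_sub_cancel]
  rcases he with rfl | rfl
  · exact gen_mem_piece 0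
  · exact gen_mem_piece 1

variable (k) in
/-- The first map of the Koszul sequence. -/
noncomputable def kosA (t : ℤ × ℤ) :
    Col k t →ₗ[Rt k] Col k (t - (1, 0)) × Col k (t - (1, 0)) :=
  (colMul (gen 1) (x_mem_one t 1 (Or.inr rfl))).prod
    (-(colMul (gen 0) (x_mem_one t 0 (Or.inl rfl)) : Col k t →ₗ[Rt k] Col k (t - (1, 0))))

variable (k) in
/-- The second map of the Koszul sequence. -/
noncomputable def kosB (t : ℤ × ℤ) :
    Col k t × Col k t →ₗ[Rt k] Col k (t - (1, 0)) :=
  (colMul (gen 0) (x_mem_one t 0 (Or.inl rfl))).coprod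
    (colMul (gen 1) (x_mem_one t 1 (Or.inr rfl)))

theorem kosA_injective (t : ℤ × ℤ) : Function.Injective (kosA k t) := by
  rw [injective_iff_map_eq_zero]
  intro c h
  refine Subtype.ext (funext fun q => mul_x_cancel ?_)
  exact congrFun (congrArg (fun z => (z.1 : Col k _).1) h) q

theorem exact_kos (t : ℤ × ℤ) : Function.Exact (kosA k t) (kosB k (t - (1, 0))) := by
  rintro ⟨f, g⟩
  constructor
  · intro h
    have hq : ∀ q, f.1 q * gen 0 + g.1 q * gen 1 = 0 := fun q =>
      congrFun (congrArg Subtype.val h) q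
    choose c hc hf hg using fun q => x_syzygy (mem_Colsub.1 f.2 q) (mem_Colsub.1 g.2 q) (hq q)
    refine ⟨⟨c, mem_Colsub.2 fun q => ?_⟩, Prod.ext (Subtype.ext (funext fun q => (hf q).symm))
      (Subtype.ext (funext fun q => (hg q).symm))⟩
    have := hc q
    rwa [sub_sub_eq_add_sub, add_sub_right_comm, add_sub_cancel_right] at this
  · rintro ⟨c, hc⟩
    rw [← hc]
    refine Subtype.ext (funext fun q => ?_)
    show c.1 q * gen 1 * gen 0 + -(c.1 q * gen 0) * gen 1 = 0
    rw [neg_mul, mul_assoc, mul_assoc, gen_x_comm]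
    abel

theorem kosB_surjective (t : ℤ × ℤ) (ht : t.1 ≤ 0) : Function.Surjective (kosB k t) := by
  intro c
  have h : ∀ q, ∃ a ∈ Piece k (pos q - t), ∃ b ∈ Piece k (pos q - t),
      c.1 q = a * gen 0 + b * gen 1 := by
    intro q
    have h1 := antiF_mem (mem_Colsub.1 c.2 q)
    obtain ⟨a, ha, b, hb, he⟩ := piece_split (by
      have := pos_bounds q; simp only [Prod.fst_sub]; omega) h1
    rw [sub_sub_eq_add_sub, add_sub_right_comm, add_sub_cancel_right] at ha hb
    refine ⟨antiF a, antiF_mem ha, antiF b, antiF_mem hb, ?_⟩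
    rw [← antiF_antiF (c.1 q), he, map_add, antiF_mul, antiF_mul]
    rw [antiF_x0,
      antiF_x1]
  choose a ha b hb he using h
  exact ⟨(⟨a, mem_Colsub.2 ha⟩, ⟨b, mem_Colsub.2 hb⟩),
    Subtype.ext (funext fun q => (he q).symm)⟩

/-- The matrix with a prescribed column. -/
noncomputable def colMat (v : W) (c : Ix → Weyl k) : Matrix Ix Ix (Weyl k) := fun i j =>
  if j = (0, v) then c i else if j = (1, v) then (if i.1 = 1 then c (0, i.2) else 0) else 0

theorem colMat_mem (v : W) (c : Acol k v) : colMat v c.1 ∈ ALG k := by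
  refine ⟨fun i j => ?_, (commute_shift_iff _).2 ⟨fun p q => ?_, fun p q => ?_⟩⟩
  · unfold colMat
    split_ifs with h1 h2 h3
    · subst h1; simpa [tgt_zero] using mem_Asub.1 c.2 i
    · subst h2
      obtain ⟨w, p⟩ := i
      obtain rfl : w = 1 := h3
      have := mem_Asub.1 c.2 (0, p)
      rw [tgt_one, tgt_one, add_sub_add_right_eq_sub]
      rwa [tgt_zero] at this
    · exact zero_mem _
    · exact zero_mem _
  · simp [colMat]
  · simp [colMat]

/-- The element of `A e_v` with a prescribed column. -/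
noncomputable def ofCol (v : W) (c : Acol k v) : Alg k := ⟨colMat v c.1, colMat_mem v c⟩

variable (k) in
/-- The (0, v) column. -/
noncomputable def toCol (v : W) : Alg k →ₗ[k] Acol k v where
  toFun a := ⟨fun i => a.1 i (0, v), mem_Asub.2 fun i => by
    simpa [tgt_zero] using a.2.1 i (0, v)⟩
  map_add' _ _ := rfl
  map_smul' _ _ := rfl

theorem toCol_mul (v : W) (a b : Alg k) : toCol k v (a * b) = a • toCol k v b := rfl

theorem toCol_ofCol (v : W) (c : Acol k v) : toCol k v (ofCol v c) = c :=
  Subtype.ext (funext fun i => by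
    show colMat v c.1 i (0, v) = c.1 i
    simp [colMat])

theorem slot_mul_apply (M : Matrix Ix Ix (Weyl k)) (v v' : W) (x : Weyl k) (i : Ix) (w : Fin 2)
    (q : W) : (M * slot v v' x) i (w, q) = if q = v' then M i (w, v) * x else 0 := by
  rw [Matrix.mul_apply, Finset.sum_eq_single (w, v)]
  · rw [slot_apply]
    by_cases hq : q = v' <;> simp [hq]
  · rintro ⟨u, r⟩ _ h
    rw [slot_apply, if_neg, mul_zero]
    rintro ⟨rfl, rfl, -⟩
    exact h rfl
  · simp

theorem ofCol_mul_eV (v : W) (c : Acol k v) : ofCol v c * eV k v = ofCol v c := by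
  apply Subtype.ext
  refine Matrix.ext fun i => ?_
  rintro ⟨w, q⟩
  show (colMat v c.1 * slot v v (1 : Weyl k) : Matrix Ix Ix (Weyl k)) i (w, q) = colMat v c.1 i (w, q)
  rw [slot_mul_apply, mul_one]
  split_ifs with h
  · rw [h]
  · have h0 : ¬((w, q) = ((0 : Fin 2), v)) := fun e => h (Prod.ext_iff.1 e).2
    have h1 : ¬((w, q) = ((1 : Fin 2), v)) := fun e => h (Prod.ext_iff.1 e).2
    simp [colMat, h0, h1]

theorem ofCol_toCol (v : W) {a : Alg k} (ha : a * eV k v = a) : ofCol v (toCol k v a) = a := by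
  apply Subtype.ext
  refine Matrix.ext fun i => ?_
  rintro ⟨w, q⟩
  have := congrArg (fun b : Alg k => b.1 i (w, q)) ha
  simp only [MulMemClass.coe_mul, eV, slot_mul_apply, mul_one] at this
  show colMat v (toCol k v a).1 i (w, q) = _
  obtain ⟨u, p⟩ := i
  by_cases hq : q = v
  · subst hq
    fin_cases w <;> fin_cases u <;> simp [colMat, toCol, alg_upper, alg_diag, blk] <;> rfl
  · rw [if_neg hq] at this
    rw [← this]
    simp [colMat, hq]

end Vale.Agent.P195.CE
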