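import Vale.Agent.P195.CE.Modules
import Vale.Agent.P195.CE.CplxExact
import Mathlib.LinearAlgebra.Pi

/-!
# The periodic resolution of `T m` over `R`

A generator `g` of the complex of `m` contributes, in degree `n ≥ deg g`, a copy of `R e` if
`n - deg g` is even and a copy of `P e` if it is odd.
-/

namespace Vale.Agent.P195.CE

variable {k : Type} [Field k]

/-- Declared directly to shorten instance searches. -/
noncomputable instance instRingEZ : Ring (EZ k) := Module.End.instRing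

theorem tauM_slot (l : Fin 2) (v v' : W) (x : Weyl k) :
    tauM l (slot v v' x) = slot v v' (slope l x) :=
  slot_map (slope (k := k) l).toAddMonoidHom v v' x

theorem xiZ_slot (v v' v'' : W) {x y : Weyl k} (hx : slot v v' x ∈ ALG k)
    (hy : slot v' v'' y ∈ ALG k) :
    xiZ k (⟨slot v v' x, hx⟩ : Alg k) ⟨slot v' v'' y, hy⟩ =
      toEnd k (slot v v'' (lamLift k (slope 1 x * slope 0 y))) := by
  show toEnd k ((tauM 1 (slot v v' x) * tauM 0 (slot v' v'' y)).map (lamLift k)) = _
  rw [tauM_slot, tauM_slot, slot_mul]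
  exact congrArg (toEnd k) (slot_map (lamLift k).toAddMonoidHom v v'' _)

variable [CharZero k] {m : ℕ}

theorem Kmat_slot_mem (g g' : Gen m) : slot g.vW g'.vW (Kmat (k := k) m g g') ∈ ALG k :=
  slot_mem _ _ (by rw [Gen.pos_vW, Gen.pos_vW]; exact Kmat_mem g g')

variable (k m) in
/-- The differential, in `A`. -/
noncomputable def Dm : Matrix (Gen m) (Gen m) (Alg k) := fun g g' =>
  ⟨slot g.vW g'.vW (Kmat m g g'), Kmat_slot_mem g g'⟩

variable (k m) in
/-- The correction of degree two. -/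
noncomputable def Phm : Matrix (Gen m) (Gen m) (EZ k) := fun g g' =>
  -toEnd k (slot g.vW g'.vW (xiT (Kmat m) (Kmat m) g g'))

theorem vtx_bounds (g : Gen m) :
    0 ≤ g.vtx.1 ∧ g.vtx.1 ≤ 1 ∧ 0 ≤ g.vtx.2 ∧ g.vtx.2 ≤ 2 := by
  cases g <;> simp [Gen.vtx]

theorem exists_sigma : ∃ σ : Matrix (Gen m) (Gen m) (Weyl k), σ ∈ Graded k Gen.vtx Gen.vtx ∧
    σ.map (vRep k) = (Kmat m).map (vRep k) * xiT (Kmat (k := k) m) (Kmat m) -
      xiT (Kmat m) (Kmat m) * (Kmat m).map (vRep k) := by
  have hK : Kmat (k := k) m ∈ Graded k (Gen.vtx (m := m)) Gen.vtx := Kmat_mem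
  have hv : ∀ g g' : Gen m, Xi (Kmat (k := k) m) (Kmat m) g g' ≠ 0 →
      -1 ≤ (g.vtx - g'.vtx).1 := fun g g' _ => by
    have := vtx_bounds g; have := vtx_bounds g'; simp only [Prod.fst_sub]; omega
  have h := cocycle_lift (fun g : Gen m => (vtx_bounds g).2.2.2)
    (fun g : Gen m => (vtx_bounds g).2.2.1) hK hK hK hv hv
  rw [Kmat_sq] at h
  have h0 : xiT (0 : Matrix (Gen m) (Gen m) (Weyl k)) (Kmat m) = 0 := by
    ext1 g g'; simp [xiT, Xi, tauM]
  have h1 : xiT (Kmat (k := k) m) (0 : Matrix (Gen m) (Gen m) (Weyl k)) = 0 := by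
    ext1 g g'; simp [xiT, Xi, tauM]
  rw [h0, h1, sub_zero, add_zero] at h
  obtain ⟨σ, hσ, he⟩ := h
  exact ⟨σ, hσ, he⟩

variable (k m) in
/-- The correction of degree three, before it is put in `A`. -/
noncomputable def sigma : Matrix (Gen m) (Gen m) (Weyl k) := (exists_sigma (k := k) (m := m)).choose

theorem sigma_mem : sigma k m ∈ Graded k Gen.vtx Gen.vtx :=
  (exists_sigma (k := k) (m := m)).choose_spec.1

theorem sigma_map : (sigma k m).map (vRep k) = (Kmat m).map (vRep k) *
    xiT (Kmat (k := k) m) (Kmat m) - xiT (Kmat m) (Kmat m) * (Kmat m).map (vRep k) :=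
  (exists_sigma (k := k) (m := m)).choose_spec.2

theorem sigma_slot_mem (g g' : Gen m) : slot g.vW g'.vW (sigma k m g g') ∈ ALG k :=
  slot_mem _ _ (by rw [Gen.pos_vW, Gen.pos_vW]; exact sigma_mem g g')

variable (k m) in
/-- The correction of degree three. -/
noncomputable def Sm : Matrix (Gen m) (Gen m) (Alg k) := fun g g' =>
  ⟨slot g.vW g'.vW (sigma k m g g'), sigma_slot_mem g g'⟩

theorem Dm_supp (g g' : Gen m) (h : g.deg ≠ g'.deg + 1) : Dm k m g g' = 0 :=
  Subtype.ext (by simp [Dm, Kmat_support g g' h])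

theorem xiT_Kmat_supp (g g' : Gen m) (h : g.deg ≠ g'.deg + 2) :
    xiT (Kmat (k := k) m) (Kmat m) g g' = 0 := by
  simp only [xiT, Xi, Matrix.map_apply, Matrix.mul_apply, tauM]
  rw [Finset.sum_eq_zero, map_zero]
  intro l _
  by_cases hl : g.deg = l.deg + 1
  · rw [Kmat_support l g' (by omega)]; simp
  · rw [Kmat_support g l hl]; simp

theorem Phm_supp (g g' : Gen m) (h : g.deg ≠ g'.deg + 2) : Phm k m g g' = 0 := by
  simp [Phm, xiT_Kmat_supp g g' h]

theorem sigma_supp (g g' : Gen m) (h : g.deg ≠ g'.deg + 3) : sigma k m g g' = 0 := by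
  have hb := vtx_bounds g; have hb' := vtx_bounds g'
  refine vRep_injOn ?_ ?_ (sigma_mem g g') ?_
  · simp only [Prod.fst_sub]; omega
  · simp only [Prod.snd_sub]; omega
  have := congrFun (congrFun (sigma_map (k := k) (m := m)) g) g'
  rw [Matrix.map_apply] at this
  rw [this, Matrix.sub_apply, Matrix.mul_apply, Matrix.mul_apply]
  rw [Finset.sum_eq_zero, Finset.sum_eq_zero, sub_zero]
  · intro l _
    by_cases hl : g.deg = l.deg + 2
    · simp [Kmat_support l g' (by omega)]
    · simp [xiT_Kmat_supp g l hl]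
  · intro l _
    by_cases hl : g.deg = l.deg + 1
    · simp [xiT_Kmat_supp l g' (by omega)]
    · simp [Kmat_support g l hl]

theorem Sm_supp (g g' : Gen m) (h : g.deg ≠ g'.deg + 3) : Sm k m g g' = 0 :=
  Subtype.ext (by simp [Sm, sigma_supp g g' h])

theorem deg_le_three (g : Gen m) : g.deg ≤ 3 := by cases g <;> simp [Gen.deg]

theorem mul_supp {R : Type*} [NonUnitalNonAssocSemiring R] {M N : Matrix (Gen m) (Gen m) R}
    (a b : ℕ) (hM : ∀ g g', g.deg ≠ g'.deg + a → M g g' = 0)
    (hN : ∀ g g', g.deg ≠ g'.deg + b → N g g' = 0) (h : 3 < a + b) : M * N = 0 := by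
  refine Matrix.ext fun g g' => ?_
  rw [Matrix.mul_apply, Matrix.zero_apply]
  refine Finset.sum_eq_zero fun l _ => ?_
  by_cases hl : g.deg = l.deg + a
  · have := deg_le_three g
    rw [hN l g' (by omega), mul_zero]
  · rw [hM g l hl, zero_mul]

theorem Dm_sq : Dm k m * Dm k m = 0 := by
  refine Matrix.ext fun g g' => Subtype.ext ?_
  rw [Matrix.mul_apply, AddSubmonoidClass.coe_finsetSum]
  simp only [Dm, MulMemClass.coe_mul, slot_mul, ← map_sum]
  rw [← Matrix.mul_apply, Kmat_sq]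
  simp

theorem sum_xiZ_Dm (g g' : Gen m) :
    ∑ l, xiZ k (Dm k m g l) (Dm k m l g') = -Phm k m g g' := by
  simp only [Dm, xiZ_slot, Phm, neg_neg, ← map_sum]
  simp [xiT, Xi, tauM, Matrix.mul_apply]

theorem rho_Sm : (Dm k m).map (rhoZ k) * Phm k m - Phm k m * (Dm k m).map (rhoZ k) =
    -(Sm k m).map (rhoZ k) := by
  refine Matrix.ext fun g g' => ?_
  simp only [Matrix.sub_apply, Matrix.mul_apply, Matrix.map_apply, Matrix.neg_apply, Dm, Sm,
    rhoZ_slot, Phm, mul_neg, neg_mul, ← map_mul, slot_mul, Finset.sum_neg_distrib, ← map_sum]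
  rw [show vRep k (sigma k m g g') = ((sigma k m).map (vRep k)) g g' from rfl, sigma_map]
  simp only [Matrix.sub_apply, Matrix.mul_apply, Matrix.map_apply, map_sub]
  abel

theorem Dm_mul_e (g g' : Gen m) : Dm k m g g' * eV k g'.vW = Dm k m g g' :=
  Subtype.ext (by simp [Dm, eV, slot_mul])

theorem Sm_mul_e (g g' : Gen m) : Sm k m g g' * eV k g'.vW = Sm k m g g' :=
  Subtype.ext (by simp [Sm, eV, slot_mul])

theorem rhoZ_eV (v : W) : rhoZ k (eV k v) = toEnd k (slot v v 1) := by
  show rhoZ k ⟨slot v v 1, _⟩ = _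
  rw [rhoZ_slot, map_one]

theorem Phm_mul_e (g g' : Gen m) : Phm k m g g' * rhoZ k (eV k g'.vW) = Phm k m g g' := by
  simp [Phm, rhoZ_eV, ← map_mul, slot_mul]

theorem hat_mul_e {a : Alg k} {v v' : W} {x : Weyl k} (hx : slot v v' x ∈ ALG k)
    (ha : a = ⟨slot v v' x, hx⟩) : hat a * hat (eV k v') = hat a := by
  subst ha
  have h1 : (⟨slot v v' x, hx⟩ : Alg k) * eV k v' = ⟨slot v v' x, hx⟩ :=
    Subtype.ext (by simp [eV, slot_mul])
  have h2 : xiZ k (⟨slot v v' x, hx⟩ : Alg k) (eV k v') = 0 := by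
    rw [eV, xiZ_slot]
    simp [slope]
  ext1 <;> simp [h1, h2]

variable (k m) in
/-- The differential, in `R`. -/
noncomputable def Dh : Matrix (Gen m) (Gen m) (Rt k) := (Dm k m).map hat

variable (k m) in
/-- The correction of degree three, in `R`. -/
noncomputable def Sh : Matrix (Gen m) (Gen m) (Rt k) := (Sm k m).map hat

theorem Dh_supp (g g' : Gen m) (h : g.deg ≠ g'.deg + 1) : Dh k m g g' = 0 := by
  simp [Dh, Dm_supp g g' h]

theorem Sh_supp (g g' : Gen m) (h : g.deg ≠ g'.deg + 3) : Sh k m g g' = 0 := by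
  simp [Sh, Sm_supp g g' h]

theorem sum_comp (f : Gen m → Rt k) :
    (∑ g, f g).a = ∑ g, (f g).a ∧ (∑ g, f g).j = ∑ g, (f g).j ∧ (∑ g, f g).x = ∑ g, (f g).x ∧
      (∑ g, f g).y = ∑ g, (f g).y ∧ (∑ g, f g).c = ∑ g, (f g).c :=
  ⟨map_sum (⟨⟨fun s : Rt k => s.a, rfl⟩, fun _ _ => rfl⟩ : Rt k →+ Alg k) f Finset.univ,
    map_sum (⟨⟨fun s : Rt k => s.j, rfl⟩, fun _ _ => rfl⟩ : Rt k →+ Jc k) f Finset.univ,
    map_sum (⟨⟨fun s : Rt k => s.x, rfl⟩, fun _ _ => rfl⟩ : Rt k →+ Zc k) f Finset.univ,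
    map_sum (⟨⟨fun s : Rt k => s.y, rfl⟩, fun _ _ => rfl⟩ : Rt k →+ DZ k) f Finset.univ,
    map_sum (⟨⟨fun s : Rt k => s.c, rfl⟩, fun _ _ => rfl⟩ : Rt k →+ k) f Finset.univ⟩

theorem Dh_sq (g g' : Gen m) : (Dh k m * Dh k m) g g' = -pDel k (Phm k m g g', 0) := by
  obtain ⟨h1, h2, h3, h4, h5⟩ := sum_comp fun l => Dh k m g l * Dh k m l g'
  rw [Matrix.mul_apply]
  have hs := congrFun (congrFun (Dm_sq (k := k) (m := m)) g) g'
  rw [Matrix.mul_apply] at hs
  have hn : ∀ r : Rt k, (-r).a = -r.a ∧ (-r).j = -r.j ∧ (-r).x = -r.x ∧ (-r).y = -r.y ∧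
      (-r).c = -r.c := fun r => ⟨rfl, rfl, rfl, rfl, rfl⟩
  obtain ⟨n1, n2, n3, n4, n5⟩ := hn (pDel k (Phm k m g g', 0))
  ext1
  · rw [h1, n1]; simpa [Dh] using hs
  · rw [h2, n2]
    simp [Dh, ← map_sum, sum_xiZ_Dm, map_neg]
  · rw [h3, n3]; simp [Dh]
  · rw [h4, n4]; simp [Dh]
  · rw [h5, n5]; simp [Dh]

theorem Dh_Sh : Dh k m * Sh k m = 0 := mul_supp 1 3 Dh_supp Sh_supp (by omega)
theorem Sh_Dh : Sh k m * Dh k m = 0 := mul_supp 3 1 Sh_supp Dh_supp (by omega)
theorem Sh_Sh : Sh k m * Sh k m = 0 := mul_supp 3 3 Sh_supp Sh_supp (by omega)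

/-! ### Operations on families -/

/-- The right action of `A` on `P`. -/
noncomputable def pmulA (a : Alg k) : Pc k →ₗ[Rt k] Pc k where
  toFun p := (p.1 * rhoZ k a, p.2 ∘ₗ rhoZ k a)
  map_add' p q := by ext1 <;> simp [add_mul, LinearMap.add_comp]
  map_smul' r p := by
    ext1
    · simp only [Pc.smul_fst, RingHom.id_apply, add_mul, mul_assoc, outer_mul]
    · simp [LinearMap.smul_comp]

theorem pmulA_fst (a : Alg k) (p : Pc k) : (pmulA a p).1 = p.1 * rhoZ k a := rfl

theorem pmulA_snd (a : Alg k) (p : Pc k) : (pmulA a p).2 = p.2 ∘ₗ rhoZ k a := rfl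

theorem pmulA_mul (a b : Alg k) (p : Pc k) : pmulA b (pmulA a p) = pmulA (a * b) p := by
  refine Prod.ext ?_ ?_
  · rw [pmulA_fst, pmulA_fst, pmulA_fst, map_mul, mul_assoc]
  · rw [pmulA_snd, pmulA_snd, pmulA_snd, map_mul, Module.End.mul_eq_comp, LinearMap.comp_assoc]

variable (m) in
/-- Right multiplication of families in `P`. -/
noncomputable def pvec (M : Matrix (Gen m) (Gen m) (Alg k)) :
    (Gen m → Pc k) →ₗ[Rt k] (Gen m → Pc k) :=
  LinearMap.pi fun g' => ∑ g, (pmulA (M g g')).comp (LinearMap.proj g)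

variable (m) in
/-- Maps from families in `R` to families in `P`. -/
noncomputable def rphi (F : Matrix (Gen m) (Gen m) (EZ k)) :
    (Gen m → Rt k) →ₗ[Rt k] (Gen m → Pc k) :=
  LinearMap.pi fun g' =>
    ∑ g, (LinearMap.toSpanSingleton (Rt k) (Pc k) (F g g', 0)).comp (LinearMap.proj g)

variable (m) in
/-- Right multiplication of families in `R`. -/
noncomputable def rvec (M : Matrix (Gen m) (Gen m) (Rt k)) :
    (Gen m → Rt k) →ₗ[Rt k] (Gen m → Rt k) :=
  LinearMap.pi fun g' =>
    ∑ g, (LinearMap.toSpanSingleton (Rt k) (Rt k) (M g g')).comp (LinearMap.proj g)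

theorem pvec_apply (M : Matrix (Gen m) (Gen m) (Alg k)) (p : Gen m → Pc k) (g' : Gen m) :
    pvec m M p g' = ∑ g, pmulA (M g g') (p g) := by
  simp [pvec]

theorem rphi_apply (F : Matrix (Gen m) (Gen m) (EZ k)) (r : Gen m → Rt k) (g' : Gen m) :
    rphi m F r g' = ∑ g, (rhoZ k (r g).a * F g g', 0) := by
  simp only [rphi, LinearMap.pi_apply, LinearMap.sum_apply, LinearMap.comp_apply,
    LinearMap.proj_apply, LinearMap.toSpanSingleton_apply]
  refine Finset.sum_congr rfl fun g _ => ?_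
  ext1 <;> simp

theorem rvec_apply (M : Matrix (Gen m) (Gen m) (Rt k)) (r : Gen m → Rt k) (g' : Gen m) :
    rvec m M r g' = ∑ g, r g * M g g' := by
  simp [rvec]

theorem rvec_rvec (M N : Matrix (Gen m) (Gen m) (Rt k)) (r : Gen m → Rt k) :
    rvec m N (rvec m M r) = rvec m (M * N) r := by
  funext g
  simp only [rvec_apply, Matrix.mul_apply, Finset.mul_sum, Finset.sum_mul, mul_assoc]
  rw [Finset.sum_comm]

theorem pvec_pvec (M N : Matrix (Gen m) (Gen m) (Alg k)) (p : Gen m → Pc k) :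
    pvec m N (pvec m M p) = pvec m (M * N) p := by
  funext g
  simp only [pvec_apply, map_sum, pmulA_mul]
  rw [Finset.sum_comm]
  refine Finset.sum_congr rfl fun h _ => ?_
  simp only [Matrix.mul_apply]
  ext1
  · simp [pmulA, Finset.mul_sum, Prod.fst_sum]
  · refine LinearMap.ext fun z => ?_
    simp [pmulA, Prod.snd_sum]

theorem pvec_rphi (M : Matrix (Gen m) (Gen m) (Alg k)) (F : Matrix (Gen m) (Gen m) (EZ k))
    (r : Gen m → Rt k) : pvec m M (rphi m F r) = rphi m (F * M.map (rhoZ k)) r := by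
  funext g
  simp only [pvec_apply, rphi_apply, map_sum]
  rw [Finset.sum_comm]
  refine Finset.sum_congr rfl fun h _ => ?_
  ext1
  · simp [pmulA, Matrix.mul_apply, Finset.mul_sum, Prod.fst_sum, mul_assoc]
  · simp [pmulA, Prod.snd_sum]

theorem rphi_rvec (A : Matrix (Gen m) (Gen m) (Alg k)) (F : Matrix (Gen m) (Gen m) (EZ k))
    (r : Gen m → Rt k) :
    rphi m F (rvec m (A.map hat) r) = rphi m (A.map (rhoZ k) * F) r := by
  funext g
  simp only [rphi_apply, rvec_apply, Matrix.mul_apply, Matrix.map_apply]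
  simp only [(sum_comp _).1, Rt.mul_a, hat_a, map_sum, map_mul, Finset.sum_mul, Finset.mul_sum,
    mul_assoc]
  ext1
  · simp only [Prod.fst_sum]; rw [Finset.sum_comm]
  · simp [Prod.snd_sum]

theorem rphi_add (F G : Matrix (Gen m) (Gen m) (EZ k)) (r : Gen m → Rt k) :
    rphi m (F + G) r = rphi m F r + rphi m G r := by
  funext g
  simp [rphi_apply, mul_add, ← Finset.sum_add_distrib]

theorem rphi_zero_mat (r : Gen m → Rt k) : rphi m (0 : Matrix (Gen m) (Gen m) (EZ k)) r = 0 := by
  funext g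
  simp [rphi_apply, ← Prod.zero_eq_mk]

theorem pvec_zero_mat (p : Gen m → Pc k) : pvec m (0 : Matrix (Gen m) (Gen m) (Alg k)) p = 0 := by
  funext g
  rw [pvec_apply]
  refine Finset.sum_eq_zero fun h _ => ?_
  ext1 <;> simp [pmulA]

theorem rvec_zero_mat (r : Gen m → Rt k) : rvec m (0 : Matrix (Gen m) (Gen m) (Rt k)) r = 0 := by
  funext g
  simp [rvec_apply]

theorem pDel_pvec (M : Matrix (Gen m) (Gen m) (Alg k)) (p : Gen m → Pc k) (g' : Gen m) :
    pDel k (pvec m M p g') = rvec m (M.map hat) (fun g => pDel k (p g)) g' := by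
  rw [pvec_apply, rvec_apply, map_sum]
  refine Finset.sum_congr rfl fun g _ => ?_
  ext1 <;> simp [pmulA, rJ_mk]

theorem pDel_iota (r : Rt k) : pDel k (iota k r) = 0 := by
  ext1 <;> simp [iota, mkJ_rho]

theorem pDel_rphi (r : Gen m → Rt k) (g' : Gen m) :
    pDel k (rphi m (Phm k m) r g') = -rvec m (Dh k m * Dh k m) r g' := by
  simp only [rvec_apply, Dh_sq, mul_neg, Finset.sum_neg_distrib, neg_neg]
  rw [show rphi m (Phm k m) r g' = ∑ g, r g • ((Phm k m g g', 0) : Pc k) by simp [rphi],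
    map_sum]
  simp

theorem rphi_pDel (F : Matrix (Gen m) (Gen m) (EZ k)) (p : Gen m → Pc k) :
    rphi m F (fun g => pDel k (p g)) = 0 := by
  funext g
  simp [rphi_apply, ← Prod.zero_eq_mk]

/-! ### The complex -/

variable (k m) in
/-- Families indexed by the generators. -/
abbrev Amb := (Gen m → Rt k) × (Gen m → Pc k)

/-- The coefficient of the correction of degree three. -/
def coef (N : ℕ) : ℕ := (N - 1) / 2

variable (k m) in
/-- `ι` on the generators of degree less than `N`. -/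
noncomputable def iotaN (N : ℕ) : (Gen m → Rt k) →ₗ[Rt k] (Gen m → Pc k) :=
  LinearMap.pi fun g => if g.deg < N then (iota k).comp (LinearMap.proj g) else 0

theorem iotaN_apply (N : ℕ) (r : Gen m → Rt k) (g : Gen m) :
    iotaN k m N r g = if g.deg < N then iota k (r g) else 0 := by
  simp only [iotaN, LinearMap.pi_apply]
  split_ifs <;> rfl

variable (k m) in
/-- The part of the differential with values in `R`. -/
noncomputable def dR (N : ℕ) : Amb k m →ₗ[Rt k] (Gen m → Rt k) :=
  (LinearMap.pi fun g => (pDel k).comp (LinearMap.proj g)).comp (LinearMap.snd _ _ _) +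
    (rvec m (Dh k m) + coef N • rvec m (Sh k m)).comp (LinearMap.fst _ _ _)

variable (k m) in
/-- The part of the differential with values in `P`. -/
noncomputable def dP (N : ℕ) : Amb k m →ₗ[Rt k] (Gen m → Pc k) :=
  (iotaN k m N + rphi m (Phm k m)).comp (LinearMap.fst _ _ _) -
    (pvec m (Dm k m) + coef N • pvec m (Sm k m)).comp (LinearMap.snd _ _ _)

theorem dR_apply (N : ℕ) (x : Amb k m) : dR k m N x =
    (fun g => pDel k (x.2 g)) + rvec m (Dh k m) x.1 + coef N • rvec m (Sh k m) x.1 := by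
  funext g
  simp [dR, add_assoc]

theorem dP_apply (N : ℕ) (x : Amb k m) : dP k m N x =
    iotaN k m N x.1 + rphi m (Phm k m) x.1 - pvec m (Dm k m) x.2 -
      coef N • pvec m (Sm k m) x.2 := by
  funext g
  simp [dP, sub_sub]

variable (k m) in
/-- The differential on families. -/
noncomputable def dAmb (N : ℕ) : Amb k m →ₗ[Rt k] Amb k m := (dR k m N).prod (dP k m N)

/-- The generators contributing `R e` in degree `N`. -/
def RIdx (N : ℕ) (g : Gen m) : Prop := g.deg ≤ N ∧ (N - g.deg) % 2 = 0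

/-- The generators contributing `P e` in degree `N`. -/
def PIdx (N : ℕ) (g : Gen m) : Prop := g.deg ≤ N ∧ (N - g.deg) % 2 = 1

instance (N : ℕ) (g : Gen m) : Decidable (RIdx N g) := inferInstanceAs (Decidable (_ ∧ _))

instance (N : ℕ) (g : Gen m) : Decidable (PIdx N g) := inferInstanceAs (Decidable (_ ∧ _))

variable (k m) in
/-- The projection onto the degree `N` part. -/
noncomputable def qProj (N : ℕ) : Amb k m →ₗ[Rt k] Amb k m :=
  ((LinearMap.pi fun g => if RIdx N g then
      (LinearMap.toSpanSingleton (Rt k) (Rt k) (hat (eV k g.vW))).comp (LinearMap.proj g)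
      else 0).comp (LinearMap.fst _ _ _)).prod
    ((LinearMap.pi fun g => if PIdx N g then (pmulA (eV k g.vW)).comp (LinearMap.proj g)
      else 0).comp (LinearMap.snd _ _ _))

theorem qProj_fst (N : ℕ) (x : Amb k m) (g : Gen m) :
    (qProj k m N x).1 g = if RIdx N g then x.1 g * hat (eV k g.vW) else 0 := by
  simp only [qProj, LinearMap.prod_apply, Function.comp_apply, LinearMap.comp_apply,
    LinearMap.pi_apply, LinearMap.fst_apply]
  show (if _ then _ else (0 : (Gen m → Rt k) →ₗ[Rt k] Rt k)) x.1 = _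
  split_ifs <;> simp

theorem qProj_snd (N : ℕ) (x : Amb k m) (g : Gen m) :
    (qProj k m N x).2 g = if PIdx N g then pmulA (eV k g.vW) (x.2 g) else 0 := by
  simp only [qProj, LinearMap.prod_apply, Function.comp_apply, LinearMap.comp_apply,
    LinearMap.pi_apply, LinearMap.snd_apply]
  show (if _ then _ else (0 : (Gen m → Pc k) →ₗ[Rt k] Pc k)) x.2 = _
  split_ifs <;> simp

theorem hat_eV_idem (v : W) : hat (eV k v) * hat (eV k v) = hat (eV k v) :=
  hat_mul_e (v := v) (v' := v) (x := 1) (eV k v).2 rfl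

theorem qProj_idem (N : ℕ) (x : Amb k m) : qProj k m N (qProj k m N x) = qProj k m N x := by
  refine Prod.ext (funext fun g => ?_) (funext fun g => ?_)
  · simp only [qProj_fst]
    split_ifs
    · rw [mul_assoc, hat_eV_idem]
    · rfl
  · simp only [qProj_snd]
    split_ifs
    · rw [pmulA_mul, eV_mul_self]
    · rfl

variable (k m) in
/-- The degree `N` part of the resolution. -/
noncomputable def Qsub (N : ℕ) : Submodule (Rt k) (Amb k m) :=
  LinearMap.eqLocus (qProj k m N) LinearMap.id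

theorem mem_Qsub {N : ℕ} {x : Amb k m} : x ∈ Qsub k m N ↔
    (∀ g, (RIdx N g → x.1 g * hat (eV k g.vW) = x.1 g) ∧ (¬RIdx N g → x.1 g = 0)) ∧
      ∀ g, (PIdx N g → pmulA (eV k g.vW) (x.2 g) = x.2 g) ∧ (¬PIdx N g → x.2 g = 0) := by
  rw [Qsub, LinearMap.mem_eqLocus, LinearMap.id_apply, Prod.ext_iff, funext_iff, funext_iff]
  refine and_congr (forall_congr' fun g => ?_) (forall_congr' fun g => ?_)
  · rw [qProj_fst]; by_cases h : RIdx N g <;> simp [h, eq_comm]
  · rw [qProj_snd]; by_cases h : PIdx N g <;> simp [h, eq_comm]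

theorem rvec_fixed (M : Matrix (Gen m) (Gen m) (Rt k))
    (hM : ∀ g g', M g g' * hat (eV k g'.vW) = M g g') (r : Gen m → Rt k) (g' : Gen m) :
    rvec m M r g' * hat (eV k g'.vW) = rvec m M r g' := by
  simp only [rvec_apply, Finset.sum_mul, mul_assoc, hM]

theorem Dh_mul_e (g g' : Gen m) : Dh k m g g' * hat (eV k g'.vW) = Dh k m g g' :=
  hat_mul_e (Kmat_slot_mem g g') rfl

theorem Sh_mul_e (g g' : Gen m) : Sh k m g g' * hat (eV k g'.vW) = Sh k m g g' :=
  hat_mul_e (sigma_slot_mem g g') rfl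

theorem pDel_pmulA (a : Alg k) (p : Pc k) : pDel k (pmulA a p) = pDel k p * hat a := by
  ext1 <;> simp [pmulA, rJ_mk]

theorem iota_mul_e (r : Rt k) (v : W) (h : r * hat (eV k v) = r) :
    pmulA (eV k v) (iota k r) = iota k r := by
  have ha : r.a * eV k v = r.a := by simpa using congrArg Rt.a h
  ext1
  · simp [iota, pmulA, ← map_mul, ha]
  · simp [iota, pmulA]

theorem dAmb_mem {N : ℕ} (hN : 1 ≤ N) {x : Amb k m} (hx : x ∈ Qsub k m N) :
    dAmb k m N x ∈ Qsub k m (N - 1) := by
  obtain ⟨hr, hp⟩ := mem_Qsub.1 hx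
  refine mem_Qsub.2 ⟨fun g => ⟨fun _ => ?_, fun hg => ?_⟩, fun g => ⟨fun _ => ?_, fun hg => ?_⟩⟩
  · show dR k m N x g * _ = dR k m N x g
    simp only [dR_apply, Pi.add_apply, Pi.smul_apply, add_mul, smul_mul_assoc,
      rvec_fixed _ Dh_mul_e, rvec_fixed _ Sh_mul_e, ← pDel_pmulA]
    by_cases h : PIdx N g
    · rw [(hp g).1 h]
    · simp [(hp g).2 h]
  · show dR k m N x g = 0
    simp only [dR_apply, Pi.add_apply, Pi.smul_apply, rvec_apply]
    have h1 : x.2 g = 0 := (hp g).2 fun h => hg ⟨by have := h.1; have := h.2; omega,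
      by have := h.1; have := h.2; omega⟩
    rw [h1, map_zero, zero_add, Finset.sum_eq_zero, Finset.sum_eq_zero, smul_zero, add_zero]
    · intro h _
      by_cases hd : h.deg = g.deg + 3
      · rw [(hr h).2 (fun hh => hg ⟨by have := hh.1; omega, by have := hh.2; have := hh.1; omega⟩),
          zero_mul]
      · rw [Sh_supp h g hd, mul_zero]
    · intro h _
      by_cases hd : h.deg = g.deg + 1
      · rw [(hr h).2 (fun hh => hg ⟨by have := hh.1; omega, by have := hh.2; have := hh.1; omega⟩),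
          zero_mul]
      · rw [Dh_supp h g hd, mul_zero]
  · show pmulA _ (dP k m N x g) = dP k m N x g
    simp only [dP_apply, Pi.add_apply, Pi.sub_apply, Pi.smul_apply, map_add, map_sub, map_nsmul]
    have h1 : pmulA (eV k g.vW) (iotaN k m N x.1 g) = iotaN k m N x.1 g := by
      rw [iotaN_apply]
      split_ifs
      · by_cases h : RIdx N g
        · exact iota_mul_e _ _ ((hr g).1 h)
        · simp [(hr g).2 h]
      · simp
    have h2 : pmulA (eV k g.vW) (rphi m (Phm k m) x.1 g) = rphi m (Phm k m) x.1 g := by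
      simp only [rphi_apply, map_sum]
      refine Finset.sum_congr rfl fun h _ => ?_
      ext1 <;> simp [pmulA, mul_assoc, Phm_mul_e]
    have h3 : ∀ M : Matrix (Gen m) (Gen m) (Alg k), (∀ h, M h g * eV k g.vW = M h g) →
        pmulA (eV k g.vW) (pvec m M x.2 g) = pvec m M x.2 g := by
      intro M hM
      simp only [pvec_apply, map_sum, pmulA_mul, hM]
    rw [h1, h2, h3 _ (fun h => Dm_mul_e h g), h3 _ (fun h => Sm_mul_e h g)]
  · show dP k m N x g = 0
    simp only [dP_apply, Pi.add_apply, Pi.sub_apply, Pi.smul_apply, pvec_apply, rphi_apply,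
      iotaN_apply]
    have h1 : (if g.deg < N then iota k (x.1 g) else 0) = 0 := by
      split_ifs with hd
      · rw [(hr g).2 (fun hh => hg ⟨by omega, by have := hh.2; omega⟩), map_zero]
      · rfl
    rw [h1, Finset.sum_eq_zero, Finset.sum_eq_zero, Finset.sum_eq_zero]
    · simp
    · intro h _
      by_cases hd : h.deg = g.deg + 3
      · rw [(hp h).2 (fun hh => hg ⟨by have := hh.1; omega, by have := hh.2; have := hh.1; omega⟩),
          map_zero]
      · rw [Sm_supp h g hd]; ext1 <;> simp [pmulA]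
    · intro h _
      by_cases hd : h.deg = g.deg + 1
      · rw [(hp h).2 (fun hh => hg ⟨by have := hh.1; omega, by have := hh.2; have := hh.1; omega⟩),
          map_zero]
      · rw [Dm_supp h g hd]; ext1 <;> simp [pmulA]
    · intro h _
      by_cases hd : h.deg = g.deg + 2
      · rw [(hr h).2 (fun hh => hg ⟨by have := hh.1; omega, by have := hh.2; have := hh.1; omega⟩)]
        ext1 <;> simp
      · rw [Phm_supp h g hd]; ext1 <;> simp

theorem iotaN_rvec (N a : ℕ) (A : Matrix (Gen m) (Gen m) (Alg k))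
    (hA : ∀ g g', g.deg ≠ g'.deg + a → A g g' = 0) (r : Gen m → Rt k) :
    iotaN k m N (rvec m (A.map hat) r) =
      rphi m (A.map (rhoZ k)) (fun g => if g.deg < N + a then r g else 0) := by
  funext g'
  simp only [iotaN_apply, rvec_apply, rphi_apply, Matrix.map_apply]
  split_ifs with hd
  · rw [map_sum]
    refine Finset.sum_congr rfl fun g _ => ?_
    by_cases hg : g.deg = g'.deg + a
    · rw [if_pos (by omega)]
      ext1 <;> simp [iota]
    · simp [hA g g' hg, ← Prod.zero_eq_mk]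
  · refine (Finset.sum_eq_zero fun g _ => ?_).symm
    by_cases hg : g.deg = g'.deg + a
    · rw [if_neg (by omega)]; simp [← Prod.zero_eq_mk]
    · simp [hA g g' hg, ← Prod.zero_eq_mk]

theorem pvec_iotaN (N : ℕ) (A : Matrix (Gen m) (Gen m) (Alg k)) (r : Gen m → Rt k) :
    pvec m A (iotaN k m N r) =
      rphi m (A.map (rhoZ k)) (fun g => if g.deg < N then r g else 0) := by
  funext g'
  simp only [iotaN_apply, pvec_apply, rphi_apply, Matrix.map_apply]
  refine Finset.sum_congr rfl fun g _ => ?_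
  split_ifs <;> ext1 <;> simp [iota, pmulA]

theorem dAmb_dAmb {N : ℕ} (hN : 2 ≤ N) {x : Amb k m} (hx : x ∈ Qsub k m N) :
    dAmb k m (N - 1) (dAmb k m N x) = 0 := by
  obtain ⟨hr, hp⟩ := mem_Qsub.1 hx
  refine Prod.ext ?_ ?_
  · show dR k m (N - 1) (dR k m N x, dP k m N x) = 0
    funext g
    rw [dR_apply]
    have hi : pDel k (iotaN k m N x.1 g) = 0 := by
      rw [iotaN_apply]; split_ifs <;> simp [pDel_iota]
    have hS : (coef (N - 1) • rvec m (Sh k m) (fun g => pDel k (x.2 g))) g =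
        (coef N • rvec m (Sh k m) (fun g => pDel k (x.2 g))) g := by
      simp only [Pi.smul_apply, rvec_apply, Finset.smul_sum]
      refine Finset.sum_congr rfl fun h _ => ?_
      by_cases hd : h.deg = g.deg + 3
      · by_cases hh : PIdx N h
        · have := hh.1; have := hh.2; have := deg_le_three h
          rw [show coef (N - 1) = coef N by simp only [coef]; omega]
        · simp [(hp h).2 hh]
      · simp [Sh_supp h g hd]
    simp only [dP_apply, dR_apply, Pi.add_apply, Pi.sub_apply, Pi.smul_apply, map_add, map_sub,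
      map_nsmul, pDel_pvec, pDel_rphi, rvec_rvec, Dh_Sh, Sh_Dh, Sh_Sh, rvec_zero_mat,
      Pi.zero_apply, hi, smul_zero, add_zero, zero_add, smul_add]
    simp only [Pi.smul_apply] at hS
    rw [hS]
    simp only [Dh, Sh]
    abel
  · show dP k m (N - 1) (dR k m N x, dP k m N x) = 0
    have h0 : iotaN k m (N - 1) (fun g => pDel k (x.2 g)) = 0 := by
      funext g; rw [iotaN_apply]; split_ifs <;> simp [iota, ← Prod.zero_eq_mk]
    have e1 : N - 1 + 1 = N := by omega
    have hSP : (Sm k m).map (rhoZ k) * Phm k m = 0 :=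
      mul_supp 3 2 (fun g g' h => by simp [Sm_supp g g' h]) Phm_supp (by omega)
    have hPS : Phm k m * (Sm k m).map (rhoZ k) = 0 :=
      mul_supp 2 3 Phm_supp (fun g g' h => by simp [Sm_supp g g' h]) (by omega)
    have hDS : Dm k m * Sm k m = 0 := mul_supp 1 3 Dm_supp Sm_supp (by omega)
    have hSD : Sm k m * Dm k m = 0 := mul_supp 3 1 Sm_supp Dm_supp (by omega)
    have hSS : Sm k m * Sm k m = 0 := mul_supp 3 3 Sm_supp Sm_supp (by omega)
    have hDS' : rphi m ((Dm k m).map (rhoZ k) * Phm k m) x.1 =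
        rphi m (Phm k m * (Dm k m).map (rhoZ k)) x.1 +
          rphi m (-(Sm k m).map (rhoZ k)) x.1 := by
      rw [← rphi_add, ← rho_Sm, add_sub_cancel]
    have hkey : coef N • rphi m ((Sm k m).map (rhoZ k))
          (fun g => if g.deg < N - 1 + 3 then x.1 g else 0) =
        rphi m ((Sm k m).map (rhoZ k)) x.1 + coef (N - 1) •
          rphi m ((Sm k m).map (rhoZ k)) (fun g => if g.deg < N then x.1 g else 0) := by
      funext g'
      simp only [Pi.smul_apply, Pi.add_apply, rphi_apply, Finset.smul_sum, ← Finset.sum_add_distrib]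
      refine Finset.sum_congr rfl fun h _ => ?_
      by_cases hd : h.deg = g'.deg + 3
      · by_cases hh : RIdx N h
        · have := hh.1; have := hh.2; have := deg_le_three h
          rw [if_pos (by omega : h.deg < N - 1 + 3)]
          by_cases h3 : h.deg < N
          · rw [if_pos h3, show coef N = coef (N - 1) + 1 by simp only [coef]; omega, succ_nsmul,
              add_comm]
          · rw [if_neg h3, show coef N = 1 by simp only [coef]; omega]
            simp [← Prod.zero_eq_mk]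
        · simp [(hr h).2 hh, ← Prod.zero_eq_mk]
      · simp [Sm_supp h g' hd, ← Prod.zero_eq_mk]
    have hneg : rphi m (-(Sm k m).map (rhoZ k)) x.1 = -rphi m ((Sm k m).map (rhoZ k)) x.1 := by
      rw [eq_neg_iff_add_eq_zero, ← rphi_add, neg_add_cancel, rphi_zero_mat]
    simp only [dP_apply, dR_apply, map_add, map_sub, map_nsmul, h0, Dh, Sh,
      iotaN_rvec (N - 1) 1 _ Dm_supp, iotaN_rvec (N - 1) 3 _ Sm_supp, e1, rphi_pDel, rphi_rvec,
      pvec_iotaN, pvec_rphi, pvec_pvec, Dm_sq, hDS, hSD, hSS, hSP, hPS, pvec_zero_mat,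
      rphi_zero_mat, smul_zero, zero_add, add_zero, sub_zero]
    rw [hkey, hDS', hneg]
    abel

end Vale.Agent.P195.CE
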