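import Vale.Agent.P195.CE.Periodic
import Mathlib.Algebra.Module.Projective
import Mathlib.LinearAlgebra.DFinsupp
import Mathlib.Data.DFinsupp.BigOperators

/-!
# The periodic complex is a projective resolution of `T m`
-/

namespace Vale.Agent.P195.CE

open MvPolynomial

variable {k : Type} [Field k] [CharZero k] {m : ℕ}

/-- The rows of a family, at an index. -/
noncomputable def rowA (r : Gen m → Rt k) (j : Ix) : Gen m → Weyl k :=
  fun g => (r g).a.1 j (0, g.vW)

theorem rowA_mem (r : Gen m → Rt k) (j : Ix) (g : Gen m) :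
    rowA r j g ∈ Piece k (tgt j - g.vtx) := by
  have := (r g).a.2.1 j (0, g.vW)
  rwa [tgt_zero, Gen.pos_vW] at this

theorem coe_sum_apply (f : Gen m → Alg k) (i j : Ix) :
    (∑ g, f g).1 i j = ∑ g, (f g).1 i j := by
  rw [AddSubmonoidClass.coe_finsetSum, Matrix.sum_apply]

theorem rowA_rvec_Dh (r : Gen m → Rt k) (j : Ix) (g : Gen m) :
    rowA (rvec m (Dh k m) r) j g = Matrix.vecMul (rowA r j) (Kmat m) g := by
  simp only [rowA, rvec_apply, (sum_comp _).1, coe_sum_apply, Matrix.vecMul, dotProduct]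
  refine Finset.sum_congr rfl fun h _ => ?_
  show ((r h).a.1 * slot h.vW g.vW (Kmat m h g) : Matrix Ix Ix (Weyl k)) j (0, g.vW) = _
  rw [slot_mul_apply, if_pos rfl]

theorem augMon_mem (g : Gen m) : augMon (k := k) g ∈ PolDeg k ((m : ℤ) + g.vtx.1) := by
  cases g with
  | A0 i =>
    have h := IsWeightedHomogeneous.mul
      ((isWeightedHomogeneous_X k (fun _ : Fin 2 => (1 : ℤ)) 0).pow (i : ℕ))
      ((isWeightedHomogeneous_X k (fun _ : Fin 2 => (1 : ℤ)) 1).pow (m - i))
    have e : (i : ℕ) • (1 : ℤ) + (m - (i : ℕ)) • (1 : ℤ) = (m : ℤ) + (Gen.A0 i : Gen m).vtx.1 := by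
      have := i.isLt
      simp [Gen.vtx]; omega
    rw [e] at h
    exact h
  | _ => simp [augMon]

theorem aug_mem_polDeg {t : ℤ × ℤ} {r : Gen m → Weyl k} (hr : ∀ g, r g ∈ Piece k (t - g.vtx)) :
    aug r ∈ PolDeg k ((m : ℤ) + t.1) := by
  refine sum_mem fun g _ => ?_
  have := polRep_mem (hr g) (augMon_mem g)
  convert this using 2
  simp only [Prod.fst_sub]; ring

variable (k m) in
/-- The augmentation on families. -/
noncomputable def epsAmb : Amb k m →ₗ[Rt k] Tmod k m where
  toFun x := ⟨fun j => aug (rowA x.1 j), mem_Tsub.2 fun j => aug_mem_polDeg (rowA_mem x.1 j)⟩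
  map_add' x y := Subtype.ext (funext fun j => by
    show aug (rowA (x.1 + y.1) j) = aug (rowA x.1 j) + aug (rowA y.1 j)
    simp [aug, rowA, Finset.sum_add_distrib])
  map_smul' s x := Subtype.ext (funext fun j => by
    rw [RingHom.id_apply]
    show aug (rowA (s • x.1) j) = polAct s.a.1 (fun j => aug (rowA x.1 j)) j
    rw [polAct_apply]
    simp only [aug, rowA, Pi.smul_apply, smul_eq_mul, Rt.mul_a, MulMemClass.coe_mul,
      Matrix.mul_apply, map_sum, LinearMap.sum_apply, map_mul, Module.End.mul_apply]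
    rw [Finset.sum_comm])

theorem epsAmb_apply (x : Amb k m) (j : Ix) : (epsAmb k m x).1 j = aug (rowA x.1 j) := rfl

theorem xiZ_eV_right' (a : Alg k) (v : W) : xiZ k a (eV k v) = 0 := by
  show toEnd k ((tauM 1 a.1 * tauM 0 (slot v v (1 : Weyl k))).map (lamLift k)) = 0
  rw [tauM_slot, show slope 0 (1 : Weyl k) = 0 by simp [slope], map_zero, mul_zero]
  simp

theorem hat_ofCol_mul_e (v : W) (c : Acol k v) :
    hat (ofCol v c) * hat (eV k v) = hat (ofCol v c) := by
  ext1 <;> simp [ofCol_mul_eV, xiZ_eV_right']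

theorem rows_mem_Asub (ρ : Ix → Gen m → Weyl k)
    (hρ : ∀ j g, ρ j g ∈ Piece k (tgt j - g.vtx)) (g : Gen m) :
    (fun j => ρ j g) ∈ Asub k g.vW := by
  rw [mem_Asub]
  intro j
  rw [Gen.pos_vW]
  exact hρ j g

/-- The column of a generator in a family of rows. -/
noncomputable def rowCol (ρ : Ix → Gen m → Weyl k) (g : Gen m)
    (hρ : (fun j => ρ j g) ∈ Asub k g.vW) : Acol k g.vW := ⟨fun j => ρ j g, hρ⟩

theorem rowCol_apply (ρ : Ix → Gen m → Weyl k) (g : Gen m)
    (hρ : (fun j => ρ j g) ∈ Asub k g.vW) (j : Ix) : (rowCol ρ g hρ).1 j = ρ j g := rfl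

theorem hat_a' (a : Alg k) : (hat a).a = a := rfl

/-- A family with prescribed rows. -/
noncomputable def liftRows (ρ : Ix → Gen m → Weyl k)
    (hρ : ∀ g : Gen m, (fun j => ρ j g) ∈ Asub k g.vW) : Gen m → Rt k :=
  fun g => hat (ofCol g.vW (rowCol ρ g (hρ g)))

theorem liftRows_apply (ρ : Ix → Gen m → Weyl k)
    (hρ : ∀ g : Gen m, (fun j => ρ j g) ∈ Asub k g.vW) (g : Gen m) :
    liftRows ρ hρ g = hat (ofCol g.vW (rowCol ρ g (hρ g))) := rfl

theorem rowA_liftRows (ρ : Ix → Gen m → Weyl k)
    (hρ : ∀ g : Gen m, (fun j => ρ j g) ∈ Asub k g.vW) (j : Ix) (g : Gen m) :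
    rowA (liftRows ρ hρ) j g = ρ j g := by
  rw [rowA, liftRows_apply, hat_a']
  exact congrFun (congrArg Subtype.val (toCol_ofCol g.vW (rowCol ρ g (hρ g)))) j

theorem ofCol_eq_zero (v : W) (c : Acol k v) (h : ∀ i, c.1 i = 0) : ofCol v c = 0 :=
  Subtype.ext (Matrix.ext fun i j => by simp [ofCol, colMat, h])

theorem liftRows_mem (N : ℕ) (ρ : Ix → Gen m → Weyl k)
    (hρ : ∀ g : Gen m, (fun j => ρ j g) ∈ Asub k g.vW)
    (hp : ∀ j g, g.deg ≠ N → ρ j g = 0) :
    ((liftRows ρ hρ, 0) : Amb k m) ∈ Qsub k m N := by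
  refine mem_Qsub.2 ⟨fun g => ⟨fun _ => hat_ofCol_mul_e g.vW (rowCol ρ g (hρ g)), fun hg => ?_⟩,
    fun g => ⟨fun _ => map_zero _, fun _ => rfl⟩⟩
  have hz : ∀ j, (rowCol ρ g (hρ g)).1 j = 0 := fun j => by
    rw [rowCol_apply]; exact hp j g fun h => hg ⟨by omega, by omega⟩
  show liftRows ρ hρ g = 0
  rw [liftRows_apply, ofCol_eq_zero g.vW (rowCol ρ g (hρ g)) hz, map_zero]

theorem aug_congr {r r' : Gen m → Weyl k} (h : ∀ g, g.deg = 0 → r g = r' g) : aug r = aug r' := by
  refine Finset.sum_congr rfl fun g _ => ?_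
  cases g with
  | A0 i => rw [h _ rfl]
  | _ => simp [augMon]

/-- The rows of the differential at the top degree. -/
theorem rowA_dR {N : ℕ} {x : Amb k m} (hx : x ∈ Qsub k m N) (g : Gen m) (hg : g.deg + 1 = N)
    (j : Ix) : rowA (dR k m N x) j g = Matrix.vecMul (rowA x.1 j) (Kmat m) g := by
  rw [← rowA_rvec_Dh]
  have hS : rvec m (Sh k m) x.1 g = 0 := by
    rw [rvec_apply]
    refine Finset.sum_eq_zero fun h _ => ?_
    by_cases hd : h.deg = g.deg + 3
    · rw [((mem_Qsub.1 hx).1 h).2 (fun hh => by have := hh.1; omega), zero_mul]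
    · rw [Sh_supp h g hd, mul_zero]
  simp [rowA, dR_apply, hS]

theorem pDel_injOn {p : Pc k} {v : W} (hp : pmulA (eV k v) p = p) (h : pDel k p = 0) :
    ∃ b : Alg k, b * eV k v = b ∧ iota k (hat b) = p := by
  obtain ⟨a, ha⟩ := mkJ_eq_zero.1 (congrArg Rt.j h)
  refine ⟨a * eV k v, by rw [mul_assoc, eV_mul_self], Prod.ext ?_ ?_⟩
  · show rhoZ k (a * eV k v) = p.1
    rw [map_mul, ha]
    exact congrArg Prod.fst hp
  · exact (congrArg Rt.y h).symm

theorem mem_range_pDel {r : Rt k} {v : W} (hr : r * hat (eV k v) = r) (h : r.a = 0) :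
    ∃ p : Pc k, pmulA (eV k v) p = p ∧ pDel k p = r := by
  obtain ⟨M, hM⟩ := mkJ_surjective r.j
  have hj : mkJ (M * rhoZ k (eV k v)) = r.j := by
    conv_rhs => rw [← hr]
    simp [h, ← hM, rJ_mk]
  have hy : r.y ∘ₗ rhoZ k (eV k v) = r.y := by
    conv_rhs => rw [← hr]
    simp
  refine ⟨(M * rhoZ k (eV k v), r.y), Prod.ext ?_ ?_, ?_⟩
  · rw [pmulA_fst, mul_assoc, ← map_mul, eV_mul_self]
  · rw [pmulA_snd, hy]
  · ext1
    · simp [h]
    · simp [hj]
    · conv_rhs => rw [← hr]
      simp [h]
    · simp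
    · conv_rhs => rw [← hr]
      simp

theorem sub_mem_Qsub {N : ℕ} {x y : Amb k m} (hx : x ∈ Qsub k m N) (hy : y ∈ Qsub k m N) :
    x - y ∈ Qsub k m N := sub_mem hx hy

/-- Cycles supported in degrees below `i` without top component are boundaries. -/
theorem kill_lower (i N : ℕ) {y : Amb k m} (hy : y ∈ Qsub k m N)
    (hc : 1 ≤ N → dAmb k m N y = 0) (hA : ∀ g : Gen m, g.deg = N → (y.1 g).a = 0)
    (hs : ∀ g : Gen m, i ≤ g.deg → y.1 g = 0 ∧ y.2 g = 0) :
    ∃ w ∈ Qsub k m (N + 1), dAmb k m (N + 1) w = y := by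
  induction i generalizing y with
  | zero =>
    refine ⟨0, zero_mem _, ?_⟩
    rw [map_zero]
    exact (Prod.ext (funext fun g => (hs g (Nat.zero_le _)).1)
      (funext fun g => (hs g (Nat.zero_le _)).2)).symm
  | succ i ih =>
    obtain ⟨hr, hp⟩ := mem_Qsub.1 hy
    have hR : ∀ g : Gen m, g.deg = i → (y.1 g).a = 0 := by
      intro g hg
      by_cases hgN : g.deg = N
      · exact hA g hgN
      by_cases hI : RIdx N g
      · have hlt : g.deg < N := by have := hI.1; omega
        have hd := congrFun (congrArg Prod.snd (hc (by omega))) g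
        change dP k m N y g = 0 at hd
        simp only [dP_apply, Pi.add_apply, Pi.sub_apply, Pi.smul_apply, iotaN_apply, if_pos hlt,
          rphi_apply, pvec_apply] at hd
        rw [Finset.sum_eq_zero, Finset.sum_eq_zero, Finset.sum_eq_zero] at hd
        · simp only [add_zero, sub_zero, smul_zero] at hd
          exact rhoZ_injective ((congrArg Prod.fst hd).trans (map_zero _).symm)
        · intro h _
          by_cases hh : h.deg = g.deg + 3
          · rw [(hs h (by omega)).2, map_zero]
          · rw [Sm_supp h g hh]; ext1 <;> simp [pmulA]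
        · intro h _
          by_cases hh : h.deg = g.deg + 1
          · rw [(hs h (by omega)).2, map_zero]
          · rw [Dm_supp h g hh]; ext1 <;> simp [pmulA]
        · intro h _
          by_cases hh : h.deg = g.deg + 2
          · rw [(hs h (by omega)).1]; ext1 <;> simp
          · rw [Phm_supp h g hh]; ext1 <;> simp
      · rw [(hr g).2 hI]; rfl
    have hP : ∀ g : Gen m, g.deg = i → pDel k (y.2 g) = 0 := by
      intro g hg
      by_cases hI : PIdx N g
      · have hN1 : 1 ≤ N := by have := hI.1; have := hI.2; omega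
        have hd := congrFun (congrArg Prod.fst (hc hN1)) g
        change dR k m N y g = 0 at hd
        simp only [dR_apply, Pi.add_apply, Pi.smul_apply, rvec_apply] at hd
        rw [Finset.sum_eq_zero, Finset.sum_eq_zero] at hd
        · simpa using hd
        · intro h _
          by_cases hh : h.deg = g.deg + 3
          · rw [(hs h (by omega)).1, zero_mul]
          · rw [Sh_supp h g hh, mul_zero]
        · intro h _
          by_cases hh : h.deg = g.deg + 1
          · rw [(hs h (by omega)).1, zero_mul]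
          · rw [Dh_supp h g hh, mul_zero]
      · rw [(hp g).2 hI, map_zero]
    have hcomp : ∀ g : Gen m, ∃ u : Rt k × Pc k,
        (g.deg = i → (RIdx (N + 1) g → u.1 * hat (eV k g.vW) = u.1) ∧
          (¬RIdx (N + 1) g → u.1 = 0) ∧ (PIdx (N + 1) g → pmulA (eV k g.vW) u.2 = u.2) ∧
          (¬PIdx (N + 1) g → u.2 = 0) ∧ pDel k u.2 = y.1 g ∧
          (if g.deg < N + 1 then iota k u.1 else 0) = y.2 g) ∧ (g.deg ≠ i → u = 0) ∧
          (N < g.deg → u.1 = 0) := by
      intro g
      by_cases hg : g.deg = i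
      · by_cases hI : RIdx N g
        · obtain ⟨p, hp1, hp2⟩ := mem_range_pDel ((hr g).1 hI) (hR g hg)
          have h2 : y.2 g = 0 := (hp g).2 fun h => by have := h.2; have := hI.2; omega
          refine ⟨(0, p), fun _ => ⟨fun _ => by simp, fun _ => rfl, fun _ => hp1,
            fun h => absurd ⟨by have := hI.1; omega, by have := hI.1; have := hI.2; omega⟩ h,
            hp2, by simp [h2]⟩, fun h => absurd hg h, fun _ => rfl⟩
        · by_cases hJ : PIdx N g
          · obtain ⟨b, hb1, hb2⟩ := pDel_injOn ((hp g).1 hJ) (hP g hg)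
            refine ⟨(hat b, 0), fun _ => ⟨fun _ => ?_,
              fun h => absurd ⟨by have := hJ.1; omega, by have := hJ.1; have := hJ.2; omega⟩ h,
              fun _ => by simp, fun _ => rfl, by simp [(hr g).2 hI], ?_⟩, fun h => absurd hg h,
              fun h => absurd hJ.1 (by omega)⟩
            · ext1 <;> simp [hb1, xiZ_eV_right']
            · rw [if_pos (by have := hJ.1; omega), hb2]
          · exact ⟨0, fun _ => ⟨fun _ => by simp, fun _ => rfl, fun _ => by simp, fun _ => rfl,
              by simp [(hr g).2 hI], by simp [(hp g).2 hJ]⟩, fun _ => rfl, fun _ => rfl⟩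
      · exact ⟨0, fun h => absurd h hg, fun _ => rfl, fun _ => rfl⟩
    choose u hu hu0 huN using hcomp
    set w : Amb k m := (fun g => (u g).1, fun g => (u g).2) with hw
    have hwQ : w ∈ Qsub k m (N + 1) := by
      refine mem_Qsub.2 ⟨fun g => ?_, fun g => ?_⟩ <;> by_cases hg : g.deg = i
      · exact ⟨(hu g hg).1, (hu g hg).2.1⟩
      · simp [hw, hu0 g hg]
      · exact ⟨(hu g hg).2.2.1, (hu g hg).2.2.2.1⟩
      · simp [hw, hu0 g hg]
    have hw0 : ∀ g : Gen m, g.deg ≠ i → w.1 g = 0 ∧ w.2 g = 0 := fun g hg => by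
      simp [hw, hu0 g hg]
    have hdw : ∀ g : Gen m, i ≤ g.deg →
        (dAmb k m (N + 1) w).1 g = y.1 g ∧ (dAmb k m (N + 1) w).2 g = y.2 g := by
      intro g hg
      constructor
      · show dR k m (N + 1) w g = _
        simp only [dR_apply, Pi.add_apply, Pi.smul_apply, rvec_apply]
        rw [Finset.sum_eq_zero, Finset.sum_eq_zero, smul_zero, add_zero, add_zero]
        · rcases eq_or_lt_of_le hg with h | h
          · exact (hu g h.symm).2.2.2.2.1
          · rw [(hw0 g (by omega)).2, map_zero, (hs g (by omega)).1]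
        · intro h _
          by_cases hh : h.deg = g.deg + 3
          · rw [(hw0 h (by omega)).1, zero_mul]
          · rw [Sh_supp h g hh, mul_zero]
        · intro h _
          by_cases hh : h.deg = g.deg + 1
          · rw [(hw0 h (by omega)).1, zero_mul]
          · rw [Dh_supp h g hh, mul_zero]
      · show dP k m (N + 1) w g = _
        simp only [dP_apply, Pi.add_apply, Pi.sub_apply, Pi.smul_apply, iotaN_apply, rphi_apply,
          pvec_apply]
        rw [Finset.sum_eq_zero, Finset.sum_eq_zero, Finset.sum_eq_zero]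
        · simp only [add_zero, sub_zero, smul_zero]
          rcases eq_or_lt_of_le hg with h | h
          · exact (hu g h.symm).2.2.2.2.2
          · rw [(hw0 g (by omega)).1, map_zero, (hs g (by omega)).2]; simp
        · intro h _
          by_cases hh : h.deg = g.deg + 3
          · rw [(hw0 h (by omega)).2, map_zero]
          · rw [Sm_supp h g hh]; ext1 <;> simp [pmulA]
        · intro h _
          by_cases hh : h.deg = g.deg + 1
          · rw [(hw0 h (by omega)).2, map_zero]
          · rw [Dm_supp h g hh]; ext1 <;> simp [pmulA]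
        · intro h _
          by_cases hh : h.deg = g.deg + 2
          · rw [(hw0 h (by omega)).1]; ext1 <;> simp
          · rw [Phm_supp h g hh]; ext1 <;> simp
    have hdA : ∀ g : Gen m, g.deg = N → ((y - dAmb k m (N + 1) w).1 g).a = 0 := by
      intro g hg
      by_cases hig : i ≤ g.deg
      · simp [(hdw g hig).1]
      · have h1 : rowA (dR k m (N + 1) w) = fun j g' => (dR k m (N + 1) w g').a.1 j (0, g'.vW) :=
          rfl
        show (y.1 g - dR k m (N + 1) w g).a = 0
        have h2 : (dR k m (N + 1) w g).a = 0 := by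
          simp only [dR_apply, Pi.add_apply, Pi.smul_apply, rvec_apply]
          rw [Finset.sum_eq_zero, Finset.sum_eq_zero, smul_zero, add_zero, add_zero]
          · simp
          · intro h _
            by_cases hh : h.deg = g.deg + 3
            · rw [((mem_Qsub.1 hwQ).1 h).2 (fun hI => by have := hI.1; omega), zero_mul]
            · rw [Sh_supp h g hh, mul_zero]
          · intro h _
            by_cases hh : h.deg = g.deg + 1
            · by_cases hhi : h.deg = i
              · rw [show w.1 h = 0 from huN h (by omega), zero_mul]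
              · rw [(hw0 h hhi).1, zero_mul]
            · rw [Dh_supp h g hh, mul_zero]
        show (y.1 g).a - (dR k m (N + 1) w g).a = 0
        rw [h2, hA g hg, sub_zero]
    obtain ⟨w', hw', hwy⟩ := ih (y := y - dAmb k m (N + 1) w)
      (sub_mem_Qsub hy (dAmb_mem (N := N + 1) (by omega) hwQ))
      (fun h1 => by
        rw [map_sub, hc h1, zero_sub, neg_eq_zero]
        exact dAmb_dAmb (N := N + 1) (by omega) hwQ)
      hdA
      (fun g hg => by
        rcases eq_or_lt_of_le hg with h | h
        · simp [hdw g (by omega)]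
        · simp [hdw g (by omega)])
    exact ⟨w + w', add_mem hwQ hw', by rw [map_add, hwy, add_sub_cancel]⟩

/-- Exactness, given exactness of the rows. -/
theorem kill_all (N : ℕ) {y : Amb k m} (hy : y ∈ Qsub k m N) (hc : 1 ≤ N → dAmb k m N y = 0)
    (hrow : ∀ j, ∃ r', IsRow (tgt j) (N + 1) r' ∧ Matrix.vecMul r' (Kmat m) =
      fun g => if g.deg = N then rowA y.1 j g else 0) :
    ∃ w ∈ Qsub k m (N + 1), dAmb k m (N + 1) w = y := by
  choose ρ hρ hρ' using hrow
  have hw := liftRows_mem (N + 1) ρ (rows_mem_Asub ρ fun j g => (hρ j).2 g) (fun j g h => (hρ j).1 g h)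
  set w : Amb k m := (liftRows ρ (rows_mem_Asub ρ fun j g => (hρ j).2 g), 0) with hwdef
  have hA : ∀ g : Gen m, g.deg = N → ((y - dAmb k m (N + 1) w).1 g).a = 0 := by
    intro g hg
    show (y.1 g).a - (dR k m (N + 1) w g).a = 0
    rw [sub_eq_zero]
    have hfix : ∀ a : Rt k, a * hat (eV k g.vW) = a → a.a * eV k g.vW = a.a := fun a h => by
      simpa using congrArg Rt.a h
    have hwd : dR k m (N + 1) w g * hat (eV k g.vW) = dR k m (N + 1) w g :=
      ((mem_Qsub.1 (dAmb_mem (N := N + 1) (by omega) hw)).1 g).1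
        (show RIdx (N + 1 - 1) g from ⟨by omega, by omega⟩)
    rw [← ofCol_toCol g.vW (hfix _ (((mem_Qsub.1 hy).1 g).1 ⟨by omega, by omega⟩)),
      ← ofCol_toCol g.vW (hfix _ hwd)]
    congr 1
    refine Subtype.ext (funext fun j => ?_)
    show rowA y.1 j g = rowA (dR k m (N + 1) w) j g
    rw [rowA_dR hw g (by omega)]
    have : rowA w.1 j = ρ j := funext fun g => rowA_liftRows _ _ j g
    rw [this, hρ' j]
    simp [hg]
  obtain ⟨w', hw', h⟩ := kill_lower 4 N (y := y - dAmb k m (N + 1) w)
    (sub_mem_Qsub hy (dAmb_mem (N := N + 1) (by omega) hw))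
    (fun h1 => by rw [map_sub, hc h1, zero_sub, neg_eq_zero]; exact dAmb_dAmb (N := N + 1) (by omega) hw)
    hA (fun g hg => absurd (deg_le_three g) (by omega))
  exact ⟨w + w', add_mem hw hw', by rw [map_add, h, add_sub_cancel]⟩

variable (k m) in
/-- The modules of the resolution. -/
abbrev Qmod (N : ℕ) := ↥(Qsub k m N)

variable (k m) in
/-- The differential of the resolution. -/
noncomputable def qd (N : ℕ) : Qmod k m (N + 1) →ₗ[Rt k] Qmod k m N :=
  ((dAmb k m (N + 1)).comp (Qsub k m (N + 1)).subtype).codRestrict (Qsub k m N)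
    fun x => dAmb_mem (N := N + 1) (by omega) x.2

theorem qd_val (N : ℕ) (x : Qmod k m (N + 1)) : (qd k m N x).1 = dAmb k m (N + 1) x.1 := rfl

variable (k m) in
/-- The augmentation of the resolution. -/
noncomputable def qeps : Qmod k m 0 →ₗ[Rt k] Tmod k m :=
  (epsAmb k m).comp (Qsub k m 0).subtype

theorem qeps_qd (x : Qmod k m 1) : qeps k m (qd k m 0 x) = 0 := by
  refine Subtype.ext (funext fun j => ?_)
  show aug (rowA (dR k m 1 x.1) j) = 0
  rw [aug_congr (r' := Matrix.vecMul (rowA x.1.1 j) (Kmat m))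
    (fun g hg => rowA_dR x.2 g (by omega) j), aug_vecMul]

theorem qeps_surjective : Function.Surjective (qeps k m) := by
  intro p
  have h : ∀ j, ∃ r : Gen m → Weyl k, IsRow (tgt j) 0 r ∧ aug r = p.1 j := fun j => by
    have hb := tgt_bounds j
    refine aug_surj (tgt j) hb.1 hb.2.2.1 (p.1 j) ?_
    intro d hd
    have := mem_Tsub.1 p.2 j hd
    simp [Finsupp.weight_apply, Finsupp.sum_fintype, Fin.sum_univ_two] at this ⊢
    omega
  choose ρ hρ hρ' using h
  refine ⟨⟨(liftRows ρ (rows_mem_Asub ρ fun j g => (hρ j).2 g), 0),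
    liftRows_mem 0 ρ _ (fun j g h => (hρ j).1 g h)⟩, Subtype.ext (funext fun j => ?_)⟩
  show aug (rowA (liftRows ρ (rows_mem_Asub ρ fun j g => (hρ j).2 g)) j) = p.1 j
  rw [show rowA (liftRows ρ (rows_mem_Asub ρ fun j g => (hρ j).2 g)) j = ρ j from
    funext fun g => rowA_liftRows _ _ j g, hρ']

theorem exact_qd_zero : Function.Exact (qd k m 0) (qeps k m) := by
  intro y
  constructor
  · intro h
    have hrow : ∀ j, ∃ r', IsRow (tgt j) 1 r' ∧ Matrix.vecMul r' (Kmat m) =
        fun g => if g.deg = 0 then rowA y.1.1 j g else 0 := fun j => by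
      refine exact_aug (tgt j) (tgt_bounds j).1 _ ⟨fun g hg => if_neg hg, fun g => ?_⟩ ?_
      · show (if g.deg = 0 then rowA y.1.1 j g else 0) ∈ _
        split_ifs
        · exact rowA_mem _ _ _
        · exact zero_mem _
      · rw [aug_congr (r' := rowA y.1.1 j) (fun g hg => if_pos hg)]
        exact congrFun (congrArg Subtype.val h) j
    obtain ⟨w, hw, hwy⟩ := kill_all 0 y.2 (fun h => absurd h (by omega)) hrow
    exact ⟨⟨w, hw⟩, Subtype.ext hwy⟩
  · rintro ⟨x, rfl⟩
    exact qeps_qd x

theorem exact_qd (N : ℕ) : Function.Exact (qd k m (N + 1)) (qd k m N) := by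
  intro y
  constructor
  · intro h
    have h' : dAmb k m (N + 1) y.1 = 0 := congrArg Subtype.val h
    have hrow : ∀ j, ∃ r', IsRow (tgt j) (N + 1 + 1) r' ∧ Matrix.vecMul r' (Kmat m) =
        fun g => if g.deg = N + 1 then rowA y.1.1 j g else 0 := fun j => by
      refine exact_deg (tgt j) (tgt_bounds j).1 (N + 1) (by omega) _
        ⟨fun g hg => if_neg hg, fun g => ?_⟩ ?_
      · show (if g.deg = N + 1 then rowA y.1.1 j g else 0) ∈ _
        split_ifs
        · exact rowA_mem _ _ _
        · exact zero_mem _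
      · funext g
        by_cases hg : g.deg = N
        · have e : Matrix.vecMul (fun g => if g.deg = N + 1 then rowA y.1.1 j g else 0) (Kmat m) g =
              Matrix.vecMul (rowA y.1.1 j) (Kmat m) g := by
            simp only [Matrix.vecMul, dotProduct]
            refine Finset.sum_congr rfl fun h _ => ?_
            by_cases hh : h.deg = N + 1
            · rw [if_pos hh]
            · rw [Kmat_support h g (by omega), mul_zero, mul_zero]
          rw [e, ← rowA_dR y.2 g (by omega)]
          have := congrFun (congrArg Prod.fst h') g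
          change dR k m (N + 1) y.1 g = 0 at this
          simp [rowA, this]
        · simp only [Matrix.vecMul, dotProduct, Pi.zero_apply]
          refine Finset.sum_eq_zero fun h _ => ?_
          split_ifs with hh
          · rw [Kmat_support h g (by omega), mul_zero]
          · exact zero_mul _
    obtain ⟨w, hw, hwy⟩ := kill_all (N + 1) y.2 (fun _ => h') hrow
    exact ⟨⟨w, hw⟩, Subtype.ext hwy⟩
  · rintro ⟨x, rfl⟩
    exact Subtype.ext (dAmb_dAmb (N := N + 1 + 1) (by omega) x.2)

instance projective_pi {ι : Type} [Fintype ι] {R : Type} [Ring R] {M : Type} [AddCommGroup M]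
    [Module R M] [Module.Projective R M] : Module.Projective R (ι → M) := by
  classical
  exact Module.Projective.of_equiv (DFinsupp.linearEquivFunOnFintype (R := R) (ι := ι)
    (M := fun _ => M))

instance (N : ℕ) : Module.Projective (Rt k) (Qmod k m N) := by
  refine Module.Projective.of_split (Qsub k m N).subtype
    ((qProj k m N).codRestrict (Qsub k m N) fun x => qProj_idem N x) (LinearMap.ext fun x => ?_)
  exact Subtype.ext x.2

end Vale.Agent.P195.CE
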