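import Vale.Agent.P195.CE.Cocycle
import Mathlib.LinearAlgebra.Dimension.Finite
import Mathlib.LinearAlgebra.FiniteDimensional.Basic
import Mathlib.LinearAlgebra.Dual.Defs
import Mathlib.Algebra.Algebra.Equiv
import Mathlib.Algebra.Module.Projective
import Mathlib.Algebra.Module.TransferInstance

/-!
# The algebra `R` and the projective module `P`
-/

namespace Vale.Agent.P195.CE

variable {k : Type} [Field k]

variable (k) in
/-- Operators on `Z`. -/
abbrev EZ := Module.End k (Zc k)

variable (k) in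
/-- Linear forms on `Z`. -/
abbrev DZ := Zc k →ₗ[k] k

theorem commute_shift_map {R S : Type*} [Ring R] [Ring S] {M : Matrix Ix Ix R}
    (h : Commute M (shift R)) (f : R → S) (hf : f 0 = 0) : Commute (M.map f) (shift S) := by
  obtain ⟨h0, h1⟩ := (commute_shift_iff M).1 h
  exact (commute_shift_iff _).2 ⟨fun p q => by simp [h0, hf], fun p q => by simp [h1]⟩

theorem piece_sub_mem' {d : ℤ × ℤ} {φ ψ : Weyl k} (h : φ ∈ Piece k d) (h' : ψ ∈ Piece k d) :
    φ - ψ ∈ Piece k d := by
  show sym φ - sym ψ ∈ Deg k d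
  exact sub_mem h h'

theorem imgV_commute {M : Matrix Ix Ix (Module.End k (V k))} (hM : M ∈ ImgV k tgt tgt)
    (hc : Commute M (shift _)) : ∃ α : Alg k, rhoM k α = M := by
  obtain ⟨α, hα, rfl⟩ := hM
  obtain ⟨h0, h1⟩ := (commute_shift_iff _).1 hc
  refine ⟨⟨α, hα, (commute_shift_iff α).2 ⟨fun p q => ?_, fun p q => ?_⟩⟩, rfl⟩
  · refine vRep_injOn ?_ ?_ (hα (0, p) (1, q)) (h0 p q) <;>
    · have := pos_bounds p; have := pos_bounds q
      simp [tgt]; omega
  · refine sub_eq_zero.1 (vRep_injOn (d := pos p - pos q) ?_ ?_ (piece_sub_mem' ?_ ?_) ?_)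
    · have := pos_bounds p; have := pos_bounds q; simp only [Prod.fst_sub]; omega
    · have := pos_bounds p; have := pos_bounds q; simp only [Prod.snd_sub]; omega
    · have := hα (1, p) (1, q); simpa [tgt_one] using this
    · have := hα (0, p) (0, q); simpa [tgt_zero] using this
    · rw [map_sub, sub_eq_zero]; exact h1 p q

variable (k) in
/-- The cocycle on `A` with values in operators. -/
noncomputable def xiZ : Alg k →ₗ[k] Alg k →ₗ[k] EZ k :=
  LinearMap.mk₂ k (fun a b => toEnd k (xiT (a : Matrix Ix Ix (Weyl k)) b))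
    (fun a a' b => by
      rw [← map_add]; congr 1; ext1 i j
      simp [xiT, Xi, tauM, Matrix.mul_apply, add_mul, Finset.sum_add_distrib])
    (fun c a b => by
      rw [← map_smul]; congr 1; ext1 i j
      simp [xiT, Xi, tauM, Matrix.mul_apply, Finset.smul_sum])
    (fun a b b' => by
      rw [← map_add]; congr 1; ext1 i j
      simp [xiT, Xi, tauM, Matrix.mul_apply, mul_add, Finset.sum_add_distrib])
    (fun c a b => by
      rw [← map_smul]; congr 1; ext1 i j
      simp [xiT, Xi, tauM, Matrix.mul_apply, Finset.smul_sum])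

theorem xiT_commute (a b : Alg k) :
    Commute (xiT (a : Matrix Ix Ix (Weyl k)) b) (shift _) := by
  refine commute_shift_map (Commute.mul_left ?_ ?_) _ (map_zero _)
  · exact commute_shift_map a.2.2 _ (map_zero _)
  · exact commute_shift_map b.2.2 _ (map_zero _)

theorem xiZ_cocycle (a b c : Alg k) :
    ∃ α : Alg k, rhoZ k α =
      rhoZ k a * xiZ k b c - xiZ k (a * b) c + xiZ k a (b * c) - xiZ k a b * rhoZ k c := by
  have h := cocycle_lift (fun i => (tgt_bounds i).2.2.2) (fun l => (tgt_bounds l).2.2.1)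
    a.2.1 b.2.1 c.2.1 (Xi_alg_vanish a.2 b.2) (Xi_alg_vanish b.2 c.2)
  obtain ⟨α, hα⟩ := imgV_commute h (((((commute_shift_map a.2.2 _ (map_zero _)).mul_left
    (xiT_commute b c)).sub_left (xiT_commute (a * b) c)).add_left (xiT_commute a (b * c))).sub_left
      ((xiT_commute a b).mul_left (commute_shift_map c.2.2 _ (map_zero _))))
  refine ⟨α, ?_⟩
  show toEnd k (rhoM k α) = _
  rw [hα]
  simp only [map_sub, map_add, map_mul]
  rfl

theorem xiT_one_right (M : Matrix Ix Ix (Weyl k)) : xiT M (1 : Matrix Ix Ix (Weyl k)) = 0 := by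
  have : tauM 0 (1 : Matrix Ix Ix (Weyl k)) = 0 := by
    ext1 i j
    rcases eq_or_ne i j with rfl | h <;> simp [tauM, slope, *]
  ext1 i j
  simp [xiT, Xi, this]

theorem xiT_one_left (M : Matrix Ix Ix (Weyl k)) : xiT (1 : Matrix Ix Ix (Weyl k)) M = 0 := by
  have : tauM 1 (1 : Matrix Ix Ix (Weyl k)) = 0 := by
    ext1 i j
    rcases eq_or_ne i j with rfl | h <;> simp [tauM, slope, *]
  ext1 i j
  simp [xiT, Xi, this]

variable (k) in
/-- The image of `A`. -/
noncomputable def rhoRange : Submodule k (EZ k) := LinearMap.range (rhoZ k).toLinearMap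

variable (k) in
/-- The bimodule `J`. -/
abbrev Jc := EZ k ⧸ rhoRange k

/-- The class of an operator. -/
noncomputable def mkJ : EZ k →ₗ[k] Jc k := (rhoRange k).mkQ

theorem mkJ_surjective : Function.Surjective (mkJ : EZ k → Jc k) :=
  Submodule.mkQ_surjective _

theorem mkJ_rho (a : Alg k) : mkJ (rhoZ k a) = 0 :=
  (Submodule.Quotient.mk_eq_zero _).2 ⟨a, rfl⟩

theorem mkJ_eq_zero {M : EZ k} : mkJ M = 0 ↔ ∃ a : Alg k, rhoZ k a = M :=
  Submodule.Quotient.mk_eq_zero _

/-- Left multiplication on `J`. -/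
noncomputable def lJ (a : Alg k) : Jc k →ₗ[k] Jc k :=
  (rhoRange k).mapQ (rhoRange k) (LinearMap.mulLeft k (rhoZ k a)) (by
    rintro _ ⟨b, rfl⟩; exact ⟨a * b, by simp⟩)

/-- Right multiplication on `J`. -/
noncomputable def rJ (a : Alg k) : Jc k →ₗ[k] Jc k :=
  (rhoRange k).mapQ (rhoRange k) (LinearMap.mulRight k (rhoZ k a)) (by
    rintro _ ⟨b, rfl⟩; exact ⟨b * a, by simp⟩)

theorem lJ_mk (a : Alg k) (M : EZ k) : lJ a (mkJ M) = mkJ (rhoZ k a * M) := rfl

theorem rJ_mk (a : Alg k) (M : EZ k) : rJ a (mkJ M) = mkJ (M * rhoZ k a) := rfl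

@[simp] theorem rJ_zero (j : Jc k) : rJ (0 : Alg k) j = 0 := by
  obtain ⟨M, rfl⟩ := mkJ_surjective j
  simp [rJ_mk]

@[simp] theorem lJ_zero (j : Jc k) : lJ (0 : Alg k) j = 0 := by
  obtain ⟨M, rfl⟩ := mkJ_surjective j
  simp [lJ_mk]

/-- A rank one operator. -/
noncomputable def outer (x : Zc k) (y : DZ k) : EZ k := y.smulRight x

theorem mul_outer (T : EZ k) (x : Zc k) (y : DZ k) : T * outer x y = outer (T x) y :=
  LinearMap.ext fun z => map_smul T (y z) x

theorem outer_mul (T : EZ k) (x : Zc k) (y : DZ k) : outer x y * T = outer x (y ∘ₗ T) := rfl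

theorem outer_add_left (x x' : Zc k) (y : DZ k) : outer (x + x') y = outer x y + outer x' y :=
  LinearMap.ext fun z => smul_add _ _ _

theorem outer_add_right (x : Zc k) (y y' : DZ k) : outer x (y + y') = outer x y + outer x y' :=
  LinearMap.ext fun z => add_smul _ _ _

theorem outer_smul_left (c : k) (x : Zc k) (y : DZ k) : outer (c • x) y = c • outer x y :=
  LinearMap.ext fun z => smul_comm _ _ _

theorem outer_smul_right (c : k) (x : Zc k) (y : DZ k) : outer x (c • y) = c • outer x y :=
  LinearMap.ext fun z => by simp [outer, smul_smul]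

@[simp] theorem outer_zero_left (y : DZ k) : outer 0 y = 0 := LinearMap.ext fun _ => smul_zero _

@[simp] theorem outer_zero_right (x : Zc k) : outer x 0 = 0 := LinearMap.ext fun _ => zero_smul _ _

variable (k) in
/-- The carrier of `R`. -/
@[ext]
structure Rt : Type where
  /-- component in `A` -/
  a : Alg k
  /-- component in `J` -/
  j : Jc k
  /-- component in `Z` -/
  x : Zc k
  /-- component in the dual of `Z` -/
  y : DZ k
  /-- scalar component -/
  c : k

namespace Rt

variable (k) in
/-- The underlying tuple. -/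
def equivProd : Rt k ≃ Alg k × Jc k × Zc k × DZ k × k where
  toFun r := (r.a, r.j, r.x, r.y, r.c)
  invFun p := ⟨p.1, p.2.1, p.2.2.1, p.2.2.2.1, p.2.2.2.2⟩
  left_inv _ := rfl
  right_inv _ := rfl

noncomputable instance : AddCommGroup (Rt k) := (equivProd k).addCommGroup

noncomputable instance : Module k (Rt k) := (equivProd k).module k

variable (r r' : Rt k) (t : k)

@[simp] theorem add_a : (r + r').a = r.a + r'.a := rfl
@[simp] theorem add_j : (r + r').j = r.j + r'.j := rfl
@[simp] theorem add_x : (r + r').x = r.x + r'.x := rfl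
@[simp] theorem add_y : (r + r').y = r.y + r'.y := rfl
@[simp] theorem add_c : (r + r').c = r.c + r'.c := rfl
@[simp] theorem zero_a : (0 : Rt k).a = 0 := rfl
@[simp] theorem zero_j : (0 : Rt k).j = 0 := rfl
@[simp] theorem zero_x : (0 : Rt k).x = 0 := rfl
@[simp] theorem zero_y : (0 : Rt k).y = 0 := rfl
@[simp] theorem zero_c : (0 : Rt k).c = 0 := rfl
@[simp] theorem smul_a : (t • r).a = t • r.a := rfl
@[simp] theorem smul_j : (t • r).j = t • r.j := rfl
@[simp] theorem smul_x : (t • r).x = t • r.x := rfl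
@[simp] theorem smul_y : (t • r).y = t • r.y := rfl
@[simp] theorem smul_c : (t • r).c = t * r.c := rfl

noncomputable instance : Mul (Rt k) :=
  ⟨fun r r' => ⟨r.a * r'.a,
    lJ r.a r'.j + rJ r'.a r.j + mkJ (xiZ k r.a r'.a) + mkJ (outer r.x r'.y),
    rhoZ k r.a r'.x + r'.c • r.x, r.y ∘ₗ rhoZ k r'.a + r.c • r'.y, r.c * r'.c⟩⟩

noncomputable instance : One (Rt k) := ⟨⟨1, 0, 0, 0, 1⟩⟩

@[simp] theorem mul_a : (r * r').a = r.a * r'.a := rfl
@[simp] theorem mul_j : (r * r').j =
    lJ r.a r'.j + rJ r'.a r.j + mkJ (xiZ k r.a r'.a) + mkJ (outer r.x r'.y) := rfl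
@[simp] theorem mul_x : (r * r').x = rhoZ k r.a r'.x + r'.c • r.x := rfl
@[simp] theorem mul_y : (r * r').y = r.y ∘ₗ rhoZ k r'.a + r.c • r'.y := rfl
@[simp] theorem mul_c : (r * r').c = r.c * r'.c := rfl
@[simp] theorem one_a : (1 : Rt k).a = 1 := rfl
@[simp] theorem one_j : (1 : Rt k).j = 0 := rfl
@[simp] theorem one_x : (1 : Rt k).x = 0 := rfl
@[simp] theorem one_y : (1 : Rt k).y = 0 := rfl
@[simp] theorem one_c : (1 : Rt k).c = 1 := rfl

theorem mul_assoc' (r s t : Rt k) : r * s * t = r * (s * t) := by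
  ext1
  · exact mul_assoc _ _ _
  · obtain ⟨M, hM⟩ := mkJ_surjective r.j
    obtain ⟨N, hN⟩ := mkJ_surjective s.j
    obtain ⟨O, hO⟩ := mkJ_surjective t.j
    obtain ⟨α, hα⟩ := xiZ_cocycle r.a s.a t.a
    simp only [mul_j, mul_a, mul_x, mul_y, ← hM, ← hN, ← hO, map_add, lJ_mk, rJ_mk]
    rw [← sub_eq_zero]
    simp only [← map_add, ← map_sub]
    rw [mkJ_eq_zero]
    refine ⟨-α, ?_⟩
    rw [map_neg, hα]
    simp only [map_mul, mul_assoc, add_mul, mul_add, mul_outer, outer_mul, outer_add_left,
      outer_add_right, outer_smul_left, outer_smul_right]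
    abel
  · simp only [mul_x, mul_a, mul_c, map_add, map_mul, Module.End.mul_apply, map_smul, smul_add,
      smul_smul, mul_comm s.c, add_assoc]
  · simp only [mul_y, mul_a, mul_c, map_mul, LinearMap.add_comp, LinearMap.smul_comp, smul_add,
      smul_smul, add_assoc]
    rfl
  · exact mul_assoc _ _ _

noncomputable instance : Ring (Rt k) :=
  { (inferInstance : AddCommGroup (Rt k)), (inferInstance : Mul (Rt k)),
    (inferInstance : One (Rt k)) with
    mul_assoc := mul_assoc'
    left_distrib := fun r s t => by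
      ext1
      · simp [mul_add]
      · obtain ⟨M, hM⟩ := mkJ_surjective r.j
        simp only [mul_j, add_j, add_a, add_y, map_add, ← hM, rJ_mk, mul_add, outer_add_right]
        abel
      · simp only [mul_x, add_x, add_c, map_add, add_smul]; abel
      · simp only [mul_y, add_y, add_a, map_add, LinearMap.comp_add, smul_add]; abel
      · simp [mul_add]
    right_distrib := fun r s t => by
      ext1
      · simp [add_mul]
      · obtain ⟨M, hM⟩ := mkJ_surjective t.j
        simp only [mul_j, add_j, add_a, add_x, map_add, LinearMap.add_apply, ← hM, lJ_mk, add_mul,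
          outer_add_left]
        abel
      · simp only [mul_x, add_x, add_a, map_add, LinearMap.add_apply, smul_add]; abel
      · simp only [mul_y, add_y, add_c, LinearMap.add_comp, add_smul]; abel
      · simp [add_mul]
    zero_mul := fun r => by
      obtain ⟨M, hM⟩ := mkJ_surjective r.j
      ext1 <;> simp [← hM, lJ_mk]
    mul_zero := fun r => by
      obtain ⟨M, hM⟩ := mkJ_surjective r.j
      ext1 <;> simp [← hM, rJ_mk]
    one_mul := fun r => by
      obtain ⟨M, hM⟩ := mkJ_surjective r.j
      ext1 <;> simp [← hM, lJ_mk, xiZ, xiT_one_left]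
    mul_one := fun r => by
      obtain ⟨M, hM⟩ := mkJ_surjective r.j
      ext1 <;> simp [← hM, rJ_mk, xiZ, xiT_one_right] <;> rfl }

noncomputable instance : Algebra k (Rt k) :=
  Algebra.ofModule
    (fun t r s => by
      obtain ⟨M, hM⟩ := mkJ_surjective s.j
      ext1
      · simp
      · simp [← hM, lJ_mk, outer_smul_left, smul_add]
      · simp [smul_add, smul_smul, mul_comm t]
      · simp [smul_add, smul_smul, LinearMap.smul_comp]
      · simp [mul_assoc])
    (fun t r s => by
      obtain ⟨M, hM⟩ := mkJ_surjective r.j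
      ext1
      · simp
      · simp [← hM, rJ_mk, outer_smul_right, smul_add]
      · simp [smul_add, smul_smul]
      · simp [smul_add, smul_smul, LinearMap.comp_smul, mul_comm t]
      · simp [mul_left_comm])

end Rt

instance : Module.Finite k (Alg k) :=
  Module.Finite.of_injective (rhoM k).toLinearMap rhoM_injective

instance : Module.Finite k (Rt k) :=
  Module.Finite.equiv ((Rt.equivProd k).linearEquiv k).symm

variable (k) in
/-- The projection to `A`. -/
noncomputable def toAlg : Rt k →+* Alg k where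
  toFun r := r.a
  map_one' := rfl
  map_mul' _ _ := rfl
  map_zero' := rfl
  map_add' _ _ := rfl

/-- The lift of an element of `A`. -/
noncomputable def hat : Alg k →ₗ[k] Rt k where
  toFun a := ⟨a, 0, 0, 0, 0⟩
  map_add' _ _ := by ext1 <;> simp
  map_smul' _ _ := by ext1 <;> simp

@[simp] theorem hat_a (a : Alg k) : (hat a).a = a := rfl
@[simp] theorem hat_j (a : Alg k) : (hat a).j = 0 := rfl
@[simp] theorem hat_x (a : Alg k) : (hat a).x = 0 := rfl
@[simp] theorem hat_y (a : Alg k) : (hat a).y = 0 := rfl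
@[simp] theorem hat_c (a : Alg k) : (hat a).c = 0 := rfl

variable (k) in
/-- The projective module `P`. -/
abbrev Pc := EZ k × DZ k

noncomputable instance : SMul (Rt k) (Pc k) :=
  ⟨fun r p => (rhoZ k r.a * p.1 + outer r.x p.2, r.c • p.2)⟩

@[simp] theorem Pc.smul_fst (r : Rt k) (p : Pc k) :
    (r • p).1 = rhoZ k r.a * p.1 + outer r.x p.2 := rfl

@[simp] theorem Pc.smul_snd (r : Rt k) (p : Pc k) : (r • p).2 = r.c • p.2 := rfl

noncomputable instance : Module (Rt k) (Pc k) where
  one_smul p := by ext1 <;> simp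
  mul_smul r s p := by
    ext1
    · simp only [Pc.smul_fst, Pc.smul_snd, Rt.mul_a, Rt.mul_x, map_mul, mul_assoc, mul_add,
        mul_outer, outer_add_left, outer_smul_left, outer_smul_right]
      abel
    · simp [mul_smul]
  smul_zero r := by ext1 <;> simp
  smul_add r p q := by
    ext1
    · simp only [Pc.smul_fst, Prod.fst_add, Prod.snd_add, mul_add, outer_add_right]; abel
    · simp
  add_smul r s p := by
    ext1
    · simp only [Pc.smul_fst, Prod.fst_add, Rt.add_a, Rt.add_x, map_add, add_mul, outer_add_left]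
      abel
    · simp [add_smul]
  zero_smul p := by ext1 <;> simp

instance : Module.Projective (Rt k) (Pc k) := by
  let b := Module.finBasis k (Zc k)
  let inc : Pc k →ₗ[Rt k] (Fin (Module.finrank k (Zc k)) → Rt k) :=
    { toFun := fun p l => ⟨0, 0, p.1 (b l), 0, p.2 (b l)⟩
      map_add' := fun p q => by funext l; ext1 <;> simp
      map_smul' := fun r p => by
        funext l
        rw [RingHom.id_apply, Pi.smul_apply, smul_eq_mul]
        ext1 <;> simp [outer] }
  let ret : (Fin (Module.finrank k (Zc k)) → Rt k) →ₗ[Rt k] Pc k :=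
    ∑ l, (LinearMap.toSpanSingleton (Rt k) (Pc k) (0, b.coord l)).comp (LinearMap.proj l)
  refine Module.Projective.of_split inc ret (LinearMap.ext fun p => ?_)
  simp only [ret, inc, LinearMap.comp_apply, LinearMap.coe_mk, AddHom.coe_mk, LinearMap.sum_apply,
    LinearMap.proj_apply, LinearMap.toSpanSingleton_apply, LinearMap.id_coe, id]
  apply Prod.ext
  · refine b.ext fun i => ?_
    simp [Prod.fst_sum, LinearMap.sum_apply, outer, Finsupp.single_apply]
  · refine b.ext fun i => ?_
    simp [Prod.snd_sum, LinearMap.sum_apply, Finsupp.single_apply]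

variable (k) in
/-- The map `R → P`. -/
noncomputable def iota : Rt k →ₗ[Rt k] Pc k where
  toFun r := (rhoZ k r.a, 0)
  map_add' r s := by ext1 <;> simp
  map_smul' r s := by ext1 <;> simp

variable (k) in
/-- The map `P → R`. -/
noncomputable def pDel : Pc k →ₗ[Rt k] Rt k where
  toFun p := ⟨0, mkJ p.1, 0, p.2, 0⟩
  map_add' p q := by ext1 <;> simp
  map_smul' r p := by ext1 <;> simp [lJ_mk]

@[simp] theorem pDel_a (p : Pc k) : (pDel k p).a = 0 := rfl
@[simp] theorem pDel_j (p : Pc k) : (pDel k p).j = mkJ p.1 := rfl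
@[simp] theorem pDel_x (p : Pc k) : (pDel k p).x = 0 := rfl
@[simp] theorem pDel_y (p : Pc k) : (pDel k p).y = p.2 := rfl
@[simp] theorem pDel_c (p : Pc k) : (pDel k p).c = 0 := rfl

end Vale.Agent.P195.CE
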