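import Vale.Agent.P195.CE.Lift
import Mathlib.RingTheory.MvPolynomial.Basic
import Mathlib.RingTheory.Nilpotent.Basic
import Mathlib.Data.Finsupp.Weight

/-!
# A finite-dimensional representation, faithful in low degrees, with an invertible `x₁`
-/

namespace Vale.Agent.P195.CE

open MvPolynomial

variable (k : Type) [Field k]

/-- Polynomials in `ε, t, s, u`. -/
abbrev P4 := MvPolynomial (Fin 4) k

/-- The discarded exponents. -/
def badExp : Set (Fin 4 →₀ ℕ) := {n | 3 ≤ n 0 ∨ 7 ≤ n.degree}

/-- The discarded polynomials. -/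
noncomputable abbrev bad : Submodule k (P4 k) := restrictSupport k badExp

/-- The module. -/
abbrev V := P4 k ⧸ bad k

theorem isUpperSet_badExp : IsUpperSet badExp := by
  intro a b hab ha
  rcases ha with h | h
  · exact Or.inl (h.trans (hab 0))
  · exact Or.inr (h.trans (Finsupp.degree_mono hab))

variable {k}

theorem mul_mem_bad (p : P4 k) {q : P4 k} (hq : q ∈ bad k) : p * q ∈ bad k :=
  (restrictSupportIdeal (R := k) badExp isUpperSet_badExp).mul_mem_left p hq

theorem eps_pderiv_mem_bad (j : Fin 4) {q : P4 k} (hq : q ∈ bad k) :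
    X 0 * pderiv j q ∈ bad k := by
  rw [as_sum q, map_sum, Finset.mul_sum]
  refine sum_mem fun n hn => ?_
  rw [pderiv_monomial, X, monomial_mul, monomial_mem_restrictSupport]
  by_cases h0 : n j = 0
  · simp [h0]
  refine Or.inl ?_
  have hle : Finsupp.single j 1 ≤ n := Finsupp.single_le_iff.2 (Nat.one_le_iff_ne_zero.2 h0)
  rcases hq hn with h | h
  · refine Or.inl ?_
    simp only [Finsupp.add_apply, Finsupp.tsub_apply, Finsupp.single_eq_same]
    rw [Finsupp.single_apply]
    split_ifs <;> omega
  · refine Or.inr ?_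
    have := congrArg Finsupp.degree (tsub_add_cancel_of_le hle)
    simp only [map_add, Finsupp.degree_single] at this ⊢
    omega

/-- The five operators on `P4`. -/
noncomputable def p4Gen : Fin 5 → Module.End k (P4 k) :=
  ![LinearMap.mulLeft k (1 + X 1), LinearMap.mulLeft k (X 2),
    LinearMap.mulLeft k (X 3) + LinearMap.mulLeft k (X 0) * (pderiv 1).toLinearMap,
    1 + LinearMap.mulLeft k (X 0) * (pderiv 2).toLinearMap, LinearMap.mulLeft k (X 0)]

theorem pderiv_comm4 (i j : Fin 4) (f : P4 k) :
    pderiv i (pderiv j f) = pderiv j (pderiv i f) := by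
  classical
  induction f using MvPolynomial.induction_on with
  | C a => simp
  | add p q hp hq => simp [hp, hq]
  | mul_X p n hp =>
    simp only [pderiv_mul, pderiv_X, map_add]
    rcases eq_or_ne n i with rfl | hi <;> rcases eq_or_ne n j with rfl | hj <;>
      simp_all [eq_comm] <;> ring

theorem isWeyl_p4Gen : IsWeyl (p4Gen (k := k)) := by
  constructor <;>
    first
      | (intro i
         fin_cases i <;>
           (refine LinearMap.ext fun f => ?_
            simp [p4Gen, Derivation.leibniz]
            try ring))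
      | (refine LinearMap.ext fun f => ?_
         simp [p4Gen, Derivation.leibniz, pderiv_comm4 (1 : Fin 4) 2 f]
         try ring)

variable (k) in
/-- The representation on `P4`. -/
noncomputable def p4Rep : Weyl k →ₐ[k] Module.End k (P4 k) := liftWeyl p4Gen isWeyl_p4Gen

theorem p4Rep_gen (i : Fin 5) : p4Rep k (gen i) = p4Gen i := liftWeyl_gen _ i

theorem p4Gen_bad (i : Fin 5) {q : P4 k} (hq : q ∈ bad k) : p4Gen i q ∈ bad k := by
  fin_cases i <;> simp [p4Gen]
  · exact mul_mem_bad (1 + X 1) hq
  · exact mul_mem_bad (X 2) hq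
  · exact add_mem (mul_mem_bad (X 3) hq) (eps_pderiv_mem_bad 1 hq)
  · exact add_mem hq (eps_pderiv_mem_bad 2 hq)
  · exact mul_mem_bad (X 0) hq

/-- The operators preserving a subspace. -/
def stab {E : Type*} [AddCommGroup E] [Module k E] (p : Submodule k E) :
    Subalgebra k (Module.End k E) where
  carrier := {T | ∀ q ∈ p, T q ∈ p}
  mul_mem' {a b} ha hb := fun q hq => ha _ (hb q hq)
  one_mem' := fun _ hq => hq
  add_mem' {a b} ha hb := fun q hq => add_mem (ha q hq) (hb q hq)
  zero_mem' := fun _ _ => p.zero_mem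
  algebraMap_mem' r := fun q hq => p.smul_mem r hq

theorem lift_stab {E : Type} [AddCommGroup E] [Module k E] (p : Submodule k E)
    (f : Weyl k →ₐ[k] Module.End k E) (h : ∀ i, f (gen i) ∈ stab p) (φ : Weyl k) :
    f φ ∈ stab p := by
  have hle : Algebra.adjoin k (Set.range (gen (k := k))) ≤ (stab p).comap f :=
    Algebra.adjoin_le (by rintro _ ⟨i, rfl⟩; exact h i)
  rw [adjoin_gen] at hle
  exact hle Algebra.mem_top

theorem p4Rep_bad (φ : Weyl k) : bad k ≤ (bad k).comap (p4Rep k φ) :=
  lift_stab (bad k) (p4Rep k)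
    (fun i => by rw [p4Rep_gen]; exact fun q hq => p4Gen_bad i hq) φ

variable (k) in
/-- The representation on `V`. -/
noncomputable def vRep : Weyl k →ₐ[k] Module.End k (V k) where
  toFun φ := (bad k).mapQ (bad k) (p4Rep k φ) (p4Rep_bad φ)
  map_one' := Submodule.linearMap_qext _ (LinearMap.ext fun q => by simp)
  map_zero' := Submodule.linearMap_qext _ (LinearMap.ext fun q => by simp)
  map_add' φ ψ := Submodule.linearMap_qext _ (LinearMap.ext fun q => by simp)
  map_mul' φ ψ := Submodule.linearMap_qext _ (LinearMap.ext fun q => by simp)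
  commutes' r := Submodule.linearMap_qext _ (LinearMap.ext fun q => by simp)

theorem vRep_mk (φ : Weyl k) (p : P4 k) :
    vRep k φ (Submodule.Quotient.mk p) = Submodule.Quotient.mk (p4Rep k φ p) := rfl

theorem ordMon_map {E F : Type*} [Semiring E] [Semiring F] [Algebra k E] [Algebra k F]
    (f : E →ₐ[k] F) (g : Fin 5 → E) (s : Fin 5 →₀ ℕ) :
    f (ordMon g s) = ordMon (fun i => f (g i)) s := by
  simp [ordMon]

/-- The value at `1`, as a function of the symbol. -/
noncomputable def theta : Sym k →ₐ[k] P4 k := aeval ![1 + X 1, X 2, X 3, 1, X 0]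

theorem p4Rep_one (φ : Weyl k) : p4Rep k φ 1 = theta (sym φ) := by
  have h : (LinearMap.applyₗ (1 : P4 k)).comp ((p4Rep k).toLinearMap.comp ofSym) =
      (theta (k := k)).toLinearMap := by
    refine (MvPolynomial.basisMonomials (Fin 5) k).ext fun s => ?_
    simp only [coe_basisMonomials, LinearMap.comp_apply, LinearMap.applyₗ_apply_apply,
      AlgHom.toLinearMap_apply, ofSym_monomial, ordMon_map, p4Rep_gen]
    rw [monomial_eq_prod]
    simp only [ordMon, Module.End.mul_apply, theta, map_mul, map_pow, aeval_X]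
    have hd2 : ∀ (n : ℕ), ((p4Gen (k := k) 3) ^ n) (X 0 ^ s 4) = X 0 ^ s 4 := by
      intro n
      induction n with
      | zero => simp
      | succ n ih =>
        rw [pow_succ', Module.End.mul_apply, ih]
        simp [p4Gen, Derivation.leibniz_pow]
    have hd1 : ∀ (n : ℕ), ((p4Gen (k := k) 2) ^ n) (X 0 ^ s 4) = X 3 ^ n * X 0 ^ s 4 := by
      intro n
      induction n with
      | zero => simp
      | succ n ih =>
        rw [pow_succ', Module.End.mul_apply, ih]
        simp [p4Gen, Derivation.leibniz_pow, Derivation.leibniz]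
        ring
    have h4 : ((p4Gen (k := k) 4) ^ s 4) 1 = X 0 ^ s 4 := by
      simp [p4Gen, LinearMap.pow_mulLeft]
    rw [h4, hd2, hd1]
    simp [p4Gen, LinearMap.pow_mulLeft]
    ring
  simpa using congrArg (fun T : Sym k →ₗ[k] P4 k => T (sym φ)) h

theorem theta_eq_zero {d : ℤ × ℤ} (h1 : d.1 ≤ 2) (h2 : d.2 ≤ 2) {f : Sym k} (hf : f ∈ Deg k d)
    (h : theta f ∈ bad k) : f = 0 := by
  classical
  have hs : ∀ s ∈ f.support, (s 0 : ℤ) + s 1 - s 2 - s 3 = d.1 ∧ (s 2 : ℤ) + s 3 + s 4 = d.2 := by
    intro s hs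
    have hw : Finsupp.weight wt s = d := hf (mem_support_iff.1 hs)
    rw [weight_wt] at hw
    subst hw
    constructor <;> simp [wt] <;> ring
  let B : Submodule k (P4 k) := restrictSupport k badExpᶜ
  have hB : theta f ∈ B := by
    rw [as_sum f, map_sum]
    refine sum_mem fun s hss => ?_
    obtain ⟨ha, hb⟩ := hs s hss
    rw [show monomial s (coeff s f) = coeff s f • monomial s (1 : k) by simp [smul_monomial],
      map_smul]
    refine Submodule.smul_mem _ _ ?_
    intro n hn
    simp only [theta, monomial_eq_prod, map_mul, map_pow, aeval_X, Finset.mem_coe] at hn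
    simp only [Matrix.cons_val_zero, Matrix.cons_val_one, Matrix.cons_val, one_pow, mul_one] at hn
    set p : P4 k := (1 + X 1) ^ s 0 * X 2 ^ s 1 * X 3 ^ s 2 * X 0 ^ s 4 with hp
    have e0 : n 0 ≤ s 4 := by
      refine (monomial_le_degreeOf 0 hn).trans ?_
      rw [hp]
      refine (degreeOf_mul_le _ _ _).trans ?_
      have a1 : degreeOf 0 (1 + X 1 : P4 k) = 0 := by
        refine Nat.le_zero.1 ((degreeOf_add_le _ _ _).trans ?_)
        simp [degreeOf_X_of_ne]
      have b1 := degreeOf_pow_le (R := k) 0 (1 + X 1 : P4 k) (s 0)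
      have b2 := degreeOf_pow_le (R := k) 0 (X 2 : P4 k) (s 1)
      have b3 := degreeOf_pow_le (R := k) 0 (X 3 : P4 k) (s 2)
      rw [a1] at b1
      rw [degreeOf_X_of_ne (i := (0 : Fin 4)) (j := 2) (by decide)] at b2
      rw [degreeOf_X_of_ne (i := (0 : Fin 4)) (j := 3) (by decide)] at b3
      have a0 : degreeOf 0 ((1 + X 1 : P4 k) ^ s 0 * X 2 ^ s 1 * X 3 ^ s 2) = 0 := by
        have c1 := degreeOf_mul_le 0 ((1 + X 1 : P4 k) ^ s 0) (X 2 ^ s 1)
        have c2 := degreeOf_mul_le 0 ((1 + X 1 : P4 k) ^ s 0 * X 2 ^ s 1) (X 3 ^ s 2)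
        simp only [mul_zero] at b1 b2 b3
        omega
      rw [a0, zero_add]
      exact (degreeOf_pow_le _ _ _).trans (by simp)
    have e1 : n.degree ≤ s 0 + s 1 + s 2 + s 4 := by
      refine (le_totalDegree hn).trans ?_ |>.trans' (le_of_eq (by rfl))
      rw [hp]
      refine (totalDegree_mul _ _).trans (Nat.add_le_add ((totalDegree_mul _ _).trans
        (Nat.add_le_add ((totalDegree_mul _ _).trans (Nat.add_le_add ?_ ?_)) ?_)) ?_)
      · refine (totalDegree_pow _ _).trans ?_
        have : totalDegree (1 + X 1 : P4 k) ≤ 1 := by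
          refine (totalDegree_add _ _).trans ?_
          simp
        calc s 0 * totalDegree (1 + X 1 : P4 k) ≤ s 0 * 1 := Nat.mul_le_mul_left _ this
          _ = s 0 := mul_one _
      all_goals exact (totalDegree_pow _ _).trans (by simp)
    simp only [badExp, Set.mem_compl_iff, Set.mem_setOf_eq, not_or, not_le]
    omega
  have h0 : theta f = 0 := by
    rw [← support_eq_empty, Finset.eq_empty_iff_forall_notMem]
    exact fun n hn => hB hn (h hn)
  let back : P4 k →ₐ[k] Sym k := aeval ![X 4, X 0 - 1, X 1, X 2]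
  let drop : Sym k →ₐ[k] Sym k := aeval ![X 0, X 1, X 2, 1, X 4]
  have hbd : back.comp theta = drop := by
    refine MvPolynomial.algHom_ext fun i => ?_
    fin_cases i <;> simp [back, drop, theta]
  have hd : drop f = 0 := by rw [← hbd, AlgHom.comp_apply, h0, map_zero]
  have hmono : ∀ s : Fin 5 →₀ ℕ, drop (monomial s (1 : k)) = monomial (s.update 3 0) 1 := by
    intro s
    rw [monomial_eq_prod, monomial_eq_prod]
    simp [drop, Finsupp.update, Function.update]
  ext s
  rw [coeff_zero]
  by_contra hne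
  have hsf : s ∈ f.support := mem_support_iff.2 hne
  apply hne
  have h' := congrArg (coeff (s.update 3 0)) hd
  rw [as_sum f, map_sum, coeff_sum, coeff_zero] at h'
  rw [← h', Finset.sum_eq_single s]
  · rw [show monomial s (coeff s f) = coeff s f • monomial s (1 : k) by simp [smul_monomial],
      map_smul, hmono, coeff_smul, coeff_monomial, if_pos rfl, smul_eq_mul, mul_one]
  · intro s' hs' hne'
    rw [show monomial s' (coeff s' f) = coeff s' f • monomial s' (1 : k) by simp [smul_monomial],
      map_smul, hmono, coeff_smul, coeff_monomial, if_neg, smul_zero]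
    intro he
    apply hne'
    have e := fun i => congrArg (fun u : Fin 5 →₀ ℕ => u i) he
    have e0 := e 0; have e1 := e 1; have e2 := e 2; have e4 := e 4
    simp [Finsupp.update, Function.update] at e0 e1 e2 e4
    obtain ⟨-, hb⟩ := hs s hsf
    obtain ⟨-, hb'⟩ := hs s' hs'
    ext i
    fin_cases i <;> simp <;> omega
  · exact fun hn => absurd hsf hn

/-- Faithfulness in low degrees. -/
theorem vRep_injOn {d : ℤ × ℤ} (h1 : d.1 ≤ 2) (h2 : d.2 ≤ 2) {φ : Weyl k} (hφ : φ ∈ Piece k d)
    (h : vRep k φ = 0) : φ = 0 := by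
  apply sym_injective
  rw [map_zero]
  refine theta_eq_zero h1 h2 hφ ?_
  rw [← p4Rep_one, ← Submodule.Quotient.mk_eq_zero, ← vRep_mk, h, LinearMap.zero_apply]

theorem vRep_h_cube : vRep k (gen 4) ^ 3 = 0 := by
  refine Submodule.linearMap_qext _ (LinearMap.ext fun q => ?_)
  rw [← map_pow]
  simp only [LinearMap.comp_apply, Submodule.mkQ_apply, LinearMap.zero_apply]
  rw [vRep_mk, Submodule.Quotient.mk_eq_zero, map_pow, p4Rep_gen]
  simp only [p4Gen, Matrix.cons_val, LinearMap.pow_mulLeft, LinearMap.mulLeft_apply]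
  rw [mul_comm]
  refine mul_mem_bad q ?_
  rw [X, monomial_pow, monomial_mem_restrictSupport]
  exact Or.inl (Or.inl (by simp))

theorem isUnit_vRep_x : IsUnit (vRep k (gen 0)) := by
  have : vRep k (gen 0) = 1 + (vRep k (gen 0) - 1) := by abel
  rw [this]
  refine IsNilpotent.isUnit_one_add ⟨7, ?_⟩
  rw [← map_one (vRep k), ← map_sub, ← map_pow]
  refine Submodule.linearMap_qext _ (LinearMap.ext fun q => ?_)
  simp only [LinearMap.comp_apply, Submodule.mkQ_apply, LinearMap.zero_apply]
  rw [vRep_mk, Submodule.Quotient.mk_eq_zero, map_pow, map_sub, map_one, p4Rep_gen]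
  have h : p4Gen (k := k) 0 - 1 = LinearMap.mulLeft k (X 1) := by
    refine LinearMap.ext fun f => ?_
    simp [p4Gen, add_mul]
  rw [h, LinearMap.pow_mulLeft, LinearMap.mulLeft_apply, mul_comm]
  refine mul_mem_bad q ?_
  rw [X, monomial_pow, monomial_mem_restrictSupport]
  exact Or.inl (Or.inr (by simp))

theorem isUnit_vRep_d : IsUnit (vRep k (gen 3)) := by
  have : vRep k (gen 3) = 1 + (vRep k (gen 3) - 1) := by abel
  rw [this]
  refine IsNilpotent.isUnit_one_add ⟨3, ?_⟩
  rw [← map_one (vRep k), ← map_sub, ← map_pow]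
  refine Submodule.linearMap_qext _ (LinearMap.ext fun q => ?_)
  simp only [LinearMap.comp_apply, Submodule.mkQ_apply, LinearMap.zero_apply]
  rw [vRep_mk, Submodule.Quotient.mk_eq_zero, map_pow, map_sub, map_one, p4Rep_gen]
  have h : p4Gen (k := k) 3 - 1 = LinearMap.mulLeft k (X 0) * (pderiv 2).toLinearMap := by
    refine LinearMap.ext fun f => ?_
    simp [p4Gen]
  have hc : Commute (LinearMap.mulLeft k (X 0 : P4 k)) (pderiv (2 : Fin 4)).toLinearMap := by
    refine LinearMap.ext fun f => ?_
    simp [Derivation.leibniz]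
  rw [h, hc.mul_pow, LinearMap.pow_mulLeft, Module.End.mul_apply, LinearMap.mulLeft_apply,
    mul_comm]
  refine mul_mem_bad _ ?_
  rw [X, monomial_pow, monomial_mem_restrictSupport]
  exact Or.inl (Or.inl (by simp))

variable (k) in
/-- The inverse of `x₁`. -/
noncomputable def xInv : Module.End k (V k) := ↑(isUnit_vRep_x (k := k)).unit⁻¹

theorem xInv_mul : xInv k * vRep k (gen 0) = 1 := (isUnit_vRep_x (k := k)).val_inv_mul

theorem mul_xInv : vRep k (gen 0) * xInv k = 1 := (isUnit_vRep_x (k := k)).mul_val_inv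

variable (k) in
/-- The central operator `h² x₁⁻¹`. -/
noncomputable def Qop : Module.End k (V k) := vRep k (gen 4) ^ 2 * xInv k

instance : Module.Finite k (V k) := by
  classical
  refine ⟨⟨((Finsupp.finite_of_degree_le (σ := Fin 4) 7).toFinset.image (f :=
    fun n => (Submodule.Quotient.mk (monomial n (1 : k)) : V k))), ?_⟩⟩
  refine eq_top_iff.2 fun v _ => ?_
  obtain ⟨p, rfl⟩ := Submodule.Quotient.mk_surjective _ v
  rw [as_sum p]
  simp only [← Submodule.mkQ_apply, map_sum]
  refine sum_mem fun n _ => ?_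
  rw [show monomial n (coeff n p) = coeff n p • monomial n (1 : k) by simp [smul_monomial],
    map_smul]
  refine Submodule.smul_mem _ _ ?_
  by_cases hn : n.degree ≤ 7
  · exact Submodule.subset_span (by
      simp only [Finset.coe_image, Set.Finite.coe_toFinset]
      exact ⟨n, hn, rfl⟩)
  · rw [Submodule.mkQ_apply, (Submodule.Quotient.mk_eq_zero _).2
      ((monomial_mem_restrictSupport k).2 (Or.inl (Or.inr (by omega))))]
    exact zero_mem _

end Vale.Agent.P195.CE
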