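import Mathlib.RingTheory.MvPolynomial.WeightedHomogeneous
import Mathlib.Algebra.MvPolynomial.PDeriv
import Mathlib.Algebra.Algebra.Subalgebra.Basic
import Mathlib.LinearAlgebra.Finsupp.LinearCombination
import Mathlib.Tactic.Ring
import Mathlib.Tactic.NoncommRing
import Mathlib.Tactic.FinCases

/-!
# The homogenised Weyl algebra in two variables

Variables: `X 0 = x₁`, `X 1 = x₂`, `X 2 = d₁`, `X 3 = d₂`, `X 4 = h`; relations `[dₗ, xⱼ] = δ h`.
It is realised as the commutant of the operators of right multiplication on the symbol space.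
-/

namespace Vale.Agent.P195.CE

open MvPolynomial

variable (k : Type) [Field k]

/-- Symbols. -/
abbrev Sym := MvPolynomial (Fin 5) k

/-- Operators on symbols. -/
abbrev Op := Module.End k (Sym k)

variable {k}

/-- Multiplication by a symbol. -/
noncomputable def mulOp (f : Sym k) : Op k := LinearMap.mulLeft k f

/-- Left multiplication by the generators. -/
noncomputable def lGen : Fin 5 → Op k :=
  ![mulOp (X 0), mulOp (X 1), mulOp (X 2) + mulOp (X 4) * (pderiv 0).toLinearMap,
    mulOp (X 3) + mulOp (X 4) * (pderiv 1).toLinearMap, mulOp (X 4)]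

/-- Right multiplication by the generators. -/
noncomputable def rGen : Fin 5 → Op k :=
  ![mulOp (X 0) + mulOp (X 4) * (pderiv 2).toLinearMap,
    mulOp (X 1) + mulOp (X 4) * (pderiv 3).toLinearMap, mulOp (X 2), mulOp (X 3), mulOp (X 4)]

theorem pderiv_comm' (i j : Fin 5) (f : Sym k) :
    pderiv i (pderiv j f) = pderiv j (pderiv i f) := by
  classical
  induction f using MvPolynomial.induction_on with
  | C a => simp
  | add p q hp hq => simp [hp, hq]
  | mul_X p n hp =>
    simp only [pderiv_mul, pderiv_X, map_add]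
    rcases eq_or_ne n i with rfl | hi <;> rcases eq_or_ne n j with rfl | hj <;>
      simp_all [Pi.single_apply, eq_comm] <;> ring

theorem lGen_comm_rGen (i j : Fin 5) : lGen (k := k) i * rGen j = rGen j * lGen i := by
  fin_cases i <;> fin_cases j <;>
    (refine LinearMap.ext fun f => ?_
     simp [lGen, rGen, mulOp, Derivation.leibniz, pderiv_comm' (2 : Fin 5) 0 f,
       pderiv_comm' (2 : Fin 5) 1 f, pderiv_comm' (3 : Fin 5) 0 f, pderiv_comm' (3 : Fin 5) 1 f]
     try ring)

variable (k) in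
/-- The homogenised Weyl algebra, as the commutant of the right multiplications. -/
noncomputable abbrev Weyl : Subalgebra k (Op k) :=
  Subalgebra.centralizer k (Set.range (rGen (k := k)))

/-- The ring structure, declared directly to shorten instance searches. -/
noncomputable instance instRingWeyl : Ring (Weyl k) := Subalgebra.toRing _

theorem mem_weyl_iff {φ : Op k} : φ ∈ Weyl k ↔ ∀ j, rGen j * φ = φ * rGen j := by
  simp [Subalgebra.mem_centralizer_iff]

theorem rGen_apply_weyl (φ : Weyl k) (j : Fin 5) (f : Sym k) :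
    rGen j ((φ : Op k) f) = (φ : Op k) (rGen j f) :=
  congrArg (fun T : Op k => T f) (mem_weyl_iff.1 φ.2 j)

/-- The generators, in the algebra. -/
noncomputable def gen (i : Fin 5) : Weyl k :=
  ⟨lGen i, mem_weyl_iff.2 fun j => (lGen_comm_rGen i j).symm⟩

/-- The symbol of an element. -/
noncomputable def sym : Weyl k →ₗ[k] Sym k where
  toFun φ := (φ : Op k) 1
  map_add' _ _ := rfl
  map_smul' _ _ := rfl

theorem sym_mul (φ ψ : Weyl k) : sym (φ * ψ) = (φ : Op k) (sym ψ) := rfl

@[simp]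
theorem sym_one : sym (1 : Weyl k) = 1 := rfl

@[simp]
theorem sym_gen (i : Fin 5) : sym (gen i : Weyl k) = X i := by
  fin_cases i <;> simp [sym, gen, lGen, mulOp]

/-- The ordered monomial `x^α d^β h^γ` in an algebra containing five elements. -/
def ordMon {E : Type*} [Monoid E] (g : Fin 5 → E) (s : Fin 5 →₀ ℕ) : E :=
  g 0 ^ s 0 * g 1 ^ s 1 * g 2 ^ s 2 * g 3 ^ s 3 * g 4 ^ s 4

/-- The linear map sending a symbol to its ordered product. -/
noncomputable def ordLift {E : Type*} [Ring E] [Algebra k E] (g : Fin 5 → E) : Sym k →ₗ[k] E :=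
  (MvPolynomial.basisMonomials (Fin 5) k).constr k (fun s => ordMon g s)

@[simp]
theorem ordLift_monomial {E : Type*} [Ring E] [Algebra k E] (g : Fin 5 → E) (s : Fin 5 →₀ ℕ) :
    ordLift (k := k) g (monomial s 1) = ordMon g s := by
  have := (MvPolynomial.basisMonomials (Fin 5) k).constr_basis k (fun s => ordMon g s) s
  simpa [ordLift] using this

theorem monomial_eq_prod (s : Fin 5 →₀ ℕ) :
    (monomial s 1 : Sym k) = X 0 ^ s 0 * X 1 ^ s 1 * X 2 ^ s 2 * X 3 ^ s 3 * X 4 ^ s 4 := by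
  rw [monomial_eq, C_1, one_mul, Finsupp.prod_fintype _ _ (fun i => pow_zero _),
    Fin.prod_univ_five]

theorem lGen_one (i : Fin 5) : lGen (k := k) i 1 = X i := by
  fin_cases i <;> simp [lGen, mulOp]

theorem mulOp_pow (f : Sym k) (n : ℕ) : mulOp f ^ n = mulOp (f ^ n) := by
  simp [mulOp, LinearMap.pow_mulLeft]

theorem lGen_d_pow_apply {v : Fin 5} {w : Fin 5} (L : Op k)
    (hL : L = mulOp (X v) + mulOp (X 4) * (pderiv w).toLinearMap) (n : ℕ) (f : Sym k)
    (hf : pderiv w f = 0) (hvw : v ≠ w) : (L ^ n) f = X v ^ n * f := by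
  induction n with
  | zero => simp
  | succ n ih =>
    rw [pow_succ', Module.End.mul_apply, ih, hL]
    simp [mulOp, Derivation.leibniz, hf, pderiv_X_of_ne hvw, Derivation.leibniz_pow]
    ring

theorem sym_ordMon (s : Fin 5 →₀ ℕ) : sym (ordMon (gen (k := k)) s) = monomial s 1 := by
  have hx0 : lGen (k := k) 0 = mulOp (X 0) := rfl
  have hx1 : lGen (k := k) 1 = mulOp (X 1) := rfl
  have hx4 : lGen (k := k) 4 = mulOp (X 4) := rfl
  simp only [sym, ordMon, gen, LinearMap.coe_mk, AddHom.coe_mk, Subalgebra.coe_mul,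
    Subalgebra.coe_pow, Module.End.mul_apply, hx0, hx1, hx4, mulOp_pow]
  rw [monomial_eq_prod]
  simp only [mulOp, LinearMap.mulLeft_apply, mul_one]
  have e3 : (lGen (k := k) 3 ^ s 3) (X 4 ^ s 4) = X 3 ^ s 3 * X 4 ^ s 4 :=
    lGen_d_pow_apply _ rfl _ _ (by simp [Derivation.leibniz_pow]) (by decide)
  have e2 : (lGen (k := k) 2 ^ s 2) (X 3 ^ s 3 * X 4 ^ s 4) =
      X 2 ^ s 2 * (X 3 ^ s 3 * X 4 ^ s 4) :=
    lGen_d_pow_apply (v := 2) (w := 0) _ rfl _ _
      (by simp [Derivation.leibniz, Derivation.leibniz_pow]) (by decide)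
  rw [e3, e2]
  ring

/-- The element with a given symbol. -/
noncomputable def ofSym : Sym k →ₗ[k] Weyl k := ordLift gen

@[simp]
theorem sym_ofSym (f : Sym k) : sym (ofSym f) = f := by
  have h : (sym.comp ofSym : Sym k →ₗ[k] Sym k) = LinearMap.id := by
    refine (MvPolynomial.basisMonomials (Fin 5) k).ext fun s => ?_
    simp [ofSym, sym_ordMon]
  exact congrArg (fun T : Sym k →ₗ[k] Sym k => T f) h

theorem rGen_x_pow_apply (w : Fin 5) (v : Fin 5) (R : Op k)
    (hR : R = mulOp (X v) + mulOp (X 4) * (pderiv w).toLinearMap) (n : ℕ) (f : Sym k)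
    (hf : pderiv w f = 0) (hvw : v ≠ w) : (R ^ n) f = X v ^ n * f :=
  lGen_d_pow_apply R hR n f hf hvw

theorem rGen_ordered_one (s : Fin 5 →₀ ℕ) :
    (rGen (k := k) 4 ^ s 4 * rGen 3 ^ s 3 * rGen 2 ^ s 2 * rGen 1 ^ s 1 * rGen 0 ^ s 0 : Op k) 1 =
      monomial s 1 := by
  have h2 : rGen (k := k) 2 = mulOp (X 2) := rfl
  have h3 : rGen (k := k) 3 = mulOp (X 3) := rfl
  have h4 : rGen (k := k) 4 = mulOp (X 4) := rfl
  simp only [Module.End.mul_apply, h2, h3, h4, mulOp_pow]
  have e0 : (rGen (k := k) 0 ^ s 0) 1 = X 0 ^ s 0 * 1 :=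
    rGen_x_pow_apply 2 0 _ rfl _ _ (by simp) (by decide)
  have e1 : (rGen (k := k) 1 ^ s 1) (X 0 ^ s 0 * 1) = X 1 ^ s 1 * (X 0 ^ s 0 * 1) :=
    rGen_x_pow_apply 3 1 _ rfl _ _ (by simp [Derivation.leibniz_pow]) (by decide)
  rw [e0, e1, monomial_eq_prod]
  simp only [mulOp, LinearMap.mulLeft_apply]
  ring

theorem sym_injective : Function.Injective (sym : Weyl k → Sym k) := by
  intro φ ψ h
  apply Subtype.ext
  refine (MvPolynomial.basisMonomials (Fin 5) k).ext fun s => ?_
  have key : ∀ χ : Weyl k, (χ : Op k) (monomial s 1) =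
      (rGen (k := k) 4 ^ s 4 * rGen 3 ^ s 3 * rGen 2 ^ s 2 * rGen 1 ^ s 1 * rGen 0 ^ s 0 : Op k)
        (sym χ) := by
    intro χ
    rw [← rGen_ordered_one]
    have hc : ∀ j, Commute (χ : Op k) (rGen j) := fun j => (mem_weyl_iff.1 χ.2 j).symm
    exact congrArg (fun T : Op k => T 1)
      ((((((hc 4).pow_right (s 4)).mul_right ((hc 3).pow_right (s 3))).mul_right
        ((hc 2).pow_right (s 2))).mul_right ((hc 1).pow_right (s 1))).mul_right
        ((hc 0).pow_right (s 0))).eq
  simp only [coe_basisMonomials]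
  rw [key φ, key ψ, h]

@[simp]
theorem ofSym_sym (φ : Weyl k) : ofSym (sym φ) = φ := sym_injective (sym_ofSym _)

theorem sym_mul' (φ ψ : Weyl k) : sym (φ * ψ) = (φ : Op k) (sym ψ) := rfl

theorem sym_gen_mul (i : Fin 5) (ψ : Weyl k) : sym (gen i * ψ) = lGen i (sym ψ) := rfl

theorem sym_mul_gen (φ : Weyl k) (i : Fin 5) : sym (φ * gen i) = rGen i (sym φ) := by
  rw [sym_mul, sym_gen]
  have : X i = rGen (k := k) i 1 := by fin_cases i <;> simp [rGen, mulOp]
  rw [this, ← rGen_apply_weyl]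
  rfl

end Vale.Agent.P195.CE
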